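import Vale.Agent.P027M.X.Unq
import Vale.Agent.P027M.K.Pic

/-! # P027, route M, block X : `toPc` is an isomorphism on the classes of degree `0`, natural -/

set_option linter.all false

open Polynomial Vale.Agent.P019P P025H492 P025H816

noncomputable section

namespace Vale.Agent.P027M.X

open B B.PtsAux

section
variable {k L : Type*} [Field k] [Field L] [Algebra k L] [CFF k L] {F : k[X]} {m w : L}

variable (F m w) in
/-- the class of the affine part of a divisor -/
def aff : (Plk k L →₀ ℤ) →+ PicP F :=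
  Finsupp.liftAddHom fun P =>
    zmultiplesHom _ (if 0 ≤ ord P m then cl F (vl P m, vl P w) else 0)

theorem aff_single (P : Plk k L) (n : ℤ) : aff F m w (Finsupp.single P n) =
    n • (if 0 ≤ ord P m then cl F (vl P m, vl P w) else 0) := by
  rw [aff, Finsupp.liftAddHom_apply_single, zmultiplesHom_apply]

theorem aff_oo (h : Hyp F m w) (n : ℤ) : aff F m w (Finsupp.single (oo h) n) = 0 := by
  rw [aff_single, if_neg (oo_not h), smul_zero]

theorem aff_dpt (h : Hyp F m w) (p : k × k) : aff F m w (dpt h p) = cl F p := by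
  by_cases hp : p.2 ^ 2 = F.eval p.1
  · obtain ⟨h1, h2, h3⟩ := plc_spec h hp
    rw [dpt, map_sub, aff_oo, aff_single, if_pos h1, h2, h3, one_smul, sub_zero]
  · rw [dpt_off h hp, cl_off hp, map_zero]

theorem aff_dvs (h : Hyp F m w) (Z : Multiset (k × k)) : aff F m w (dvs h Z) = sm F Z := by
  induction Z using Multiset.induction_on with
  | empty => simp
  | cons p Z ih => rw [dvs_cons, map_add, ih, aff_dpt, sm_cons]

theorem aff_poly (h : Hyp F m w) {a : k[X]} (ha : a ≠ 0) : aff F m w (dv k (aeval m a)) = 0 := by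
  obtain ⟨Z, -, e⟩ := dv_poly h ha
  rw [e, aff_dvs, sm_add, cj, sm_neg, add_neg_cancel]

theorem aff_cop (h : Hyp F m w) {A B : k[X]} (hAB : IsCoprime A B) :
    aff F m w (dv k (aeval m A + aeval m B * w)) = 0 := by
  have := CFF.ac (k := k) (F := L)
  have hN0 : A ^ 2 - B ^ 2 * F ≠ 0 := fun e => by
    have h1 := norm_ab h A B
    rw [e, map_zero] at h1
    rcases mul_eq_zero.1 h1 with h1 | h1
    · obtain ⟨rfl, rfl⟩ := indep h A B h1
      exact not_isCoprime_zero_zero hAB
    · obtain ⟨rfl, h2⟩ := indep h A (-B) h1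
      rw [neg_eq_zero.1 h2] at hAB
      exact not_isCoprime_zero_zero hAB
  have hc := leadingCoeff_ne_zero.2 hN0
  have hN : A ^ 2 - B ^ 2 * F = C (A ^ 2 - B ^ 2 * F).leadingCoeff *
      (((A ^ 2 - B ^ 2 * F).roots.map fun μ => (μ, -A.eval μ / B.eval μ)).map
        fun p => X - C p.1).prod := by
    rw [Multiset.map_map]
    exact (C_leadingCoeff_mul_prod_multiset_X_sub_C IsAlgClosed.card_roots_eq_natDegree).symm
  have hZ : ∀ p ∈ (A ^ 2 - B ^ 2 * F).roots.map fun μ => (μ, -A.eval μ / B.eval μ),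
      A.eval p.1 + B.eval p.1 * p.2 = 0 := fun p hp => by
    obtain ⟨μ, hμ, rfl⟩ := Multiset.mem_map.1 hp
    have h1 := ((mem_roots hN0).1 hμ).eq_zero
    have hB : B.eval μ ≠ 0 := fun e => cop_eval hAB (by simpa [e] using h1) e
    show A.eval μ + B.eval μ * (-A.eval μ / B.eval μ) = 0
    field_simp
    ring
  rw [(dv_ab h hc hAB hN hZ).2, aff_dvs, sm_div hc hAB hN hZ]

theorem aff_dv (h : Hyp F m w) {z : L} (hz : z ≠ 0) : aff F m w (dv k z) = 0 := by
  classical
  obtain ⟨a, b, c, hc, e0⟩ := h.top z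
  obtain ⟨a', b', h1, h2, h3⟩ := extract_gcd a b
  have hcop := (gcd_isUnit_iff a' b').1 h3
  have e : aeval m c * z = aeval m (gcd a b) * (aeval m a' + aeval m b' * w) := by
    rw [e0, mul_add, ← mul_assoc, ← map_mul, ← map_mul, ← h1, ← h2]
  have h0 := mul_ne_zero (ne0 h hc) hz
  have h4 := congrArg (fun z => aff F m w (dv k z)) e
  rw [e] at h0
  have hg : gcd a b ≠ 0 := fun h => left_ne_zero_of_mul h0 (by rw [h, map_zero])
  simp only [dv_mul (ne0 h hc) hz, dv_mul (left_ne_zero_of_mul h0) (right_ne_zero_of_mul h0),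
    map_add, aff_poly h hc, aff_poly h hg, aff_cop h hcop] at h4
  simpa using h4

/-- the retraction of `toPc` -/
def ofPc (h : Hyp F m w) : Pc k L →+ PicP F :=
  QuotientAddGroup.lift _ (aff F m w) (by
    rintro _ ⟨z, hz, rfl⟩
    exact aff_dv h hz)

theorem ofPc_mk (h : Hyp F m w) (D : Plk k L →₀ ℤ) :
    ofPc h (QuotientAddGroup.mk D) = aff F m w D := rfl

theorem ofPc_toPc (h : Hyp F m w) (x : PicP F) : ofPc h (toPc h x) = x :=
  DFunLike.congr_fun (PicP.hom_ext (φ := (ofPc h).comp (toPc h)) (ψ := AddMonoidHom.id _)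
    fun p _ => by rw [AddMonoidHom.comp_apply, toPc_cl, ofPc_mk, aff_dpt]; rfl) x

theorem toPc_inj (h : Hyp F m w) : Function.Injective (toPc h) :=
  Function.LeftInverse.injective (ofPc_toPc h)

theorem toPc_aff (h : Hyp F m w) (D : Plk k L →₀ ℤ) : toPc h (aff F m w D) =
    QuotientAddGroup.mk (D - Finsupp.single (oo h) (dg D)) := by
  induction D using Finsupp.induction_linear with
  | zero => simp
  | add f g hf hg =>
    rw [map_add, map_add, hf, hg, ← QuotientAddGroup.mk_add, map_add, Finsupp.single_add,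
      add_sub_add_comm]
  | single P n =>
    rw [aff_single, dg_one]
    split_ifs with hP
    · rw [map_zsmul, toPc_cl, ← QuotientAddGroup.mk_zsmul, dpt, plc_vl h hP, smul_sub]
      simp
    · rw [eq_oo h hP]; simp

/-- the degree of a class -/
def dgP : Pc k L →+ ℤ :=
  QuotientAddGroup.lift _ dg (by
    rintro _ ⟨z, -, rfl⟩
    exact dg_dv z)

theorem dgP_mk (D : Plk k L →₀ ℤ) : dgP (QuotientAddGroup.mk D : Pc k L) = dg D := rfl

theorem dgP_toPc (h : Hyp F m w) (x : PicP F) : dgP (toPc h x) = 0 :=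
  DFunLike.congr_fun (PicP.hom_ext (φ := dgP.comp (toPc h)) (ψ := 0)
    fun p _ => by rw [AddMonoidHom.comp_apply, toPc_cl, dgP_mk, dg_dpt]; rfl) x

theorem toPc_ofPc (h : Hyp F m w) {y : Pc k L} (hy : dgP y = 0) : toPc h (ofPc h y) = y := by
  obtain ⟨D, rfl⟩ := QuotientAddGroup.mk_surjective y
  rw [dgP_mk] at hy
  rw [ofPc_mk, toPc_aff, hy, Finsupp.single_zero, sub_zero]

theorem mem_range_toPc (h : Hyp F m w) {y : Pc k L} : y ∈ (toPc h).range ↔ dgP y = 0 :=
  ⟨fun ⟨x, e⟩ => e ▸ dgP_toPc h x, fun e => ⟨_, toPc_ofPc h e⟩⟩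

theorem dgP_tors {n : ℕ} (hn : n ≠ 0) {y : Pc k L} (hy : n • y = 0) : dgP y = 0 := by
  have := congrArg dgP hy
  rw [map_nsmul, map_zero] at this
  exact (smul_eq_zero.1 this).resolve_left hn

theorem toPc_ofPc_tors (h : Hyp F m w) {n : ℕ} (hn : n ≠ 0) {y : Pc k L} (hy : n • y = 0) :
    toPc h (ofPc h y) = y := toPc_ofPc h (dgP_tors hn hy)

/-- the torsion subgroups agree -/
def torsEquiv (h : Hyp F m w) {n : ℕ} (hn : n ≠ 0) : tors (PicP F) n ≃+ tors (Pc k L) n where
  toFun x := ⟨toPc h x, by rw [mem_tors, ← map_nsmul, mem_tors.1 x.2, map_zero]⟩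
  invFun y := ⟨ofPc h y, by rw [mem_tors, ← map_nsmul, mem_tors.1 y.2, map_zero]⟩
  left_inv x := Subtype.ext (ofPc_toPc h x)
  right_inv y := Subtype.ext (toPc_ofPc_tors h hn y.2)
  map_add' x y := Subtype.ext (map_add _ _ _)

end

section nat

universe u

open _root_.P027M.K

variable {k L k' L' : Type u} [Field k] [Field L] [Algebra k L] [CFF k L] [Field k'] [Field L']
  [Algebra k' L'] [CFF k' L'] {F : k[X]} {m w : L} {F' : k'[X]} {m' w' : L'}
  {s : L ≃+* L'} {s₀ : k ≃+* k'} (hs : ∀ a, s (algebraMap k L a) = algebraMap k' L' (s₀ a))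

theorem vl_semi {P : Plk k L} {z : L} (hz : 0 ≤ ord P z) :
    vl (plEquiv s s₀ hs P) (s z) = s₀ (vl P z) := vl_eq ((val_vl hz).semi hs)

theorem vl_cmul {P : Plk k L} (a : k) {z : L} (hz : 0 ≤ ord P z) :
    vl P (algebraMap k L a * z) = a * vl P z := vl_eq ((Val.const P a).mul (val_vl hz))

theorem ord_cmul (P : Plk k L) {a : k} (ha : a ≠ 0) (z : L) :
    ord P (algebraMap k L a * z) = ord P z := by
  by_cases hz : z = 0
  · rw [hz, mul_zero]
  · rw [ord_mul P ((_root_.map_ne_zero _).2 ha) hz, ord_const, zero_add]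

theorem semi_oo (h : Hyp F m w) (h' : Hyp F' m' w') {a : k'} (ha : a ≠ 0)
    (hm : m' = algebraMap k' L' a * s m) : plEquiv s s₀ hs (oo h) = oo h' :=
  eq_oo h' (by rw [hm, ord_cmul _ ha, ord_plEquiv]; exact oo_not h)

theorem semi_plc (h : Hyp F m w) (h' : Hyp F' m' w') {a b : k'} (ha : a ≠ 0)
    (hm : m' = algebraMap k' L' a * s m) (hw : w' = algebraMap k' L' b * s w) {p : k × k}
    (hp : p.2 ^ 2 = F.eval p.1) :
    plEquiv s s₀ hs (plc h p) = plc h' (a * s₀ p.1, b * s₀ p.2) := by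
  obtain ⟨h1, h2, h3⟩ := plc_spec h hp
  have h4 := (h.pts.pt _ h1).1
  refine ((plc_eq_iff h' (by rwa [hm, ord_cmul _ ha, ord_plEquiv]) _).2 ?_).symm
  rw [hm, hw, vl_cmul _ (by rwa [ord_plEquiv]), vl_cmul _ (by rwa [ord_plEquiv]), vl_semi hs h1,
    vl_semi hs h4, h2, h3]

/-- naturality on points -/
theorem semiP_cl (h : Hyp F m w) (h' : Hyp F' m' w') {a b : k'} (ha : a ≠ 0)
    (hm : m' = algebraMap k' L' a * s m) (hw : w' = algebraMap k' L' b * s w) {p : k × k}
    (hp : p.2 ^ 2 = F.eval p.1) :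
    semiP hs (toPc h (cl F p)) = toPc h' (cl F' (a * s₀ p.1, b * s₀ p.2)) := by
  rw [toPc_cl, toPc_cl, semiP_mk, dpt, dpt, Finsupp.mapDomain_sub, Finsupp.mapDomain_single,
    Finsupp.mapDomain_single, semi_oo hs h h' ha hm, semi_plc hs h h' ha hm hw hp]

/-- naturality, general form -/
theorem semiP_toPc (h : Hyp F m w) (h' : Hyp F' m' w') {a b : k'} (ha : a ≠ 0)
    (hm : m' = algebraMap k' L' a * s m) (hw : w' = algebraMap k' L' b * s w)
    (φ : PicP F →+ PicP F') (hφ : ∀ p : k × k, p.2 ^ 2 = F.eval p.1 →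
      φ (cl F p) = cl F' (a * s₀ p.1, b * s₀ p.2)) (x : PicP F) :
    semiP hs (toPc h x) = toPc h' (φ x) :=
  DFunLike.congr_fun (PicP.hom_ext (φ := (semiP hs).comp (toPc h)) (ψ := (toPc h').comp φ)
    fun p hp => by
      rw [AddMonoidHom.comp_apply, AddMonoidHom.comp_apply, hφ p hp,
        semiP_cl hs h h' ha hm hw hp]) x

/-- a semilinear isomorphism which respects the coordinates acts as `pmap` -/
theorem semiP_pmap (h : Hyp F m w) (h' : Hyp F' m' w') (hm : s m = m') (hw : s w = w')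
    (hF : F.map (s₀ : k →+* k') = F') (x : PicP F) :
    semiP hs (toPc h x) = toPc h' (pmap (s₀ : k →+* k') hF x) :=
  semiP_toPc hs h h' (a := 1) (b := 1) one_ne_zero (by simp [hm]) (by simp [hw]) _
    (fun p _ => by rw [pmap_cl]; simp) x

/-- the automorphism `t` with `t m = -m`, `i * t w = w` acts on places as `piota i` -/
theorem semiP_piota (h : Hyp F m w) {t : L ≃+* L}
    (ht : ∀ a, t (algebraMap k L a) = algebraMap k L (RingEquiv.refl k a)) {i : k}
    (hi : i ^ 2 = -1) (hF : F.comp (-X) = -F) (hm : t m = -m) (hw : algebraMap k L i * t w = w)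
    (x : PicP F) : semiP ht (toPc h x) = toPc h (piota i hi hF x) :=
  semiP_toPc ht h h (a := -1) (b := i) (neg_ne_zero.2 one_ne_zero) (by simp [hm]) hw.symm _
    (fun p _ => by rw [piota_cl]; simp) x

/-- the hyperelliptic involution acts as `-1` -/
theorem semiP_neg (h : Hyp F m w) {t : L ≃+* L}
    (ht : ∀ a, t (algebraMap k L a) = algebraMap k L (RingEquiv.refl k a))
    (hm : t m = m) (hw : t w = -w) (x : PicP F) : semiP ht (toPc h x) = -toPc h x := by
  rw [← map_neg]
  exact semiP_toPc ht h h (a := 1) (b := -1) one_ne_zero (by simp [hm]) (by simp [hw])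
    (-AddMonoidHom.id _) (fun p _ => by simp [cl_neg]) x

end nat

end Vale.Agent.P027M.X
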