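import Mathlib

/-! # P027, route M, block EXP : the exponential map of the curve `w ^ 2 = F m` (statements) -/

open Polynomial Filter Topology

noncomputable section

namespace Vale.Agent.P027M.X

/-- the interface of the class group: `pt m w` is the class of the point `(m, w)` minus the point
at infinity -/
structure Cls (F : ℂ[X]) {G : Type} [AddCommGroup G] (pt : ℂ → ℂ → G) : Prop where
  deg : F.natDegree = 7
  neg : ∀ m w : ℂ, w ^ 2 = F.eval m → pt m (-w) = -pt m w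
  rel : ∀ (ι : Type) [Fintype ι] (A B : ℂ[X]) (c : ℂ) (mu s : ι → ℂ), c ≠ 0 →
    Function.Injective mu → (∀ i, s i ≠ 0 ∧ s i ^ 2 = F.eval (mu i)) →
    A ^ 2 - B ^ 2 * F = C c * ∏ i, (X - C (mu i)) →
    (∀ i, A.eval (mu i) + B.eval (mu i) * s i = 0) → ∑ i, pt (mu i) (s i) = 0
  unq : ∀ mu s mu' s' : Fin 3 → ℂ, Function.Injective mu → Function.Injective mu' →
    (∀ i, s i ≠ 0 ∧ s i ^ 2 = F.eval (mu i)) → (∀ i, s' i ≠ 0 ∧ s' i ^ 2 = F.eval (mu' i)) →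
    ∑ i, pt (mu i) (s i) = ∑ i, pt (mu' i) (s' i) → ∀ k, ∃ l, mu k = mu' l

/-- the vector `(1, m, m ^ 2) / w` -/
def om (m w : ℂ) : Fin 3 → ℂ := fun j => m ^ (j : ℕ) / w

/-- the exponential map -/
structure IsExp (F : ℂ[X]) {G : Type} [AddCommGroup G] (pt : ℂ → ℂ → G)
    (E : (Fin 3 → ℂ) →+ G) : Prop where
  /-- the kernel is discrete -/
  disc : ∃ r > 0, ∀ t, ‖t‖ < r → E t = 0 → t = 0
  /-- holomorphic families of divisors, locally -/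
  fam : ∀ (ι : Type) [Fintype ι] (n : ι → ℤ) (m w m' : ι → ℂ → ℂ) (I : ℂ → Fin 3 → ℂ) (z0 : ℂ),
    (∀ i, ContinuousAt (w i) z0 ∧ w i z0 ≠ 0) →
    (∀ᶠ z in 𝓝 z0, (∀ i, HasDerivAt (m i) (m' i z) z ∧ w i z ^ 2 = F.eval (m i z)) ∧
      HasDerivAt I (∑ i, (n i * m' i z) • om (m i z) (w i z)) z) →
    ∀ᶠ z in 𝓝 z0, ∑ i, n i • pt (m i z) (w i z) - ∑ i, n i • pt (m i z0) (w i z0) =
      E (I z - I z0)
  /-- holomorphic families of divisors on a preconnected open set -/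
  famU : ∀ (ι : Type) [Fintype ι] (n : ι → ℤ) (m w m' : ι → ℂ → ℂ) (I : ℂ → Fin 3 → ℂ)
    (U : Set ℂ), IsOpen U → IsPreconnected U →
    (∀ z ∈ U, (∀ i, ContinuousAt (w i) z ∧ w i z ≠ 0 ∧ HasDerivAt (m i) (m' i z) z ∧
      w i z ^ 2 = F.eval (m i z)) ∧ HasDerivAt I (∑ i, (n i * m' i z) • om (m i z) (w i z)) z) →
    ∀ a ∈ U, ∀ b ∈ U, ∑ i, n i • pt (m i b) (w i b) - ∑ i, n i • pt (m i a) (w i a) =
      E (I b - I a)
  /-- real paths of divisors -/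
  path : ∀ (ι : Type) [Fintype ι] (n : ι → ℤ) (m w m' : ι → ℝ → ℂ) (I : ℝ → Fin 3 → ℂ)
    (U : Set ℝ), IsOpen U → IsPreconnected U →
    (∀ z ∈ U, (∀ i, ContinuousAt (w i) z ∧ w i z ≠ 0 ∧ HasDerivAt (m i) (m' i z) z ∧
      w i z ^ 2 = F.eval (m i z)) ∧ HasDerivAt I (∑ i, (n i * m' i z) • om (m i z) (w i z)) z) →
    ∀ a ∈ U, ∀ b ∈ U, ∑ i, n i • pt (m i b) (w i b) - ∑ i, n i • pt (m i a) (w i a) =
      E (I b - I a)
  /-- near `0` the map is given by a chart: three moving points, away from any finite set -/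
  chart : ∀ S : Finset ℂ, ∃ (m0 : Fin 3 → ℂ) (w : Fin 3 → ℂ → ℂ) (L : Fin 3 → ℂ → Fin 3 → ℂ)
    (T : (Fin 3 → ℂ) → Fin 3 → ℂ), (∀ k, m0 k ∉ S) ∧ Function.Injective m0 ∧ T 0 = m0 ∧
    ContinuousAt T 0 ∧ (∀ k, L k (m0 k) = 0) ∧
    (∀ k, ∀ᶠ z in 𝓝 (m0 k), DifferentiableAt ℂ (w k) z ∧ w k z ≠ 0 ∧ w k z ^ 2 = F.eval z ∧
      HasDerivAt (L k) (om z (w k z)) z) ∧ ∀ᶠ t in 𝓝 (0 : Fin 3 → ℂ), ∑ k, L k (T t k) = t

/-- [X.EXP] the exponential map exists -/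
def EXP : Prop := ∀ (F : ℂ[X]) (G : Type) [AddCommGroup G] (pt : ℂ → ℂ → G), Cls F pt →
  ∃ E : (Fin 3 → ℂ) →+ G, IsExp F pt E

/-- [X.EQV] equivariance: an endomorphism `H` of the class group which sends the class of a generic
point to a local holomorphic family of divisors, whose differential is the linear map `A` -/
def EQV : Prop := ∀ (F : ℂ[X]) (G : Type) [AddCommGroup G] (pt : ℂ → ℂ → G)
  (E : (Fin 3 → ℂ) →+ G), IsExp F pt E → ∀ (H : G →+ G) (A : (Fin 3 → ℂ) →L[ℂ] (Fin 3 → ℂ))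
  (S : Finset ℂ), (∀ (z0 : ℂ) (w : ℂ → ℂ), z0 ∉ S → w z0 ≠ 0 →
    (∀ᶠ z in 𝓝 z0, DifferentiableAt ℂ w z ∧ w z ^ 2 = F.eval z) →
    ∃ (ι : Type) (_ : Fintype ι) (n : ι → ℤ) (m' w' d : ι → ℂ → ℂ) (c : G),
      (∀ i, ContinuousAt (w' i) z0 ∧ w' i z0 ≠ 0) ∧
      ∀ᶠ z in 𝓝 z0, (∀ i, HasDerivAt (m' i) (d i z) z ∧ w' i z ^ 2 = F.eval (m' i z)) ∧
        ∑ i, (n i * d i z) • om (m' i z) (w' i z) = A (om z (w z)) ∧
        H (pt z (w z)) = ∑ i, n i • pt (m' i z) (w' i z) + c) →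
  ∀ t, H (E t) = E (A t)

end Vale.Agent.P027M.X
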