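import Vale.Agent.P027M.B.Defs
import Vale.Agent.P027M.X.ExpDefs

/-! # P027, route M, block MON : rows MER, FIN (statements, owner helper85) -/

open Polynomial Filter
open scoped PowerSeries MatrixGroups

noncomputable section

namespace Vale.Agent.P027M.X

open Vale.Agent.P027M.B

/-- `y` is a quotient of two series which converge at `q`, the denominator does not vanish at `q`,
and the value is `c` -/
def Val (y : ℂ⟦X⟧) (q c : ℂ) : Prop :=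
  ∃ (r : ℝ) (α β : ℂ⟦X⟧), ‖q‖ < r ∧ Conv r α ∧ Conv r β ∧ ev β q ≠ 0 ∧ β * y = α ∧
    ev β q * c = ev α q

open Classical in
/-- the value of `y` at `q` (junk value `0`) -/
def val (y : ℂ⟦X⟧) (q : ℂ) : ℂ := if h : ∃ c, Val y q c then h.choose else 0

/-- regular at `q` -/
def Reg (y : ℂ⟦X⟧) (q : ℂ) : Prop := Val y q (val y q)

/-- meromorphic on the unit disc -/
def Mr (y : ℂ⟦X⟧) : Prop :=
  ∀ r : ℝ, r < 1 → ∃ α β : ℂ⟦X⟧, Conv r α ∧ Conv r β ∧ β ≠ 0 ∧ β * y = α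

/-- for all points of the unit disc outside a countable set -/
def cc : Filter ℂ := cocountable ⊓ 𝓟 (Metric.ball 0 1)

/-- the base points are generic for the first non-zero coefficient of `h` -/
def Gen (m0 : Fin 3 → ℂ) (h : Fin 3 → ℂ⟦X⟧) : Prop :=
  ∃ N : ℕ, (∀ j, ∀ n < N, PowerSeries.coeff n (h j) = 0) ∧ ∀ a b, a ≠ b →
    PowerSeries.coeff N (h 2) - (m0 a + m0 b) * PowerSeries.coeff N (h 1) +
      m0 a * m0 b * PowerSeries.coeff N (h 0) ≠ 0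

/-- [X.VAL] the tool box for values -/
structure VALS : Prop where
  uniq : ∀ y q c, Val y q c → val y q = c
  conv : ∀ r f (q : ℂ), Conv r f → ‖q‖ < r → Val f q (ev f q)
  add : ∀ y z q c d, Val y q c → Val z q d → Val (y + z) q (c + d)
  mul : ∀ y z q c d, Val y q c → Val z q d → Val (y * z) q (c * d)
  der : ∀ y q, Reg y q → Reg (PowerSeries.derivative ℂ y) q ∧ (∀ᶠ z in nhds q, Reg y z) ∧
    HasDerivAt (val y) (val (PowerSeries.derivative ℂ y) q) q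
  sub : ∃ S : Subring ℂ⟦X⟧, ∀ y, y ∈ S ↔ Mr y
  mrc : ∀ f, Conv 1 f → Mr f
  mrd : ∀ y, Mr y → Mr (PowerSeries.derivative ℂ y)
  div : ∀ d y, Mr d → d ≠ 0 → Mr (d * y) → Mr y
  reg : ∀ y, Mr y → ∀ᶠ q in cc, Reg y q
  nz : ∀ y, Mr y → y ≠ 0 → ∀ᶠ q in cc, val y q ≠ 0
  ne : cc.NeBot

/-- [X.MER] the formal solution is meromorphic on the disc, and its values represent the
exponential -/
def MER : Prop := ∀ (F : ℂ[X]) (G : Type) [AddCommGroup G] (pt : ℂ → ℂ → G)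
  (E : (Fin 3 → ℂ) →+ G) (m0 s : Fin 3 → ℂ) (u m w : Fin 3 → ℂ⟦X⟧), IsExp F pt E →
  F.natDegree = 7 → Function.Injective m0 → (∀ k, s k ≠ 0) → (∀ j, Conv 1 (u j)) →
  (∀ j, PowerSeries.constantCoeff (u j) = 0) → Gen m0 (fun j => th (u j)) →
  Sol F m0 s (fun j => th (u j)) m w →
  ∃ V : Fin 3 → ℂ⟦X⟧, (∀ i, Mr ((∏ k, (X - C (m k))).coeff i)) ∧ (∀ i, Mr (V i)) ∧
    (∀ k, ∑ i, V i * m k ^ (i : ℕ) = w k) ∧
    ∀ᶠ q in cc, ∃ μ σ : Fin 3 → ℂ, Function.Injective μ ∧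
      (∀ k, σ k ≠ 0 ∧ σ k ^ 2 = F.eval (μ k)) ∧
      (∀ i, val ((∏ k, (X - C (m k))).coeff i) q = (∏ k, (X - C (μ k))).coeff i) ∧
      (∀ k, ∑ i, val (V i) q * μ k ^ (i : ℕ) = σ k) ∧
      ∑ k, pt (μ k) (σ k) - ∑ k, pt (m0 k) (s k) = E fun j => ev (u j) q

/-- [X.FINA] periods of an algebraic leaf are torsion; `g` is the action of one group element -/
def FINA : Prop := ∀ (F : ℂ[X]) (G : Type) [AddCommGroup G] (pt : ℂ → ℂ → G)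
  (E : (Fin 3 → ℂ) →+ G) (m0 s : Fin 3 → ℂ) (u m w : Fin 3 → ℂ⟦X⟧) (x : ℂ⟦X⟧)
  (g : UpperHalfPlane → UpperHalfPlane) (φ : Fin 3 → ℂ), IsExp F pt E →
  F.natDegree = 7 → Function.Injective m0 → (∀ k, s k ≠ 0) → (∀ j, Conv 1 (u j)) →
  (∀ j, PowerSeries.constantCoeff (u j) = 0) → Gen m0 (fun j => th (u j)) →
  Sol F m0 s (fun j => th (u j)) m w → Conv 1 x →
  (∀ k, IsAlgebraic (Algebra.adjoin ℂ {x}) (m k)) → Function.Injective g →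
  (∀ τ, ev x (qq (g τ)) = ev x (qq τ)) →
  (∀ τ j, ev (u j) (qq (g τ)) = ev (u j) (qq τ) + φ j) → ∃ n : ℕ, 0 < n ∧ E (n • φ) = 0

open NumberField in
/-- [X.FIN] **(MONb)** a multiple of the period group lies in the kernel of the exponential;
from `B1` (`ARITH ANA CONT ALG`), `MER`, `FINA` -/
def FIN : Prop := ∀ (K : Type) [Field K] [NumberField K] (σ : K →+* ℂ) (F : (𝓞 K)[X])
  (b : Fin 3 → ℕ → 𝓞 K) (x : ℤ⟦X⟧) (γ0 : Gam) (G : Type) [AddCommGroup G] (pt : ℂ → ℂ → G)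
  (E : (Fin 3 → ℂ) →+ G) (Γ : Subgroup SL(2, ℤ)) (Φ : SL(2, ℤ) → Fin 3 → ℂ),
  F.natDegree = 7 → (∀ j, b j 0 = 0) → (∃ j n, b j n ≠ 0) →
  (∃ n, n ≠ 0 ∧ PowerSeries.coeff n x ≠ 0) → AN γ0 (fun j n => (b j n : K)) x → CC F b →
  IsExp (F.map (σ.comp (algebraMap (𝓞 K) K))) pt E → Γ.FiniteIndex →
  (∀ γ ∈ Γ, ∀ τ : UpperHalfPlane, ev (x.map (Int.castRingHom ℂ)) (qq (γ • τ : UpperHalfPlane)) =
    ev (x.map (Int.castRingHom ℂ)) (qq τ)) →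
  (∀ γ ∈ Γ, ∀ (τ : UpperHalfPlane) (j : Fin 3),
    ev (PowerSeries.mk fun n => σ (b j n) / n) (qq (γ • τ : UpperHalfPlane)) =
      ev (PowerSeries.mk fun n => σ (b j n) / n) (qq τ) + Φ γ j) →
  ∃ M : ℕ, 0 < M ∧ ∀ γ ∈ Γ, E (M • Φ γ) = 0

/-- the action of `t ∈ ℚ(i)` on `ℂ ^ 3` -/
def tw (t : ℂ) (z : Fin 3 → ℂ) : Fin 3 → ℂ := ![t * z 0, starRingEnd ℂ t * z 1, t * z 2]

/-- [X.SMITH] two lattices of the plane `z 2 = κ * z 0`, stable under `i` -/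
def SMITH : Prop := ∀ (κ : ℂ) (L1 L2 : AddSubgroup (Fin 3 → ℂ)), L2 ≤ L1 →
  (∀ z ∈ L1, z 2 = κ * z 0) → (∃ r > 0, ∀ z ∈ L1, ‖z‖ < r → z = 0) →
  (∀ z ∈ L1, tw Complex.I z ∈ L1) → (∀ z ∈ L2, tw Complex.I z ∈ L2) →
  (∀ z : Fin 3 → ℂ, z 2 = κ * z 0 → z ∈ Submodule.span ℝ (L2 : Set (Fin 3 → ℂ))) →
  ∃ (x y : Fin 3 → ℂ) (a δ : GaussianInt), a ≠ 0 ∧ δ ≠ 0 ∧
    (∀ p q : GaussianInt, tw p x + tw q y = 0 → p = 0 ∧ q = 0) ∧
    (∀ z, z ∈ L1 ↔ ∃ p q : GaussianInt, z = tw p x + tw q y) ∧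
    ∀ z, z ∈ L2 ↔ ∃ p q : GaussianInt, z = tw (a * p : GaussianInt) x + tw (a * δ * q : GaussianInt) y

end Vale.Agent.P027M.X
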