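import Vale.Agent.P027M.X.Defs
import Vale.Agent.P027M.X.MerDefs
import Vale.Agent.P027M.F.Sym

/-! # P027, route M, blocks B2, B3 : the correspondence `H`, small rows (owner helper43) -/

open Polynomial
open scoped PowerSeries

noncomputable section

namespace Vale.Agent.P027M.X

section
variable {k : Type*} [Field k]

/-- the member of the family with parameter `g` and twist `T` -/
def fG (g T : k) : k[X] := X * (X ^ 2 - C T) * (X ^ 2 - C (c3 g * T)) * (X ^ 2 - C (d2 g * T))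

/-- the coordinate `w` of the point with coordinate `A` over the point `(N, Y)` of `E` -/
def wv (g T A Y : k) : k := Y * (A ^ 2 - T) ^ 2 / (A ^ 2 - g * T)

/-- a regular parameter -/
structure Rg (g T : k) : Prop where
  hT : T ≠ 0
  hg : g ≠ 0
  hp1 : g + 1 ≠ 0
  hm3 : 3 - g ≠ 0
  hm1 : g - 1 ≠ 0
  hp3 : g + 3 ≠ 0

theorem fG_odd (g T : k) : (fG g T).comp (-X) = -fG g T := by
  simp only [fG, mul_comp, sub_comp, pow_comp, X_comp, C_comp]; ring

theorem fG_map {k' : Type*} [Field k'] (φ : k →+* k') (g T : k) :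
    (fG g T).map φ = fG (φ g) (φ T) := by
  simp [fG, c3, d2, map_ofNat]

/-- `H` sends a generic point to its two mates in the fibre of `C → E` -/
def IsH (g T : k) (H : PicP (fG g T) →+ PicP (fG g T)) : Prop :=
  ∃ (S : Finset k) (c0 : PicP (fG g T)), ∀ A B C' Y : k,
    F.Rel (c3 g) T (b2 g * T) A B C' Y → A ∉ S →
    H (cl _ (A, wv g T A Y)) = cl _ (B, wv g T B Y) + cl _ (C', wv g T C' Y) + c0

end

/-- [X.SEP] -/
def SEP : Prop := ∀ (k : Type) [Field k] [CharZero k] (g T : k), Rg g T →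
  (fG g T).natDegree = 7 ∧ (fG g T).Separable

/-- [X.GENP] generic points generate -/
def GENP : Prop := ∀ (k : Type) [Field k] [IsAlgClosed k] [CharZero k] (F : k[X]) (S : Finset k)
  (A : Type) [AddCommGroup A] (φ : PicP F →+ A) (d : A), F.natDegree = 7 → F.Separable →
  (∀ p : k × k, p.2 ^ 2 = F.eval p.1 → p.1 ∉ S → φ (cl F p) = d) → φ = 0

/-- [X.TORS] the torsion does not change under extension of the algebraically closed field;
from `RED UNQ DER` -/
def TORS : Prop := ∀ (k k' : Type) [Field k] [Field k'] [IsAlgClosed k] [IsAlgClosed k']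
  [CharZero k] [CharZero k'] (φ : k →+* k') (F : k[X]) (F' : k'[X]) (h : F.map φ = F'),
  F.natDegree = 7 → F.Separable → Function.Injective (pmap φ h) ∧
    ∀ (y : PicP F') (n : ℕ), n ≠ 0 → n • y = 0 → ∃ x, pmap φ h x = y

/-- [X.HMAP] from `SEP`, `GENP` -/
def HMAP : Prop := ∀ (k k' : Type) [Field k] [Field k'] [IsAlgClosed k] [CharZero k]
  (φ : k →+* k') (g T : k) (g' T' : k') (h : (fG g T).map φ = fG g' T') H H', Rg g T →
  φ g = g' → φ T = T' → IsH g T H → IsH g' T' H' → ∀ x, pmap φ h (H x) = H' (pmap φ h x)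

/-- [X.EQI] from `EQV` -/
def EQI : Prop := ∀ (F : ℂ[X]) (hF : F.comp (-X) = -F) (E : (Fin 3 → ℂ) →+ PicP F),
  IsExp F (fun m w => cl F (m, w)) E →
  ∀ z, piota Complex.I Complex.I_sq hF (E z) = E (tw Complex.I z)

/-- [X.EQH] from `EQV` -/
def EQH : Prop := ∀ (g T : ℂ) (E : (Fin 3 → ℂ) →+ PicP (fG g T)) H, Rg g T →
  IsExp (fG g T) (fun m w => cl _ (m, w)) E → IsH g T H →
  ∀ z : Fin 3 → ℂ, z 2 = (3 - g) / (g + 1) * T * z 0 → H (E z) = -E z

/-- [X.SOL] the formal solution exists -/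
def SOL : Prop := ∀ (L : Type) [Field L] [CharZero L] (F : L[X]) (m0 s : Fin 3 → L)
  (h : Fin 3 → L⟦X⟧), Function.Injective m0 → (∀ k, s k ≠ 0 ∧ s k ^ 2 = F.eval (m0 k)) →
  (∀ j, PowerSeries.constantCoeff (h j) = 0) → ∃ m w, B.Sol F m0 s h m w

/-- [X.SOLM] solutions are transported along field homomorphisms -/
def SOLM : Prop := ∀ (L L' : Type) [Field L] [Field L'] (φ : L →+* L') (F : L[X])
  (m0 s : Fin 3 → L) (h m w : Fin 3 → L⟦X⟧), (∀ k, s k ≠ 0) → B.Sol F m0 s h m w →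
  B.Sol (F.map φ) (fun k => φ (m0 k)) (fun k => φ (s k)) (fun j => PowerSeries.map φ (h j))
    (fun k => PowerSeries.map φ (m k)) fun k => PowerSeries.map φ (w k)

end Vale.Agent.P027M.X
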