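import Vale.Agent.P027M.X.HDefs

/-! # P027, route M, rows X.GENP, X.HMAP : generic points generate the class group -/

open Polynomial

noncomputable section

namespace Vale.Agent.P027M.X

namespace GenpAux

variable {k : Type} [Field k]

/-- the zeros of `w - V m` add up to `0` -/
theorem sm_roots [IsAlgClosed k] (F V : k[X]) (h : V ^ 2 - F ≠ 0) :
    sm F ((V ^ 2 - F).roots.map fun r => (r, V.eval r)) = 0 := by
  refine sm_div (A := V) (B := -1) (leadingCoeff_ne_zero.2 h) isCoprime_one_right.neg_right ?_ ?_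
  · rw [Multiset.map_map, neg_one_sq, one_mul]
    exact (IsAlgClosed.splits (V ^ 2 - F)).eq_prod_roots
  · intro p hp
    obtain ⟨r, -, rfl⟩ := Multiset.mem_map.1 hp
    simp

theorem map_sm {F : k[X]} {A : Type} [AddCommGroup A] (φ : PicP F →+ A) (d : A)
    (Z : Multiset (k × k)) (h : ∀ p ∈ Z, φ (cl F p) = d) : φ (sm F Z) = Z.card • d := by
  induction Z using Multiset.induction_on with
  | empty => simp
  | cons p Z ih =>
    rw [sm_cons, map_add, h p (Multiset.mem_cons_self _ _),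
      ih fun q hq => h q (Multiset.mem_cons_of_mem hq), Multiset.card_cons, succ_nsmul, add_comm]

/-- a line through the point which avoids the finite set -/
theorem exists_line [CharZero k] {F F1 : k[X]} (hs : F.Separable) (S : Finset k) {μ s : k}
    (h : F - C (s ^ 2) = (X - C μ) * F1) :
    ∃ a : k, ∀ σ ∈ S, (σ - μ) * a ^ 2 + 2 * s * a - F1.eval σ ≠ 0 := by
  classical
  have hW : ∀ σ : k, (C (σ - μ) * X ^ 2 + C (2 * s) * X - C (F1.eval σ) : k[X]) ≠ 0 := by
    intro σ e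
    have e0 := congrArg (eval 0) e
    have e1 := congrArg (eval 1) e
    have e2 := congrArg (eval (-1)) e
    simp only [eval_sub, eval_add, eval_mul, eval_C, eval_pow, eval_X, eval_zero] at e0 e1 e2
    have hs0 : s = 0 := by linear_combination (e1 - e2) / 4
    have hσ : σ = μ := by linear_combination (e1 + e2) / 2 - e0
    have hF : F1.IsRoot μ := by rw [← hσ]; show _ = _; linear_combination -e0
    obtain ⟨F2, h2⟩ := dvd_iff_isRoot.2 hF
    refine not_isUnit_X_sub_C μ (hs.squarefree _ ⟨F2, ?_⟩)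
    rw [hs0, h2] at h
    simpa [mul_assoc] using h
  have hP := Finset.prod_ne_zero_iff.2 fun σ (_ : σ ∈ S) => hW σ
  obtain ⟨a, ha⟩ := Infinite.exists_notMem_finset
    (∏ σ ∈ S, (C (σ - μ) * X ^ 2 + C (2 * s) * X - C (F1.eval σ) : k[X])).roots.toFinset
  refine ⟨a, fun σ hσ e => ha ?_⟩
  rw [Multiset.mem_toFinset, mem_roots hP, IsRoot.def, eval_prod]
  exact Finset.prod_eq_zero hσ (by simpa using e)

theorem six [IsAlgClosed k] [CharZero k] {F : k[X]} {S : Finset k} {A : Type} [AddCommGroup A]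
    (φ : PicP F →+ A) (d : A) (hd : F.natDegree = 7) (hs : F.Separable)
    (h : ∀ p : k × k, p.2 ^ 2 = F.eval p.1 → p.1 ∉ S → φ (cl F p) = d) (μ s : k)
    (hp : s ^ 2 = F.eval μ) : φ (cl F (μ, s)) + 6 • d = 0 := by
  obtain ⟨F1, h1⟩ : X - C μ ∣ F - C (s ^ 2) := dvd_iff_isRoot.2 (by simp [hp])
  obtain ⟨a, ha⟩ := exists_line hs S h1
  obtain ⟨V, hV⟩ : ∃ V : k[X], V = C s + C a * (X - C μ) := ⟨_, rfl⟩
  obtain ⟨U, hU⟩ : ∃ U : k[X], U = (X - C μ) * C a ^ 2 + 2 * C s * C a - F1 := ⟨_, rfl⟩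
  have e : V ^ 2 - F = (X - C μ) * U := by
    rw [map_pow] at h1
    rw [hV, hU]; linear_combination -h1
  have hdV : (V ^ 2).natDegree ≤ 2 := by rw [hV]; compute_degree
  have hd7 : (V ^ 2 - F).natDegree = 7 := by
    rw [natDegree_sub_eq_right_of_natDegree_lt (by omega), hd]
  have h0 : V ^ 2 - F ≠ 0 := fun e => by rw [e] at hd7; simp at hd7
  have hr : (V ^ 2 - F).roots = μ ::ₘ U.roots := by
    rw [e, roots_mul (e ▸ h0), roots_X_sub_C, Multiset.singleton_add]
  have hc : U.roots.card = 6 := by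
    have := (IsAlgClosed.splits (V ^ 2 - F)).natDegree_eq_card_roots
    rw [hd7, hr, Multiset.card_cons] at this
    omega
  have e1 := congrArg φ (sm_roots F V h0)
  have hVμ : V.eval μ = s := by simp [hV]
  rw [hr, Multiset.map_cons, sm_cons, map_add, map_zero, hVμ, map_sm φ d, Multiset.card_map,
    hc] at e1
  · exact e1
  · intro p hp
    obtain ⟨r, hr, rfl⟩ := Multiset.mem_map.1 hp
    have e2 : U.eval r = 0 := isRoot_of_mem_roots hr
    refine h _ ?_ fun hS => ha r hS ?_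
    · have e3 := congrArg (eval r) e
      rw [eval_mul, e2, mul_zero, eval_sub, eval_pow] at e3
      exact sub_eq_zero.1 e3
    · simpa [hU] using e2

theorem rel_map {k' : Type} [Field k'] (φ : k →+* k') {g T A B C' Y : k}
    (h : F.Rel (c3 g) T (b2 g * T) A B C' Y) :
    F.Rel (c3 (φ g)) (φ T) (b2 (φ g) * φ T) (φ A) (φ B) (φ C') (φ Y) :=
  ⟨by simpa [c3, map_ofNat] using congrArg φ h.e2, by simpa using congrArg φ h.e3,
    by simpa [b2, map_ofNat] using congrArg φ h.eY⟩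

theorem wv_map {k' : Type} [Field k'] (φ : k →+* k') (g T A Y : k) :
    φ (wv g T A Y) = wv (φ g) (φ T) (φ A) (φ Y) := by
  simp [wv]

end GenpAux

open GenpAux

theorem genp : GENP := by
  intro k _ _ _ F S A _ φ d hd hs h
  obtain ⟨μ, hμ⟩ := Infinite.exists_notMem_finset S
  obtain ⟨s, hp⟩ := IsAlgClosed.exists_pow_nat_eq (F.eval μ) two_pos
  have e1 := six φ d hd hs h μ s hp
  have e2 := h (μ, s) hp hμ
  have e3 := h (μ, -s) (by simpa using hp) hμ
  rw [cl_neg, map_neg, e2] at e3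
  have e4 : d + d = 0 := by nth_rewrite 1 [← e3]; exact neg_add_cancel d
  have e5 : 6 • d = 0 := by
    rw [show 6 • d = 3 • (d + d) by abel, e4, smul_zero]
  refine PicP.hom_ext fun p hp => ?_
  have e6 := six φ d hd hs h p.1 p.2 hp
  rwa [e5, add_zero] at e6

/-- a point of the curve has two mates in the fibre of `C → E` -/
theorem exists_rel {k : Type*} [Field k] [IsAlgClosed k] {g T A s : k} (hg : g + 1 ≠ 0)
    (hs : s ^ 2 = (fG g T).eval A) (h1 : A ^ 2 - T ≠ 0) (h2 : A ^ 2 - g * T ≠ 0) :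
    ∃ B C' Y, F.Rel (c3 g) T (b2 g * T) A B C' Y ∧ wv g T A Y = s := by
  obtain ⟨σ, hσ⟩ : ∃ σ, σ = (1 - c3 g) * T * A / (A ^ 2 - T) := ⟨_, rfl⟩
  obtain ⟨π, hπ⟩ : ∃ π, π = T * (c3 g * T - A ^ 2) / (A ^ 2 - T) := ⟨_, rfl⟩
  obtain ⟨B, hB⟩ := IsAlgClosed.exists_root (X ^ 2 - C σ * X + C π : k[X]) (by
    have : (X ^ 2 - C σ * X + C π : k[X]).degree = 2 := by compute_degree!
    rw [this]; decide)
  have hB' : B * (σ - B) = π := by
    simp only [IsRoot.def, eval_add, eval_sub, eval_pow, eval_mul, eval_X, eval_C] at hB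
    linear_combination -hB
  have hN : A + B + (σ - B) = A * (A ^ 2 - c3 g * T) / (A ^ 2 - T) := by
    rw [add_assoc, add_sub_cancel, hσ]; field_simp; ring
  refine ⟨B, σ - B, s * (A ^ 2 - g * T) / (A ^ 2 - T) ^ 2, ⟨?_, ?_, ?_⟩, ?_⟩
  · have : A * B + B * (σ - B) + (σ - B) * A = A * σ + B * (σ - B) := by ring
    rw [this, hB', hσ, hπ]; field_simp; ring
  · rw [mul_assoc, hB', hN, hπ]; field_simp; ring
  · rw [hN, div_pow, mul_pow, hs]
    simp only [fG, eval_mul, eval_sub, eval_pow, eval_X, eval_C]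
    refine (F.keyY h1 ?_ ?_ ?_).symm
    · unfold b2 d2; field_simp
    · unfold b2 d2 c3; field_simp; ring
    · unfold b2 d2 c3; field_simp; ring
  · unfold wv; field_simp

theorem hmap (sep : SEP) : HMAP := by
  intro k k' _ _ _ _ φ g T g' T' h H H' hr hg hT ⟨S, c0, hH⟩ ⟨S', c0', hH'⟩ x
  classical
  subst hg hT
  obtain ⟨hd, hs⟩ := sep k g T hr
  have e := genp k (fG g T) (S ∪ S'.preimage φ φ.injective.injOn ∪
    (X ^ 2 - C T).roots.toFinset ∪ (X ^ 2 - C (g * T)).roots.toFinset) _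
    ((pmap φ h).comp H - H'.comp (pmap φ h)) (pmap φ h c0 - c0') hd hs (by
      rintro ⟨A, s⟩ hp hA
      simp only [Finset.mem_union, not_or, Finset.mem_preimage, Multiset.mem_toFinset,
        mem_roots (X_pow_sub_C_ne_zero two_pos _), IsRoot.def, eval_sub, eval_pow, eval_X,
        eval_C] at hA
      obtain ⟨⟨⟨a1, a2⟩, a3⟩, a4⟩ := hA
      obtain ⟨B, C', Y, hR, rfl⟩ := exists_rel (A := A) (s := s) hr.hp1 hp a3 a4
      have e1 := hH' _ _ _ _ (rel_map φ hR) a2
      simp only [AddMonoidHom.sub_apply, AddMonoidHom.comp_apply, hH _ _ _ _ hR a1, map_add,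
        pmap_cl, wv_map, e1]
      abel)
  exact sub_eq_zero.1 (DFunLike.congr_fun e x)

end Vale.Agent.P027M.X
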