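import Vale.Agent.P027M.X.ExpL
import Vale.Agent.P027M.B.An

/-! # P027, route M, block EXP : the exponential map -/

open Polynomial Filter Topology Finset Metric

noncomputable section

namespace Vale.Agent.P027M.X

namespace ExpL

theorem lc_const {P G : Type} [TopologicalSpace P] {f : P → G} {U : Set P} (hU : IsPreconnected U)
    (h : ∀ z ∈ U, ∀ᶠ y in 𝓝 z, f y = f z) {a b : P} (ha : a ∈ U) (hb : b ∈ U) : f a = f b := by
  let : TopologicalSpace G := ⊥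
  have : DiscreteTopology G := ⟨rfl⟩
  refine hU.constant (fun z hz => ContinuousAt.continuousWithinAt ?_) ha hb
  rw [ContinuousAt, nhds_discrete G, tendsto_pure]
  exact h z hz

theorem br_ex (F : ℂ[X]) {m s : ℂ} (hs : s ≠ 0) (h : s ^ 2 = F.eval m) :
    ∃ (w : ℂ → ℂ) (L : ℂ → Fin 3 → ℂ), w m = s ∧ L m = 0 ∧ ∀ᶠ z in 𝓝 m, Br F w L z := by
  obtain ⟨δ, δ0, w, L, w0, L0, hw⟩ := B.An.prim F hs h
  refine ⟨w, fun z j => L j z, w0, funext fun j => L0 j, ?_⟩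
  filter_upwards [ball_mem_nhds m δ0] with z hz
  exact ⟨(hw z hz).1, (hw z hz).2.1, (hw z hz).2.2.1,
    hasDerivAt_pi.2 fun j => (hw z hz).2.2.2 j⟩

theorem br_neg {F : ℂ[X]} {w : ℂ → ℂ} {L : ℂ → Fin 3 → ℂ} {z : ℂ} (h : Br F w L z) :
    Br F (fun z => -w z) (fun z => -L z) z := by
  refine ⟨h.d.neg, neg_ne_zero.2 h.ne, by rw [neg_sq, h.sq], ?_⟩
  refine h.L.neg.congr_deriv (funext fun j => ?_)
  simp only [om, div_neg, Pi.neg_apply]

/-- a chart: three branches and the local inverse of the Abel map -/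
structure Ch (F : ℂ[X]) (m0 : Fin 3 → ℂ) where
  w : Fin 3 → ℂ → ℂ
  L : Fin 3 → ℂ → Fin 3 → ℂ
  T : (Fin 3 → ℂ) → Fin 3 → ℂ
  L0 : ∀ k, L k (m0 k) = 0
  br : ∀ k, ∀ᶠ z in 𝓝 (m0 k), Br F (w k) (L k) z
  T0 : T 0 = m0
  rt : ∀ᶠ t in 𝓝 (0 : Fin 3 → ℂ), ContinuousAt T t ∧ ∑ k, L k (T t k) = t
  lf : ∀ᶠ x in 𝓝 m0, T (∑ k, L k (x k)) = x

theorem ch_ex (F : ℂ[X]) {m0 : Fin 3 → ℂ} (hm : Function.Injective m0)
    (hF : ∀ k, F.eval (m0 k) ≠ 0) : Nonempty (Ch F m0) := by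
  have e : ∀ k, ∃ s : ℂ, s ≠ 0 ∧ s ^ 2 = F.eval (m0 k) := fun k => by
    obtain ⟨s, hs⟩ := IsAlgClosed.exists_pow_nat_eq (F.eval (m0 k)) (n := 2) two_pos
    exact ⟨s, fun h => hF k (by rw [← hs, h]; ring), hs⟩
  choose s hs hs2 using e
  choose w L w0 L0 hB using fun k => br_ex F (hs k) (hs2 k)
  let Φ : (Fin 3 → ℂ) → Fin 3 → ℂ := fun y => ∑ k, L k (y k)
  let A : (Fin 3 → ℂ) →L[ℂ] (Fin 3 → ℂ) := ∑ k,
    (ContinuousLinearMap.proj (R := ℂ) (φ := fun _ : Fin 3 => ℂ) k).smulRight (om (m0 k) (s k))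
  have Ai : Function.Injective A := by
    refine (injective_iff_map_eq_zero A).2 fun y hy => ?_
    have := Matrix.eq_zero_of_forall_pow_sum_mul_pow_eq_zero (v := fun k => y k / s k) hm
      fun j => by
        have e := congrFun hy j
        simp only [A, _root_.sum_apply, ContinuousLinearMap.smulRight_apply,
          ContinuousLinearMap.proj_apply, Finset.sum_apply, Pi.smul_apply, om, smul_eq_mul,
          Pi.zero_apply] at e
        rw [← e]
        exact Finset.sum_congr rfl fun k _ => by ring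
    funext k
    have e := congrFun this k
    simpa [hs k] using e
  let A' : (Fin 3 → ℂ) ≃L[ℂ] (Fin 3 → ℂ) :=
    (LinearEquiv.ofInjectiveEndo A.toLinearMap Ai).toContinuousLinearEquiv
  have hA : HasFDerivAt Φ (A' : (Fin 3 → ℂ) →L[ℂ] (Fin 3 → ℂ)) m0 := by
    have e : (A' : (Fin 3 → ℂ) →L[ℂ] (Fin 3 → ℂ)) = A := by ext1 y; rfl
    rw [e]
    refine HasFDerivAt.fun_sum fun k _ => ?_
    have h1 := (hB k).self_of_nhds.L
    rw [w0] at h1
    exact h1.hasFDerivAt.comp m0 (f := fun y : Fin 3 → ℂ => y k) (hasFDerivAt_apply k m0)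
  have hC : ContDiffAt ℂ 1 Φ m0 := ContDiffAt.sum fun k _ =>
    ((Complex.analyticAt_iff_eventually_differentiableAt.2
      ((hB k).mono fun z h => h.L.differentiableAt)).contDiffAt (n := 1)).comp m0
      (contDiffAt_apply ℂ ℂ k m0)
  have Φ0 : Φ m0 = 0 := Finset.sum_eq_zero fun k _ => L0 k
  obtain ⟨T, t0, t1, t2⟩ := linv A' hC hA
  rw [Φ0] at t0 t1
  exact ⟨⟨w, L, T, L0, hB, t0, t1.mono fun t h => ⟨h.1.continuousAt, h.2⟩, t2⟩⟩

theorem tri_ex (F : ℂ[X]) (hF : F ≠ 0) (S : Finset ℂ) : ∃ m0 : Fin 3 → ℂ,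
    Function.Injective m0 ∧ (∀ k, F.eval (m0 k) ≠ 0) ∧ ∀ k, m0 k ∉ S := by
  classical
  have h := (S ∪ F.roots.toFinset).finite_toSet.infinite_compl
  refine ⟨fun k => h.natEmbedding _ k, fun k l e => Fin.ext ((h.natEmbedding _).injective
    (Subtype.ext e)), fun k e => (h.natEmbedding _ k).2 ?_, fun k e => (h.natEmbedding _ k).2 ?_⟩
  · exact mem_coe.2 (mem_union_right _ (Multiset.mem_toFinset.2 ((mem_roots hF).2 e)))
  · exact mem_coe.2 (mem_union_left _ e)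

variable {F : ℂ[X]} {G : Type} [AddCommGroup G] {pt : ℂ → ℂ → G} {m0 : Fin 3 → ℂ}

/-- the class of the divisor with parameter `t` -/
def Ch.cl (c : Ch F m0) (pt : ℂ → ℂ → G) (t : Fin 3 → ℂ) : G :=
  ∑ k, pt (c.T t k) (c.w k (c.T t k))

/-- the good parameters -/
structure Ch.Ok (c : Ch F m0) (t : Fin 3 → ℂ) : Prop where
  inj : Function.Injective (c.T t)
  br : ∀ k, ∀ᶠ z in 𝓝 (c.T t k), Br F (c.w k) (c.L k) z
  rt : ∑ k, c.L k (c.T t k) = t
  lf : ∀ᶠ x in 𝓝 (c.T t), c.T (∑ k, c.L k (x k)) = x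

theorem Ch.tend (c : Ch F m0) : Tendsto c.T (𝓝 0) (𝓝 m0) := by
  have := c.rt.self_of_nhds.1
  rwa [ContinuousAt, c.T0] at this

theorem Ch.ok (c : Ch F m0) (hm : Function.Injective m0) : ∀ᶠ t in 𝓝 0, c.Ok t := by
  have h1 : ∀ᶠ t in 𝓝 (0 : Fin 3 → ℂ), Function.Injective fun k => c.T t k :=
    inj_ev (x := fun k t => c.T t k)
      (fun k => (continuous_apply k).continuousAt.comp c.rt.self_of_nhds.1)
      (by simpa only [c.T0] using hm)
  have h2 : ∀ᶠ t in 𝓝 (0 : Fin 3 → ℂ), ∀ k, ∀ᶠ z in 𝓝 (c.T t k), Br F (c.w k) (c.L k) z :=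
    eventually_all.2 fun k => (tendsto_pi_nhds.1 c.tend k).eventually (c.br k).eventually_nhds
  filter_upwards [h1, h2, c.rt, c.tend.eventually c.lf.eventually_nhds] with t a b d e
  exact ⟨a, b, d.2, e⟩

theorem l1 (H : Cls F pt) (c : Ch F m0) {t : Fin 3 → ℂ} (ht : c.Ok t) {μ : ℂ}
    (hμ : ∀ k, c.T t k ≠ μ) {w : ℂ → ℂ} {I : ℂ → Fin 3 → ℂ} (hB : ∀ᶠ z in 𝓝 μ, Br F w I z) :
    ∀ᶠ z in 𝓝 μ, c.cl pt (t + (I z - I μ)) - pt z (w z) = c.cl pt t - pt μ (w μ) := by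
  let m1 : Option (Fin 3) → ℂ := fun k => k.elim μ (c.T t)
  have hm : Function.Injective m1 := by
    rintro (_ | k) (_ | l) e
    · rfl
    · exact absurd e.symm (hμ l)
    · exact absurd e (hμ k)
    · exact congrArg some (ht.inj e)
  have hc : ContinuousAt (fun x : Option (Fin 3) → ℂ => fun k => x (some k)) m1 :=
    continuousAt_pi.2 fun k => (continuous_apply (some k)).continuousAt
  have h := ll H (ι := Option (Fin 3)) (by simp) none hm
    (w := fun k => k.elim (fun z => -w z) c.w) (L := fun k => k.elim (fun z => -I z) c.L)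
    (by
      rintro (_ | k)
      · exact hB.mono fun z h => br_neg h
      · exact ht.br k) (hc.eventually ht.lf)
  filter_upwards [h, hB] with z ⟨x, h1, h2, h3, h4⟩ h5
  simp only [Fintype.sum_option, Option.elim, m1, h2, ht.rt] at h3 h4
  have e : t + (I z - I μ) = ∑ k, c.L k (x (some k)) := by linear_combination (exp := 1) -h3
  have h6 : c.T (∑ k, c.L k (x (some k))) = fun k => x (some k) := h1
  rw [H.neg _ _ h5.sq, H.neg _ _ hB.self_of_nhds.sq] at h4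
  rw [e, Ch.cl, h6, Ch.cl, sub_eq_neg_add, sub_eq_neg_add, h4]

theorem l2 (H : Cls F pt) (c : Ch F m0) {ε ρ δ : ℝ} {μ : ℂ} (δ0 : 0 < δ)
    (ht : ∀ t, ‖t‖ < ε → c.Ok t ∧ ∀ k, c.T t k ∉ ball μ δ) {w : ℂ → ℂ} {I : ℂ → Fin 3 → ℂ}
    (I0 : I μ = 0) (hB : ∀ z ∈ ball μ δ, Br F w I z ∧ ‖I z‖ < ρ) {t : Fin 3 → ℂ}
    (h : ‖t‖ + ρ ≤ ε) {z : ℂ} (hz : z ∈ ball μ δ) :
    c.cl pt (t + I z) = c.cl pt t + (pt z (w z) - pt μ (w μ)) := by
  have key := lc_const (f := fun z => c.cl pt (t + I z) - pt z (w z))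
    (convex_ball μ δ).isPreconnected (fun y hy => by
      have h1 := ht (t + I y) ((norm_add_le _ _).trans_lt (by linarith [(hB y hy).2]))
      have h2 := l1 H c h1.1 (μ := y) (fun k e => h1.2 k (by rw [e]; exact hy)) (w := w) (I := I)
        (by filter_upwards [isOpen_ball.mem_nhds hy] with u hu using (hB u hu).1)
      filter_upwards [h2] with u hu
      rwa [show t + I y + (I u - I y) = t + I u by abel] at hu) hz (mem_ball_self δ0)
  simp only [I0, add_zero] at key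
  rw [sub_eq_iff_eq_add] at key
  rw [key]
  abel

theorem l3 (H : Cls F pt) (c : Ch F m0) (hm : Function.Injective m0) :
    ∃ r > 0, ∃ e : (Fin 3 → ℂ) → G, (∀ t, ‖t‖ < r → c.Ok t) ∧
      ∀ t u, ‖t‖ < r → ‖u‖ < r → c.cl pt (t + u) = c.cl pt t + e u := by
  classical
  have F0 : F ≠ 0 := fun h => by have := H.deg; rw [h] at this; simp at this
  obtain ⟨m1, i1, f1, s1⟩ := tri_ex F F0 (univ.image m0)
  obtain ⟨d⟩ := ch_ex F i1 f1
  have hd : ∀ k l, 0 < dist (m0 k) (m1 l) := fun k l => dist_pos.2 fun e =>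
    s1 l (e ▸ mem_image_of_mem _ (mem_univ k))
  have h1 : ∀ᶠ t in 𝓝 (0 : Fin 3 → ℂ), ∀ k l, dist (c.T t k) (m0 k) < dist (m0 k) (m1 l) / 2 :=
    eventually_all.2 fun k => eventually_all.2 fun l =>
      (tendsto_pi_nhds.1 c.tend k).eventually (ball_mem_nhds _ (half_pos (hd k l)))
  obtain ⟨ε, ε0, hε⟩ := Metric.eventually_nhds_iff_ball.1 (h1.and (c.ok hm))
  have h2 : ∀ l, ∃ δ > 0, (∀ k, δ ≤ dist (m0 k) (m1 l) / 2) ∧
      ∀ z ∈ ball (m1 l) δ, Br F (d.w l) (d.L l) z ∧ ‖d.L l z‖ < ε / 4 := fun l => by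
    have h3 : ∀ᶠ z in 𝓝 (m1 l), ‖d.L l z‖ < ε / 4 := by
      have := (d.br l).self_of_nhds.L.continuousAt.norm
      exact this.eventually (gt_mem_nhds (by simp only [d.L0, norm_zero]; positivity))
    obtain ⟨δ, δ0, hδ⟩ := Metric.eventually_nhds_iff_ball.1 ((d.br l).and h3)
    obtain ⟨k0, -, hk⟩ := exists_min_image univ (fun k => dist (m0 k) (m1 l) / 2) univ_nonempty
    exact ⟨min δ (dist (m0 k0) (m1 l) / 2), lt_min δ0 (half_pos (hd k0 l)),
      fun k => (min_le_right _ _).trans (hk k (mem_univ k)),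
      fun z hz => hδ z (ball_subset_ball (min_le_left _ _) hz)⟩
  choose δ δ0 hδ1 hδ2 using h2
  have h4 : ∀ᶠ u in 𝓝 (0 : Fin 3 → ℂ), ∀ l, d.T u l ∈ ball (m1 l) (δ l) :=
    eventually_all.2 fun l => (tendsto_pi_nhds.1 d.tend l).eventually (ball_mem_nhds _ (δ0 l))
  obtain ⟨r, r0, hr⟩ := Metric.eventually_nhds_iff_ball.1 (h4.and d.rt)
  have ht : ∀ l t, ‖t‖ < ε → c.Ok t ∧ ∀ k, c.T t k ∉ ball (m1 l) (δ l) := fun l t h => by
    have h5 := hε t (mem_ball_zero_iff.2 h)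
    refine ⟨h5.2, fun k hk => ?_⟩
    have := dist_triangle_left (m0 k) (m1 l) (c.T t k)
    linarith [h5.1 k l, mem_ball.1 hk, hδ1 l k]
  refine ⟨min r (ε / 4), lt_min r0 (by positivity),
    fun u => ∑ l, (pt (d.T u l) (d.w l (d.T u l)) - pt (m1 l) (d.w l (m1 l))),
    fun t h => (ht 0 t (h.trans_le ((min_le_right _ _).trans (by linarith)))).1,
    fun t u h1 h2 => ?_⟩
  have t1 := h1.trans_le (min_le_right _ _)
  have h5 := hr u (mem_ball_zero_iff.2 (h2.trans_le (min_le_left _ _)))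
  have n0 := (hδ2 0 _ (h5.1 0)).2
  have n1 := (hδ2 1 _ (h5.1 1)).2
  have a0 := l2 H c (δ0 0) (ht 0) (d.L0 0) (hδ2 0) (t := t) (by linarith) (h5.1 0)
  have a1 := l2 H c (δ0 1) (ht 1) (d.L0 1) (hδ2 1) (t := t + d.L 0 (d.T u 0))
    (by linarith [norm_add_le t (d.L 0 (d.T u 0))]) (h5.1 1)
  have a2 := l2 H c (δ0 2) (ht 2) (d.L0 2) (hδ2 2) (t := t + d.L 0 (d.T u 0) + d.L 1 (d.T u 1))
    (by linarith [norm_add_le t (d.L 0 (d.T u 0)),
      norm_add_le (t + d.L 0 (d.T u 0)) (d.L 1 (d.T u 1))]) (h5.1 2)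
  have e : t + u = t + d.L 0 (d.T u 0) + d.L 1 (d.T u 1) + d.L 2 (d.T u 2) := by
    conv_lhs => rw [← h5.2.2, Fin.sum_univ_three]
    abel
  rw [e, a2, a1, a0]
  simp only [Fin.sum_univ_three]
  abel

theorem loc_hom {V : Type} [NormedAddCommGroup V] [NormedSpace ℝ V] {r : ℝ} (r0 : 0 < r)
    (e : V → G) (he : ∀ u v, ‖u‖ < r → ‖v‖ < r → ‖u + v‖ < r → e (u + v) = e u + e v) :
    ∃ E : V →+ G, ∀ u, ‖u‖ < r → E u = e u := by
  have e0 : e 0 = 0 := by
    have := he 0 0 (by simpa) (by simpa) (by simpa)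
    simpa using this
  have en : ∀ (k : ℕ) (u : V), k * ‖u‖ < r → e (k • u) = k • e u := by
    intro k u
    induction k with
    | zero => intro _; simpa using e0
    | succ k ih =>
      intro h
      have h0 := norm_nonneg u
      have hk : (0 : ℝ) ≤ k * ‖u‖ := by positivity
      push_cast at h
      rw [succ_nsmul, succ_nsmul, he _ _ (norm_nsmul_le.trans_lt (by linarith)) (by linarith),
        ih (by linarith)]
      rw [← succ_nsmul]
      exact norm_nsmul_le.trans_lt (by push_cast; linarith)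
  have nn : ∀ (n : ℕ) (t : V), 0 < n → ‖(n : ℝ)⁻¹ • t‖ = ‖t‖ / n := fun n t h => by
    rw [norm_smul, norm_inv, Real.norm_natCast, inv_mul_eq_div]
  have wd : ∀ (t : V) (n k : ℕ), 0 < n → 0 < k → ‖t‖ / n < r →
      n • e ((n : ℝ)⁻¹ • t) = (n * k) • e (((n * k : ℕ) : ℝ)⁻¹ • t) := fun t n k hn hk h => by
    have hn' : (n : ℝ) ≠ 0 := by positivity
    have hk' : (k : ℝ) ≠ 0 := by positivity
    rw [mul_smul, ← en k _ (by
      rw [nn _ _ (Nat.mul_pos hn hk)]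
      convert h using 1
      push_cast
      field_simp), ← Nat.cast_smul_eq_nsmul ℝ k, smul_smul]
    congr 3
    push_cast
    field_simp
  have ex : ∀ t : V, ∃ n : ℕ, 0 < n ∧ ‖t‖ / n < r := fun t => by
    obtain ⟨n, hn⟩ := exists_nat_gt (‖t‖ / r)
    have h0 : (0 : ℝ) < n := lt_of_le_of_lt (by positivity) hn
    refine ⟨n, by exact_mod_cast h0, ?_⟩
    rw [div_lt_iff₀ h0]
    rw [div_lt_iff₀ r0] at hn
    linarith
  choose N N0 hN using ex
  have hE : ∀ (t : V) (n : ℕ), 0 < n → ‖t‖ / n < r →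
      N t • e ((N t : ℝ)⁻¹ • t) = n • e ((n : ℝ)⁻¹ • t) := fun t n hn h => by
    rw [wd t _ n (N0 t) hn (hN t), wd t n _ hn (N0 t) h, mul_comm]
  have mono : ∀ (t : V) (n k : ℕ), 0 < n → n ≤ k → ‖t‖ / n < r → ‖t‖ / k < r :=
    fun t n k hn hk h => lt_of_le_of_lt (div_le_div_of_nonneg_left (norm_nonneg t)
      (by exact_mod_cast hn) (by exact_mod_cast hk)) h
  refine ⟨AddMonoidHom.mk' (fun t => N t • e ((N t : ℝ)⁻¹ • t)) fun s t => ?_, fun u hu => ?_⟩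
  · have a0 := N0 s
    have a1 := N0 t
    have a2 := N0 (s + t)
    have p : 0 < N s + N t + N (s + t) := by omega
    have b0 := mono s _ (N s + N t + N (s + t)) a0 (by omega) (hN s)
    have b1 := mono t _ (N s + N t + N (s + t)) a1 (by omega) (hN t)
    have b2 := mono (s + t) _ (N s + N t + N (s + t)) a2 (by omega) (hN _)
    rw [hE s _ p b0, hE t _ p b1, hE _ _ p b2, smul_add, he _ _ (by rwa [nn _ _ p])
      (by rwa [nn _ _ p]) (by rwa [← smul_add, nn _ _ p]), smul_add]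
  · have := hE u 1 one_pos (by simpa)
    simpa using this

theorem ex0 (H : Cls F pt) : ∃ E : (Fin 3 → ℂ) →+ G,
    (∃ r > 0, ∀ t, ‖t‖ < r → E t = 0 → t = 0) ∧
    ∀ (μ : ℂ) (w : ℂ → ℂ) (I : ℂ → Fin 3 → ℂ), (∀ᶠ z in 𝓝 μ, Br F w I z) →
      ∀ᶠ z in 𝓝 μ, pt z (w z) - pt μ (w μ) = E (I z - I μ) := by
  have F0 : F ≠ 0 := fun h => by have := H.deg; rw [h] at this; simp at this
  obtain ⟨m0, hm, f0, -⟩ := tri_ex F F0 ∅
  obtain ⟨c⟩ := ch_ex F hm f0
  obtain ⟨r, r0, e, hok, he⟩ := l3 H c hm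
  have e1 : ∀ u, ‖u‖ < r → c.cl pt u = c.cl pt 0 + e u := fun u hu => by
    simpa using he 0 u (by simpa) hu
  obtain ⟨E, hE⟩ := loc_hom r0 e fun u v hu hv huv => by
    have h := he u v hu hv
    rw [e1 _ huv, e1 _ hu, add_assoc] at h
    exact add_left_cancel h
  refine ⟨E, ?_, fun μ w I hB => ?_⟩
  · have h1 : ∀ᶠ t in 𝓝 (0 : Fin 3 → ℂ), ∀ k l, k ≠ l → c.T t k ≠ m0 l :=
      eventually_all.2 fun k => eventually_all.2 fun l => by
        by_cases h : k = l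
        · exact Eventually.of_forall fun _ n => absurd h n
        · exact ((tendsto_pi_nhds.1 c.tend k).eventually_ne fun e => h (hm e)).mono
            fun _ a _ => a
    obtain ⟨ε, ε0, hε⟩ := Metric.eventually_nhds_iff_ball.1 h1
    refine ⟨min r ε, lt_min r0 ε0, fun t ht h0 => ?_⟩
    have t1 := ht.trans_le (min_le_left _ _)
    have o1 := hok t t1
    have o0 := hok 0 (by simpa)
    have h2 := e1 t t1
    rw [← hE t t1, h0, add_zero] at h2
    have h3 := H.unq _ _ _ _ o1.inj o0.inj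
      (fun i => ⟨(o1.br i).self_of_nhds.ne, (o1.br i).self_of_nhds.sq⟩)
      (fun i => ⟨(o0.br i).self_of_nhds.ne, (o0.br i).self_of_nhds.sq⟩) h2
    have h4 : c.T t = m0 := funext fun k => by
      obtain ⟨l, hl⟩ := h3 k
      rw [c.T0] at hl
      by_cases h : k = l
      · rw [hl, h]
      · exact absurd hl (hε t (mem_ball_zero_iff.2 (ht.trans_le (min_le_right _ _))) k l h)
    rw [← o1.rt, h4]
    exact Finset.sum_eq_zero fun k _ => c.L0 k
  · have p1 : Tendsto (fun s : ℂ => fun k => m0 k + s) (𝓝 0) (𝓝 m0) :=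
      tendsto_pi_nhds.2 fun k => by
        simpa using (tendsto_const_nhds (x := m0 k)).add (tendsto_id (x := 𝓝 (0 : ℂ)))
    have p2 : Tendsto (fun s : ℂ => ∑ k, c.L k (m0 k + s)) (𝓝 0) (𝓝 0) := by
      have := tendsto_finsetSum univ fun k _ =>
        ((c.br k).self_of_nhds.L.continuousAt.tendsto.comp (tendsto_pi_nhds.1 p1 k))
      simpa only [c.L0, sum_const_zero, Function.comp] using this
    have p3 : ∀ᶠ s in 𝓝[≠] (0 : ℂ), ∀ k, m0 k + s ≠ μ := eventually_all.2 fun k => by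
      by_cases h : m0 k = μ
      · filter_upwards [self_mem_nhdsWithin] with s hs e
        exact hs (by rw [h] at e; simpa using e)
      · exact ((tendsto_pi_nhds.1 p1 k).eventually_ne h).filter_mono nhdsWithin_le_nhds
    obtain ⟨s, s1, s2, s3⟩ := (p3.and (((p1.eventually c.lf).and
      (p2.eventually (ball_mem_nhds _ r0))).filter_mono nhdsWithin_le_nhds)).exists
    have t1 := mem_ball_zero_iff.1 s3
    have h1 := l1 H c (hok _ t1) (μ := μ) (by rw [s2]; exact s1) hB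
    have h2 : ∀ᶠ z in 𝓝 μ, ‖I z - I μ‖ < r := by
      have := (hB.self_of_nhds.L.continuousAt.sub (continuousAt_const (y := I μ))).norm
      exact this.eventually (gt_mem_nhds (by simpa))
    filter_upwards [h1, h2] with z a b
    rw [he _ _ t1 b, ← hE _ b] at a
    linear_combination (norm := abel) -a

theorem fam0 {E : (Fin 3 → ℂ) →+ G}
    (hE : ∀ (μ : ℂ) (w : ℂ → ℂ) (I : ℂ → Fin 3 → ℂ), (∀ᶠ z in 𝓝 μ, Br F w I z) →
      ∀ᶠ z in 𝓝 μ, pt z (w z) - pt μ (w μ) = E (I z - I μ))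
    {𝕜 : Type} [RCLike 𝕜] [NormedAlgebra 𝕜 ℂ] {ι : Type} [Fintype ι] (n : ι → ℤ)
    (m w m' : ι → 𝕜 → ℂ) (I : 𝕜 → Fin 3 → ℂ) (z0 : 𝕜)
    (h0 : ∀ i, ContinuousAt (w i) z0 ∧ w i z0 ≠ 0)
    (h : ∀ᶠ z in 𝓝 z0, (∀ i, HasDerivAt (m i) (m' i z) z ∧ w i z ^ 2 = F.eval (m i z)) ∧
      HasDerivAt I (∑ i, (n i * m' i z) • om (m i z) (w i z)) z) :
    ∀ᶠ z in 𝓝 z0, ∑ i, n i • pt (m i z) (w i z) - ∑ i, n i • pt (m i z0) (w i z0) =
      E (I z - I z0) := by
  choose v L v0 L0 hB using fun i => br_ex F (h0 i).2 (h.self_of_nhds.1 i).2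
  have mt : ∀ i, Tendsto (m i) (𝓝 z0) (𝓝 (m i z0)) := fun i =>
    (h.self_of_nhds.1 i).1.continuousAt
  have h1 : ∀ᶠ z in 𝓝 z0, ∀ i, Br F (v i) (L i) (m i z) ∧ w i z = v i (m i z) ∧
      pt (m i z) (w i z) - pt (m i z0) (w i z0) = E (L i (m i z)) := by
    refine eventually_all.2 fun i => ?_
    have c1 : ContinuousAt (fun z => w i z + v i (m i z)) z0 :=
      (h0 i).1.add ((hB i).self_of_nhds.d.continuousAt.comp (f := m i) (mt i))
    have c2 := c1.eventually_ne (y := 0) (by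
      simp only [v0]
      intro e
      exact (h0 i).2 (by linear_combination (1 / 2 : ℂ) * e))
    filter_upwards [(mt i).eventually (hB i), (mt i).eventually (hE _ _ _ (hB i)), c2, h]
      with z a b c d
    have e : w i z = v i (m i z) := by
      have := mul_left_cancel₀ c (show (w i z + v i (m i z)) * (w i z - v i (m i z)) =
        (w i z + v i (m i z)) * 0 by linear_combination (d.1 i).2 - a.sq)
      exact sub_eq_zero.1 this
    exact ⟨a, e, by rw [e, ← v0, b, L0, sub_zero]⟩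
  have h2 : ∀ᶠ z in 𝓝 z0, HasDerivAt (fun z => I z - ∑ i, (n i : ℂ) • L i (m i z)) 0 z := by
    filter_upwards [h, h1] with z a b
    have d : HasDerivAt (fun z => ∑ i, (n i : ℂ) • L i (m i z))
        (∑ i, (n i : ℂ) • m' i z • om (m i z) (v i (m i z))) z :=
      HasDerivAt.fun_sum fun i _ => ((b i).1.L.scomp z (a.1 i).1).const_smul (n i : ℂ)
    refine (a.2.sub d).congr_deriv (sub_eq_zero.2 ?_)
    exact sum_congr rfl fun i _ => by rw [smul_smul, (b i).2.1]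
  filter_upwards [h1, const_of_deriv h2] with z a b
  simp only [L0, smul_zero, sum_const_zero, sub_zero] at b
  rw [← b, sub_sub_cancel, map_sum, ← sum_sub_distrib]
  exact sum_congr rfl fun i _ => by
    rw [← smul_sub, (a i).2.2, Int.cast_smul_eq_zsmul, map_zsmul]

theorem famU0 {E : (Fin 3 → ℂ) →+ G}
    (hE : ∀ (μ : ℂ) (w : ℂ → ℂ) (I : ℂ → Fin 3 → ℂ), (∀ᶠ z in 𝓝 μ, Br F w I z) →
      ∀ᶠ z in 𝓝 μ, pt z (w z) - pt μ (w μ) = E (I z - I μ))
    {𝕜 : Type} [RCLike 𝕜] [NormedAlgebra 𝕜 ℂ] {ι : Type} [Fintype ι] (n : ι → ℤ)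
    (m w m' : ι → 𝕜 → ℂ) (I : 𝕜 → Fin 3 → ℂ) (U : Set 𝕜) (ho : IsOpen U) (hc : IsPreconnected U)
    (h : ∀ z ∈ U, (∀ i, ContinuousAt (w i) z ∧ w i z ≠ 0 ∧ HasDerivAt (m i) (m' i z) z ∧
      w i z ^ 2 = F.eval (m i z)) ∧ HasDerivAt I (∑ i, (n i * m' i z) • om (m i z) (w i z)) z) :
    ∀ a ∈ U, ∀ b ∈ U, ∑ i, n i • pt (m i b) (w i b) - ∑ i, n i • pt (m i a) (w i a) =
      E (I b - I a) := by
  intro a ha b hb
  have key := lc_const (f := fun z => ∑ i, n i • pt (m i z) (w i z) - E (I z)) hc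
    (fun z hz => by
      have := fam0 hE n m w m' I z (fun i => ⟨((h z hz).1 i).1, ((h z hz).1 i).2.1⟩) (by
        filter_upwards [ho.mem_nhds hz] with y hy
        exact ⟨fun i => ((h y hy).1 i).2.2, (h y hy).2⟩)
      filter_upwards [this] with y hy
      rw [map_sub] at hy
      linear_combination (norm := abel) hy) hb ha
  rw [map_sub]
  linear_combination (norm := abel) key

end ExpL

open ExpL

theorem exp_ex : EXP := by
  intro F G _ pt H
  obtain ⟨E, h1, h2⟩ := ex0 H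
  refine ⟨E, h1, fun ι _ => fam0 h2, fun ι _ => famU0 h2, fun ι _ => famU0 h2, fun S => ?_⟩
  have F0 : F ≠ 0 := fun h => by have := H.deg; rw [h] at this; simp at this
  obtain ⟨m0, hm, f0, s0⟩ := tri_ex F F0 S
  obtain ⟨c⟩ := ch_ex F hm f0
  exact ⟨m0, c.w, c.L, c.T, s0, hm, c.T0, c.rt.self_of_nhds.1, c.L0,
    fun k => (c.br k).mono fun z h => ⟨h.d, h.ne, h.sq, h.L⟩, c.rt.mono fun t h => h.2⟩

theorem eqv : EQV := by
  intro F G _ pt E hE H A S hS t
  obtain ⟨m0, w, L, T, s0, -, T0, Tc, L0, hB, rt⟩ := hE.chart S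
  have h1 : ∀ k, ∀ᶠ z in 𝓝 (m0 k), H (E (L k z)) = E (A (L k z)) := fun k => by
    obtain ⟨ι, _, n, m', w', d, c, a1, a2⟩ := hS (m0 k) (w k) (s0 k) (hB k).self_of_nhds.2.1
      ((hB k).mono fun z h => ⟨h.1, h.2.2.1⟩)
    have b1 := hE.fam ι n m' w' d (fun z => A (L k z)) (m0 k) a1 (by
      filter_upwards [a2, hB k] with z p q
      exact ⟨p.1, p.2.1 ▸ A.hasFDerivAt.comp_hasDerivAt z q.2.2.2⟩)
    have b2 := hE.fam Unit (fun _ => 1) (fun _ z => z) (fun _ => w k) (fun _ _ => 1) (L k) (m0 k)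
      (fun _ => ⟨(hB k).self_of_nhds.1.continuousAt, (hB k).self_of_nhds.2.1⟩) (by
        filter_upwards [hB k] with z q
        exact ⟨fun _ => ⟨hasDerivAt_id z, q.2.2.1⟩, by simpa using q.2.2.2⟩)
    filter_upwards [b1, b2, a2] with z p q u
    simp only [L0, map_zero, sub_zero, univ_unique, sum_singleton, one_smul] at p q
    rw [← p, ← q, map_sub, u.2.2, a2.self_of_nhds.2.2]
    abel
  have Tt : Tendsto T (𝓝 0) (𝓝 m0) := by rwa [ContinuousAt, T0] at Tc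
  have h2 : ∀ᶠ u in 𝓝 (0 : Fin 3 → ℂ), H (E u) = E (A u) := by
    filter_upwards [rt, eventually_all.2 fun k => (tendsto_pi_nhds.1 Tt k).eventually (h1 k)]
      with u a b
    rw [← a]
    simp only [map_sum, b]
  have h3 : Tendsto (fun n : ℕ => ((n : ℂ))⁻¹ • t) atTop (𝓝 0) := by
    simpa using (tendsto_inv_atTop_nhds_zero_nat (𝕜 := ℂ)).smul_const t
  obtain ⟨n, a, b⟩ := ((h3.eventually h2).and (eventually_gt_atTop 0)).exists
  have n0 : (n : ℂ) ≠ 0 := by exact_mod_cast b.ne'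
  have e : t = n • ((n : ℂ)⁻¹ • t) := by
    rw [← Nat.cast_smul_eq_nsmul ℂ, smul_smul, mul_inv_cancel₀ n0, one_smul]
  rw [e, map_nsmul, map_nsmul, map_nsmul, map_nsmul, a]

end Vale.Agent.P027M.X
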