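import Vale.Agent.P027M.X.HDefs
import Vale.Agent.P027M.X.Exp

/-! # P027, route M, blocks B2, B3 : the rows SEP, SOLM, EQI -/

open Polynomial Filter Topology
open scoped PowerSeries

noncomputable section

namespace Vale.Agent.P027M.X

namespace SepL

variable {k : Type*} [Field k]

theorem cop {a b : k} (h : a - b ≠ 0) : IsCoprime (X ^ 2 - C a : k[X]) (X ^ 2 - C b) := by
  refine ⟨-C (a - b)⁻¹, C (a - b)⁻¹, ?_⟩
  have e : C (a - b)⁻¹ * (C a - C b) = (1 : k[X]) := by
    rw [← map_sub, ← map_mul, inv_mul_cancel₀ h, map_one]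
  linear_combination e

theorem copX {a : k} (h : a ≠ 0) : IsCoprime (X : k[X]) (X ^ 2 - C a) := by
  refine ⟨C a⁻¹ * X, -C a⁻¹, ?_⟩
  have e : C a⁻¹ * C a = (1 : k[X]) := by rw [← map_mul, inv_mul_cancel₀ h, map_one]
  linear_combination e

theorem map_th {K K' : Type*} [CommRing K] [CommRing K'] (φ : K →+* K') (f : K⟦X⟧) :
    PowerSeries.map φ (B.th f) = B.th (PowerSeries.map φ f) := by
  ext n
  cases n with
  | zero => simp [B.th]
  | succ n => simp [B.th, PowerSeries.coeff_succ_X_mul, PowerSeries.coeff_derivative]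

theorem map_cc {K K' : Type*} [CommRing K] [CommRing K'] (φ : K →+* K') (f : K⟦X⟧) :
    PowerSeries.constantCoeff (PowerSeries.map φ f) = φ (PowerSeries.constantCoeff f) := by
  rw [← PowerSeries.coeff_zero_eq_constantCoeff_apply, PowerSeries.coeff_map,
    PowerSeries.coeff_zero_eq_constantCoeff_apply]

end SepL

open SepL

theorem sep : SEP := by
  intro k _ _ g T h
  have p1 := h.hp1
  have q : (g - 1) ^ 2 * T ≠ 0 := mul_ne_zero (pow_ne_zero _ h.hm1) h.hT
  have a1 : c3 g * T ≠ 0 := mul_ne_zero (div_ne_zero (mul_ne_zero h.hg h.hm3) p1) h.hT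
  have a2 : d2 g * T ≠ 0 :=
    mul_ne_zero (div_ne_zero (mul_ne_zero (by norm_num) h.hg) (pow_ne_zero _ p1)) h.hT
  have b1 : T - c3 g * T ≠ 0 := by
    rw [show T - c3 g * T = (g - 1) ^ 2 * T / (g + 1) by unfold c3; field_simp; ring]
    exact div_ne_zero q p1
  have b2 : T - d2 g * T ≠ 0 := by
    rw [show T - d2 g * T = (g - 1) ^ 2 * T / (g + 1) ^ 2 by unfold d2; field_simp; ring]
    exact div_ne_zero q (pow_ne_zero _ p1)
  have b3 : c3 g * T - d2 g * T ≠ 0 := by
    rw [show c3 g * T - d2 g * T = -(g * ((g - 1) ^ 2 * T)) / (g + 1) ^ 2 by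
      unfold c3 d2; field_simp; ring]
    exact div_ne_zero (neg_ne_zero.2 (mul_ne_zero h.hg q)) (pow_ne_zero _ p1)
  have s : ∀ a : k, a ≠ 0 → (X ^ 2 - C a : k[X]).Separable := fun a ha =>
    separable_X_pow_sub_C a (by norm_num) ha
  refine ⟨by unfold fG; compute_degree!, ?_⟩
  exact ((separable_X.mul (s _ h.hT) (copX h.hT)).mul (s _ a1)
    ((copX a1).mul_left (cop b1))).mul (s _ a2) (((copX a2).mul_left (cop b2)).mul_left (cop b3))

theorem solm : SOLM := by
  intro L L' _ _ φ F m0 s h m w hs H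
  refine ⟨fun k => by rw [map_cc, H.m_zero], fun k => by rw [map_cc, H.w_zero], fun k => ?_,
    fun j => ?_⟩
  · rw [← map_pow, H.sq]
    refine map_aeval_eq_aeval_map (RingHom.ext fun x => ?_) F (m k)
    simp
  · rw [← H.ode, map_sum]
    refine Finset.sum_congr rfl fun k _ => ?_
    have h1 : PowerSeries.constantCoeff (w k) ≠ 0 := by rw [H.w_zero]; exact hs k
    rw [map_mul, map_mul, map_pow, map_th, (PowerSeries.inv_eq_iff_mul_eq_one
      (φ := PowerSeries.map φ (w k)⁻¹) (by rw [map_cc]; exact (_root_.map_ne_zero φ).2 h1)).2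
      (by rw [← map_mul, PowerSeries.inv_mul_cancel _ h1, map_one])]

theorem eqi : EQI := by
  intro F hF E hE z
  have hev : ∀ μ : ℂ, F.eval (-μ) = -F.eval μ := fun μ => by
    simpa [eval_comp] using congrArg (eval μ) hF
  let A : (Fin 3 → ℂ) →L[ℂ] (Fin 3 → ℂ) := ContinuousLinearMap.pi fun j =>
    (![Complex.I, -Complex.I, Complex.I] j) • ContinuousLinearMap.proj j
  have hA : ∀ y, A y = tw Complex.I y := fun y => by
    funext j
    fin_cases j <;> simp [A, tw]
  rw [← hA]
  refine eqv F _ _ E hE _ A ∅ (fun z0 w _ h0 h => ⟨Unit, inferInstance, fun _ => 1,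
    fun _ z => -z, fun _ z => Complex.I * w z, fun _ _ => -1, 0, fun _ =>
    ⟨continuousAt_const.mul h.self_of_nhds.1.continuousAt, mul_ne_zero Complex.I_ne_zero h0⟩, ?_⟩) z
  filter_upwards [h] with y hy
  refine ⟨fun _ => ⟨hasDerivAt_neg y, by rw [mul_pow, Complex.I_sq, hev, hy.2]; ring⟩, ?_, ?_⟩
  · rw [hA]
    funext j
    fin_cases j <;> simp [tw, om, div_eq_mul_inv] <;> ring
  · simp [piota_cl]

end Vale.Agent.P027M.X
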