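import Vale.Agent.P027M.X.Defs
import Vale.Agent.P027M.X.MerDefs
import Vale.Agent.P022.H236.L3.Exm

/-! # P027, route M, block MON : rows ALG, STAB, OUT (statements, owner helper54) -/

open Polynomial Filter UpperHalfPlane
open scoped PowerSeries MatrixGroups IntermediateField

noncomputable section

namespace Vale.Agent.P027M.X

open Vale.Agent.P027M.B Vale.Agent.P022.H218.L3 Vale.Agent.P022.H236.L3 Vale.Agent.P022.H542.L3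

/-- [X.EXS] the formal solution exists over every field of characteristic zero
(`B.Lf.leaf0` with `O = L`, `De = 1`, rescale `v` so that `M0 = 1`, then `B.tay_ok` with `M1 = 1`) -/
def EXS : Prop := ∀ (L : Type) [Field L] [CharZero L] (F : L[X]) (m0 s : Fin 3 → L)
  (h : Fin 3 → L⟦X⟧), Function.Injective m0 → (∀ k, s k ≠ 0) → (∀ k, s k ^ 2 = F.eval (m0 k)) →
  (∀ j, PowerSeries.constantCoeff (h j) = 0) → ∃ m w, Sol F m0 s h m w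

/-- [X.GLOB] meromorphic on the disc and algebraic over `ℂ[x]` : a global quotient
(`p(x) y` is integral over the convergent series, so it has removable singularities) -/
def GLOB : Prop := ∀ x y : ℂ⟦X⟧, Conv 1 x → Mr y → IsAlgebraic (Algebra.adjoin ℂ {x}) y →
  ∃ (α β : ℍ → ℂ) (hα : α ∈ Hol) (hβ : β ∈ Hol), β ≠ 0 ∧
    ExM 1 (y : LS) (inc α hα / inc β hβ) ∧ ∀ τ : ℍ, β τ ≠ 0 → val y (qq τ) = α τ / β τ

/-- [X.FIX] an invariant meromorphic function which is algebraic over the modular functions is a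
modular function (`g y` is integral over modular forms: holomorphic, bounded at all cusps) -/
def FIX : Prop := ∀ (Γ : Subgroup SL(2, ℤ)) (y : Mer), IsAlgebraic (MF Γ) y →
  (∀ γ ∈ Γ, act γ y = y) → y ∈ MF Γ

/-- [X.ORB] the conjugates are the translates; from `FIX` (primitive element, the product over the
finite orbit has coefficients in `MF Γ`) -/
def ORB : Prop := ∀ (Γ : Subgroup SL(2, ℤ)) (E W : Type) [Field E] [Field W] [Algebra (MF Γ) E]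
  [FiniteDimensional (MF Γ) E] (ρ : E →ₐ[MF Γ] Mer) (φ : Mer →+* W) (τ : E →+* W),
  (∀ y : MF Γ, τ (algebraMap (MF Γ) E y) = φ y) → ∃ γ ∈ Γ, ∀ z, τ z = φ (act γ (ρ z))

/-- [X.GERM] evaluation at a generic point -/
def GERM : Prop := ∃ (𝒰 : Ultrafilter ℍ) (φ : Mer →+* Germ (𝒰 : Filter ℍ) ℂ),
  IsAlgClosed (Germ (𝒰 : Filter ℍ) ℂ) ∧ (∀ (f : ℍ → ℂ) (hf : f ∈ Hol), φ (inc f hf) = ↑f) ∧
  (∀ γ : SL(2, ℤ), Tendsto (fun τ : ℍ => qq (γ • τ : ℍ)) (𝒰 : Filter ℍ) cc) ∧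
  ∀ f ∈ Hol, f ≠ 0 → ∀ᶠ τ in (𝒰 : Filter ℍ), f τ ≠ 0

/-- [X.MONA] all multiples `t h`, `t = a / n ∈ ℚ(i)`, have algebraic leaves -/
def MONA : Prop := ∀ (F : ℂ[X]) (x : ℂ⟦X⟧) (h : Fin 3 → ℂ⟦X⟧) (M n : ℕ) (a : GaussianInt)
  (m0 s m0' s' : Fin 3 → ℂ) (m w m' w' : Fin 3 → ℂ⟦X⟧), F.natDegree = 7 → F.Separable →
  F.comp (-X) = -F → 0 < M → 0 < n → (∀ k, s k ≠ 0) →
  Sol F m0 s (fun j => PowerSeries.C (M : ℂ) * h j) m w →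
  (∀ k, IsAlgebraic (Algebra.adjoin ℂ {x}) (m k)) → Function.Injective m0' → (∀ k, s' k ≠ 0) →
  Sol F m0' s' (fun j => PowerSeries.C (tw ((a : ℂ) / n) 1 j) * h j) m' w' →
  ∀ k, IsAlgebraic (Algebra.adjoin ℂ {x}) (m' k)

/-- three integrals `u` of forms of weight two with periods `Φ` whose leaves are algebraic -/
structure Mon (Γ : Subgroup SL(2, ℤ)) (F : ℂ[X]) (E : (Fin 3 → ℂ) →+ PicP F) (x : ℂ⟦X⟧)
    (u : Fin 3 → ℂ⟦X⟧) (Φ : SL(2, ℤ) → Fin 3 → ℂ) : Prop where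
  T : ModularGroup.T ∈ Γ
  deg : F.natDegree = 7
  sep : F.Separable
  exp : IsExp F (fun m w => cl F (m, w)) E
  cx : Conv 1 x
  x1 : th x ≠ 0
  mx : ∃ x0 : MF Γ, ExM 1 (x : LS) (x0 : Mer) ∧ Algebra.IsAlgebraic ℂ⟮x0⟯ (MF Γ)
  cu : ∀ j, Conv 1 (u j)
  u0 : ∀ j, PowerSeries.constantCoeff (u j) = 0
  ne : ∃ j, u j ≠ 0
  mu : ∀ j, ∃ η ∈ MF Γ, ExM 1 (((th (u j) : ℂ⟦X⟧) : LS) / ((th x : ℂ⟦X⟧) : LS)) η
  per : ∀ γ ∈ Γ, ∀ (τ : ℍ) (j : Fin 3), ev (u j) (qq (γ • τ : ℍ)) = ev (u j) (qq τ) + Φ γ j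
  alg : ∀ (m0 s : Fin 3 → ℂ) (m w : Fin 3 → ℂ⟦X⟧), Function.Injective m0 → (∀ k, s k ≠ 0) →
    Sol F m0 s (fun j => th (u j)) m w → ∀ k, IsAlgebraic (Algebra.adjoin ℂ {x}) (m k)

/-- [X.MONS] **STAB** : the exponentials of the periods form a Galois stable set -/
def MONS : Prop := ∀ (Γ : Subgroup SL(2, ℤ)) (F : ℂ[X]) (E : (Fin 3 → ℂ) →+ PicP F) (x : ℂ⟦X⟧)
  (u : Fin 3 → ℂ⟦X⟧) (Φ : SL(2, ℤ) → Fin 3 → ℂ), Mon Γ F E x u Φ →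
  ∀ (σ : ℂ ≃+* ℂ) (hF : F.map (σ : ℂ →+* ℂ) = F), x.map (σ : ℂ →+* ℂ) = x →
  (∀ j, (u j).map (σ : ℂ →+* ℂ) = u j) →
  (∀ y ∈ MF Γ, ∀ s, ExM 1 s y →
    (∃ y' ∈ MF Γ, ExM 1 (cm σ s) y') ∧ ∃ y' ∈ MF Γ, ExM 1 (cm σ.symm s) y') →
  ∀ γ ∈ Γ, ∃ γ' ∈ Γ, pmap (σ : ℂ →+* ℂ) hF (E (Φ γ)) = E (Φ γ')

/-- [X.MONO] **OUTPUT (a)** : if all periods lie in the kernel, the Mumford polynomial of the
leaf has modular coefficients -/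
def MONO : Prop := ∀ (Γ : Subgroup SL(2, ℤ)) (F : ℂ[X]) (E : (Fin 3 → ℂ) →+ PicP F) (x : ℂ⟦X⟧)
  (u : Fin 3 → ℂ⟦X⟧) (Φ : SL(2, ℤ) → Fin 3 → ℂ), Mon Γ F E x u Φ → (∀ γ ∈ Γ, E (Φ γ) = 0) →
  ∀ (m0 s : Fin 3 → ℂ) (m w : Fin 3 → ℂ⟦X⟧), Function.Injective m0 → (∀ k, s k ≠ 0) →
  Gen m0 (fun j => th (u j)) → Sol F m0 s (fun j => th (u j)) m w →
  ∀ n, ∃ y ∈ MF Γ, ExM 1 (((∏ k, (X - C (m k))).coeff n : ℂ⟦X⟧) : LS) y

end Vale.Agent.P027M.X
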