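import Vale.Agent.P027M.X.HDefs
import Vale.Agent.P027M.X.MonDefs
import Vale.Agent.P027M.X.ToPc
import Vale.Agent.P027M.F.Defs
import Vale.Agent.P027M.B2.Lat
import Vale.Agent.P027M.B3.Defs
import Vale.Agent.P027M.Fo.Defs
import Vale.Agent.P027M.N.Defs

/-! # P027, route M, blocks B2, B3 : the interfaces of the final glue (owner helper43) -/

set_option linter.all false

open Polynomial UpperHalfPlane
open scoped PowerSeries MatrixGroups IntermediateField ComplexConjugate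

noncomputable section

namespace Vale.Agent.P027M.X

open Vale.Agent.P022 Vale.Agent.P022.H218.L3 Vale.Agent.P022.H236.L3 Vale.Agent.P022.H542.L3
  _root_.P027M.K

/-! ### the correspondence `H` -/

/-- [X.HYPS] the rescaled model has the same function field -/
def HYPS : Prop := ∀ (k : Type) [Field k] [IsAlgClosed k] (P : F.Par k) (r : k), r ≠ 0 →
  B.Hyp (fG P.g (r ^ 4 * P.g0)) (algebraMap k P.FC (r ^ 2) * P.mC)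
    (algebraMap k P.FC (r ^ 7) * P.wC)

/-- [X.HOP] push `ρ` pull sends a generic point to its two mates -/
def HOP : Prop := ∀ (k : Type) [Field k] [IsAlgClosed k] [CharZero k] (P : F.Par k) (r : k)
  (h : B.Hyp (fG P.g (r ^ 4 * P.g0)) (algebraMap k P.FC (r ^ 2) * P.mC)
    (algebraMap k P.FC (r ^ 7) * P.wC)), r ≠ 0 →
  ∃ H, IsH P.g (r ^ 4 * P.g0) H ∧
    ∀ x, toPc h (H x) = pushP P.FC (actP P.sR (pullP P.FF (toPc h x)))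

/-- the correspondence exists; from `HYPS`, `HOP` -/
def HEX : Prop := ∀ (k : Type) [Field k] [IsAlgClosed k] [CharZero k] (g T : k), Rg g T →
  ∃ H, IsH g T H

theorem hex (h1 : HYPS) (h2 : HOP) : HEX := by
  intro k _ _ _ g T h
  obtain ⟨i, hi⟩ := IsAlgClosed.exists_pow_nat_eq (-1 : k) (n := 2) (by norm_num)
  let P : F.Par k := ⟨g, T, i, hi, two_ne_zero, three_ne_zero, h.hT, h.hg, h.hp1, h.hm3, h.hm1,
    h.hp3⟩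
  obtain ⟨H, hH, -⟩ := h2 k P 1 (h1 k P 1 one_ne_zero) one_ne_zero
  have e : ∀ T' : k, T' = T → (∃ H, IsH g T' H) → ∃ H, IsH g T H := by
    rintro _ rfl h; exact h
  exact e _ (by simp [P]) ⟨H, hH⟩

/-! ### cyclic submodules of the torsion -/

/-- a torsion class of the part `H = -1` which spans a `G_K`-stable `ℤ[i]`-module is killed by
`K0` (**output of B2**, over `ℚ̄`) -/
def CycQ (i : Qb) (hi : i ^ 2 = -1) (g T : Qb) (K0 : ℕ) : Prop :=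
  ∀ H, IsH g T H → ∀ x : PicP (fG g T), (∃ n : ℕ, n ≠ 0 ∧ n • x = 0) → H x = -x →
    (∀ σ : GQ, σ i = i → ∀ hσ : (fG g T).map (σ : Qb →+* Qb) = fG g T,
      ∃ c, pmap (σ : Qb →+* Qb) hσ x = B2.gs (piota i hi (fG_odd g T)) c x) → K0 • x = 0

/-- the same over `ℂ` -/
def CycC (g T : ℂ) (K0 : ℕ) : Prop :=
  ∀ H, IsH g T H → ∀ x : PicP (fG g T), (∃ n : ℕ, n ≠ 0 ∧ n • x = 0) → H x = -x →
    (∀ σ : ℂ ≃+* ℂ, σ Complex.I = Complex.I → ∀ hσ : (fG g T).map (σ : ℂ →+* ℂ) = fG g T,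
      ∃ c, pmap (σ : ℂ →+* ℂ) hσ x = B2.gs (piota Complex.I Complex.I_sq (fG_odd g T)) c x) →
    K0 • x = 0

/-- [X.CYC] from `SEP TORS HMAP HEX` -/
def CYC : Prop := ∀ (i : Qb) (hi : i ^ 2 = -1) (j : Qb →+* ℂ) (g T : Qb) (K0 : ℕ),
  j i = Complex.I → Rg g T → CycQ i hi g T K0 → CycC (j g) (j T) K0

/-! ### the modular side -/

/-- the primitive of `g1` -/
def U1 (c : ℕ → GaussianInt) : ℂ⟦X⟧ := PowerSeries.mk (B3.cf (fun n => (c n : ℂ)) true)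

/-- the primitive of `conj g3` -/
def U3 (c : ℕ → GaussianInt) : ℂ⟦X⟧ := PowerSeries.mk (B3.cf (fun n => conj (c n : ℂ)) false)

/-- the periods of `g1` -/
def p1 (c : ℕ → GaussianInt) : SL(2, ℤ) → ℂ := B3.pd (B3.GG (fun n => (c n : ℂ)) true)

/-- the periods of `conj g3` -/
def p3 (c : ℕ → GaussianInt) : SL(2, ℤ) → ℂ := B3.pd (B3.GG (fun n => conj (c n : ℂ)) false)

/-- the periods -/
structure Md1 (Γ : Subgroup SL(2, ℤ)) (c : ℕ → GaussianInt) (η : ℝ) : Prop where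
  fi : Γ.FiniteIndex
  T : ModularGroup.T ∈ Γ
  cu : B.Conv 1 (U1 c) ∧ B.Conv 1 (U3 c)
  per : ∀ γ ∈ Γ, ∀ τ : ℍ, B.ev (U1 c) (B.qq (γ • τ : ℍ)) = B.ev (U1 c) (B.qq τ) + p1 c γ ∧
    B.ev (U3 c) (B.qq (γ • τ : ℍ)) = B.ev (U3 c) (B.qq τ) + p3 c γ
  rot : ∀ γ ∈ Γ, ∃ γ' ∈ Γ, p1 c γ' = Complex.I * p1 c γ ∧ p3 c γ' = -Complex.I * p3 c γ
  span : Submodule.span ℝ ((fun γ => (p1 c γ, p3 c γ)) '' (Γ : Set SL(2, ℤ))) = ⊤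
  low : ∀ γ ∈ Γ, (p1 c γ ≠ 0 ∨ p3 c γ ≠ 0) → η ≤ max ‖p1 c γ‖ ‖p3 c γ‖

/-- the modular function `x` -/
structure Md2 (Γ : Subgroup SL(2, ℤ)) (c : ℕ → GaussianInt) (x : ℤ⟦X⟧) (γ0 : B.Gam) : Prop where
  x1 : PowerSeries.coeff 1 x = 1
  xinv : ∀ γ ∈ Γ, ∀ τ : ℍ, B.ev (x.map (Int.castRingHom ℂ)) (B.qq (γ • τ : ℍ)) =
    B.ev (x.map (Int.castRingHom ℂ)) (B.qq τ)
  mx : ∃ x0 : MF Γ, ExM 1 ((x.map (Int.castRingHom ℂ) : ℂ⟦X⟧) : LS) (x0 : Mer) ∧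
    Algebra.IsAlgebraic ℂ⟮x0⟯ (MF Γ)
  mu : ∀ u : ℂ⟦X⟧, u = U1 c ∨ u = U3 c → ∃ η ∈ MF Γ,
    ExM 1 (((B.th u : ℂ⟦X⟧) : LS) / ((B.th (x.map (Int.castRingHom ℂ)) : ℂ⟦X⟧) : LS)) η
  an : ∀ (l0 l1 l2 : GaussianInt) (K : Type) [Field K] (φ : GaussianInt →+* K),
    B.AN γ0 (fun j n => φ (B.hb l0 l1 l2 c j n)) x

/-- the arithmetic of the expansions -/
structure Md3 (Γ : Subgroup SL(2, ℤ)) : Prop where
  autc : ∀ (σ : ℂ ≃+* ℂ), ∀ y ∈ MF Γ, ∀ s, ExM 1 s y → ∃ y' ∈ MF Γ, ExM 1 (cm σ s) y'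
  frb : ∀ y : Qb⟦X⟧, (∃ z ∈ MF Γ, ExM 1 ((y.map (M.io : Qb →+* ℂ) : ℂ⟦X⟧) : LS) z) → N.FrBD y

/-- [X.MD1] from `LOWB SPAN RST IDX REFL PRIM SERD` of B3 and `ES.ONTO` -/
def MD1 : Prop := ∃ (C : ℝ) (κ : ℕ), ∀ (N : ℕ) (e : ℤ → GaussianInt) (c : ℕ → GaussianInt),
  M.Lv N → Fo.Chr N e → Fo.FormS (N ^ 3) e c → c 11 ≠ 0 →
  ∃ H : Subgroup (ZMod (N ^ 3))ˣ, -1 ∈ H ∧ (∀ γ ∈ M.GH (N ^ 3) H, e (γ 1 1) = 1) ∧
    Md1 (M.GH (N ^ 3) H) c (Real.exp (-(C * (N : ℝ) ^ κ)))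

/-- [X.MD2] from `Fo.XF`, `Fo.ANF`, `Fo.STA`, the Wronskian (`P022/H29/L3/Wr`) -/
def MD2 : Prop := ∀ (N : ℕ) (e : ℤ → GaussianInt) (c : ℕ → GaussianInt)
  (H : Subgroup (ZMod N)ˣ), M.Lv N → Fo.Chr N e → Fo.FormS N e c → -1 ∈ H →
  (∀ γ ∈ M.GH N H, e (γ 1 1) = 1) → ∃ x γ0, Md2 (M.GH N H) c x γ0

/-- [X.MD3] from `M/Bc` -/
def MD3 : Prop := ∀ (N : ℕ) (H : Subgroup (ZMod N)ˣ), M.Lv N → -1 ∈ H → Md3 (M.GH N H)

/-! ### the input of the blocks B2, B3 -/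

/-- the curve, the form and the constants -/
structure Dt (g : ℚ) (N : ℕ) (e : ℤ → GaussianInt) (c : ℕ → GaussianInt) (F0 : GaussianInt[X])
    (T0 l0 l1 l2 : GaussianInt) (ν : ℚ) : Prop where
  lv : M.Lv N
  chr : Fo.Chr N e
  form : Fo.FormS (N ^ 3) e c
  c11 : c 11 ≠ 0
  cc : B.CC F0 (B.hb l0 l1 l2 c)
  hF : F0.map GaussianInt.toComplex = fG (g : ℂ) (T0 : ℂ)
  hT : T0 ≠ 0
  hl0 : l0 ≠ 0
  hl2 : (l2 : ℂ) = (3 - g) / (g + 1) * T0 * l0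
  rat : g * l1.norm = 9 * ν * l0.norm
  hν : ν ^ 2 = c3 g * T0.norm
  pos : 0 < ν

/-- **the input** (from GalA, EIG, FORM, Cart, B2) -/
def In23 : Prop := ∃ C0 : ℕ, ∀ g : ℚ, Std g → ∃ (i : Qb) (hi : i ^ 2 = -1) (N : ℕ)
  (e : ℤ → GaussianInt) (c : ℕ → GaussianInt) (F0 : GaussianInt[X]) (T0 l0 l1 l2 : GaussianInt)
  (ν : ℚ) (K0 : ℕ), Dt g N e c F0 T0 l0 l1 l2 ν ∧ N ≤ C0 * Vis g ∧ K0 ≠ 0 ∧ K0 ≤ C0 ∧
    CycQ i hi g (gi i T0) K0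

/-- **the top statement of B2 + B3** -/
def TOP23 : Prop := In23 → N.OUT23

end Vale.Agent.P027M.X
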