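import Vale.Agent.P027M.X.Defs

/-! # P027, route M : every class is the class of a reduced divisor -/

open Polynomial

noncomputable section

namespace Vale.Agent.P027M.X

namespace RedP

variable {L : Type*} [Field L] {F : L[X]}

/-- all points are on the curve -/
def On (F : L[X]) (Z : Multiset (L × L)) : Prop := ∀ p ∈ Z, p.2 ^ 2 = F.eval p.1

/-- no two points are conjugate -/
def NP (Z : Multiset (L × L)) : Prop := ∀ μ s, ¬ {(μ, s), (μ, -s)} ≤ Z

/-- the polynomial of the first coordinates -/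
def UU (Z : Multiset (L × L)) : L[X] := (Z.map fun p => X - C p.1).prod

theorem On.neg {Z : Multiset (L × L)} (h : On F Z) : On F (Z.map fun p => (p.1, -p.2)) := by
  intro p hp
  obtain ⟨q, hq, rfl⟩ := Multiset.mem_map.1 hp
  simpa using h q hq

theorem On.add {Z Z' : Multiset (L × L)} (h : On F Z) (h' : On F Z') : On F (Z + Z') :=
  fun p hp => (Multiset.mem_add.1 hp).elim (h p) (h' p)

theorem On.mono {Z Z' : Multiset (L × L)} (h : On F Z) (e : Z' ≤ Z) : On F Z' :=
  fun p hp => h p (Multiset.mem_of_le e hp)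

theorem NP.mono {Z Z' : Multiset (L × L)} (h : NP Z) (e : Z' ≤ Z) : NP Z' :=
  fun μ s c => h μ s (c.trans e)

theorem all (x : PicP F) : ∃ Z, On F Z ∧ sm F Z = x := by
  obtain ⟨y, rfl⟩ := mkP_surj F x
  have one : ∀ p : L × L, ∃ Z, On F Z ∧ sm F Z = mkP F (.of p) := fun p => by
    by_cases hp : p.2 ^ 2 = F.eval p.1
    · exact ⟨{p}, fun q hq => by rw [Multiset.mem_singleton.1 hq]; exact hp, sm_singleton F p⟩
    · exact ⟨0, fun q hq => absurd hq (Multiset.notMem_zero q), (sm_zero F).trans (cl_off hp).symm⟩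
  induction y using FreeAbelianGroup.induction_on with
  | zero => exact ⟨0, fun q hq => absurd hq (Multiset.notMem_zero q), by simp⟩
  | of p => exact one p
  | neg p _ =>
    obtain ⟨Z, h, e⟩ := one p
    exact ⟨_, h.neg, by rw [sm_neg, e, map_neg]⟩
  | add a b ha hb =>
    obtain ⟨Z, h, e⟩ := ha
    obtain ⟨Z', h', e'⟩ := hb
    exact ⟨_, h.add h', by rw [sm_add, e, e', map_add]⟩

theorem UU_cons (p : L × L) (Z : Multiset (L × L)) : UU (p ::ₘ Z) = (X - C p.1) * UU Z := by
  simp [UU]

theorem UU_eval (Z : Multiset (L × L)) (μ : L) : (UU Z).eval μ = 0 ↔ ∃ q ∈ Z, q.1 = μ := by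
  induction Z using Multiset.induction_on with
  | empty => simp [UU]
  | cons p Z ih =>
    rw [UU_cons, eval_mul, mul_eq_zero, ih]
    simp only [eval_sub, eval_X, eval_C, sub_eq_zero, Multiset.mem_cons, exists_eq_or_imp]
    rw [eq_comm]

theorem UU_monic (Z : Multiset (L × L)) : (UU Z).Monic :=
  monic_multiset_prod_of_monic _ _ fun p _ => monic_X_sub_C p.1

theorem UU_deg (Z : Multiset (L × L)) : (UU Z).natDegree = Z.card := by
  induction Z using Multiset.induction_on with
  | empty => simp [UU]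
  | cons p Z ih =>
    rw [UU_cons, (monic_X_sub_C p.1).natDegree_mul (UU_monic Z), ih, natDegree_X_sub_C,
      Multiset.card_cons, add_comm]

theorem interp [CharZero L] (Z : Multiset (L × L)) : On F Z → NP Z →
    ∃ V : L[X], UU Z ∣ V ^ 2 - F ∧ ∀ p ∈ Z, V.eval p.1 = p.2 := by
  induction Z using Multiset.induction_on with
  | empty => exact fun _ _ => ⟨0, by simp [UU], by simp⟩
  | cons p Z ih =>
    intro h np
    obtain ⟨μ, s⟩ := p
    obtain ⟨V, ⟨W, hW⟩, hV⟩ := ih (h.mono (Multiset.le_cons_self _ _))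
      (np.mono (Multiset.le_cons_self _ _))
    have hs : s ^ 2 = F.eval μ := h _ (Multiset.mem_cons_self _ _)
    have ev : V.eval μ ^ 2 - F.eval μ = (UU Z).eval μ * W.eval μ := by
      simpa using congrArg (eval μ) hW
    suffices H : ∃ a : L, V.eval μ + a * (UU Z).eval μ = s ∧
        W.eval μ + 2 * a * V.eval μ + a ^ 2 * (UU Z).eval μ = 0 by
      obtain ⟨a, h1, h2⟩ := H
      have r : (W + 2 * C a * V + C a ^ 2 * UU Z).IsRoot μ := by simpa [IsRoot] using h2
      obtain ⟨T, hT⟩ := dvd_iff_isRoot.2 r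
      refine ⟨V + C a * UU Z, ⟨T, ?_⟩, fun q hq => ?_⟩
      · rw [UU_cons]
        linear_combination hW + UU Z * hT
      · rcases Multiset.mem_cons.1 hq with rfl | hq
        · simpa using h1
        · simp [hV q hq, (UU_eval Z q.1).2 ⟨q, hq, rfl⟩]
    by_cases u : (UU Z).eval μ = 0
    · obtain ⟨⟨μ', s'⟩, hq, rfl⟩ := (UU_eval Z μ).1 u
      have e1 : V.eval μ' = s' := hV _ hq
      have e2 : s' ≠ -s := by
        rintro rfl
        exact np μ' s (Multiset.cons_le_cons _ (Multiset.singleton_le.2 hq))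
      have e3 : s' = s := by
        have e4 : s' ^ 2 = s ^ 2 := (h _ (Multiset.mem_cons_of_mem hq)).trans hs.symm
        exact (sq_eq_sq_iff_eq_or_eq_neg.1 e4).resolve_right e2
      subst e3
      have e4 : s' ≠ 0 := fun c => e2 (by rw [c, neg_zero])
      refine ⟨-W.eval μ' / (2 * s'), ?_, ?_⟩
      · simp only at u
        rw [u, e1, mul_zero, add_zero]
      · simp only at u
        rw [u, e1]
        field_simp
        ring
    · have e : (s - V.eval μ) / (UU Z).eval μ * (UU Z).eval μ = s - V.eval μ :=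
        div_mul_cancel₀ _ u
      refine ⟨(s - V.eval μ) / (UU Z).eval μ, by rw [e]; ring, mul_left_cancel₀ u ?_⟩
      generalize (s - V.eval μ) / (UU Z).eval μ = a at e
      linear_combination hs - ev + (a * (UU Z).eval μ + s + V.eval μ) * e

theorem four [IsAlgClosed L] [CharZero L] (hF : F.natDegree = 7) {Z : Multiset (L × L)}
    (h : On F Z) (np : NP Z) (c : Z.card = 4) : ∃ Z', On F Z' ∧ Z'.card = 3 ∧ sm F Z' = sm F Z := by
  obtain ⟨V₀, d₀, e₀⟩ := interp Z h np
  have m := UU_monic Z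
  have dU : (UU Z).natDegree = 4 := (UU_deg Z).trans c
  obtain ⟨V, T, hT, dV⟩ : ∃ V T : L[X], V + UU Z * T = V₀ ∧ V.natDegree ≤ 3 := by
    refine ⟨V₀ %ₘ UU Z, V₀ /ₘ UU Z, modByMonic_add_div V₀ _, ?_⟩
    have := natDegree_modByMonic_lt V₀ m (fun e => by rw [e] at dU; simp at dU)
    omega
  obtain ⟨W, hW⟩ : UU Z ∣ V ^ 2 - F := by
    obtain ⟨W, hW⟩ := d₀
    refine ⟨W - 2 * V * T - UU Z * T ^ 2, ?_⟩
    rw [← hT] at hW
    linear_combination hW
  have e : ∀ p ∈ Z, V.eval p.1 = p.2 := fun p hp => by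
    rw [← e₀ p hp, ← hT]
    simp [(UU_eval Z p.1).2 ⟨p, hp, rfl⟩]
  have d7 : (V ^ 2 - F).natDegree = 7 := by
    rw [natDegree_sub_eq_right_of_natDegree_lt, hF]
    have := natDegree_pow_le (p := V) (n := 2)
    omega
  have W0 : W ≠ 0 := by
    rintro rfl
    rw [hW] at d7
    simp at d7
  have dW : W.natDegree = 3 := by
    rw [hW, m.natDegree_mul' W0] at d7
    omega
  have sp := (IsAlgClosed.splits W).eq_prod_roots
  have h3 : On F (W.roots.map fun μ => (μ, V.eval μ)) := by
    intro p hp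
    obtain ⟨μ, hμ, rfl⟩ := Multiset.mem_map.1 hp
    have e1 := congrArg (eval μ) hW
    have e2 : W.eval μ = 0 := (mem_roots W0).1 hμ
    simp only [eval_sub, eval_pow, eval_mul, e2, mul_zero] at e1
    exact sub_eq_zero.1 e1
  have z := sm_div (F := F) (Z := Z + W.roots.map fun μ => (μ, V.eval μ)) (A := V) (B := -1)
    (c := W.leadingCoeff) (leadingCoeff_ne_zero.2 W0) isCoprime_one_right.neg_right (by
      rw [Multiset.map_add, Multiset.prod_add, Multiset.map_map]
      have e1 : (Multiset.map ((fun p : L × L => X - C p.1) ∘ fun μ => (μ, V.eval μ))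
        W.roots).prod = (W.roots.map fun μ => X - C μ).prod := rfl
      rw [e1]
      unfold UU at hW
      linear_combination hW + (Z.map fun p => X - C p.1).prod * sp) (by
      intro p hp
      rcases Multiset.mem_add.1 hp with hp | hp
      · simp [e p hp]
      · obtain ⟨μ, -, rfl⟩ := Multiset.mem_map.1 hp
        simp)
  refine ⟨_, h3.neg, ?_, ?_⟩
  · rw [Multiset.card_map, Multiset.card_map, ← dW]
    exact (IsAlgClosed.splits W).natDegree_eq_card_roots.symm
  · rw [sm_add] at z
    rw [sm_neg]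
    exact neg_eq_of_add_eq_zero_left z

theorem split {α : Type*} (Z : Multiset α) (h : 4 ≤ Z.card) : ∃ A B, Z = A + B ∧ A.card = 4 := by
  induction Z using Quotient.inductionOn with
  | h l =>
    refine ⟨(l.take 4 : List _), (l.drop 4 : List _), ?_, ?_⟩
    · rw [Multiset.coe_add, List.take_append_drop]
      rfl
    · rw [Multiset.coe_card, List.length_take]
      exact min_eq_left h

theorem down [IsAlgClosed L] [CharZero L] (hF : F.natDegree = 7) (n : ℕ) :
    ∀ Z : Multiset (L × L), Z.card = n → On F Z → ∃ Z', Red F Z' ∧ sm F Z' = sm F Z := by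
  induction n using Nat.strong_induction_on with
  | _ n ih =>
    intro Z c h
    by_cases np : NP Z
    · by_cases c3 : Z.card ≤ 3
      · exact ⟨Z, ⟨h, c3, np⟩, rfl⟩
      · obtain ⟨A, B, rfl, hA⟩ := split Z (by omega)
        obtain ⟨A', h1, h2, h3⟩ := four hF (h.mono (Multiset.le_add_right _ _))
          (np.mono (Multiset.le_add_right _ _)) hA
        rw [Multiset.card_add] at c
        obtain ⟨Z', h4, h5⟩ := ih _ (by rw [Multiset.card_add]; omega) (A' + B) rfl
          (h1.add (h.mono (Multiset.le_add_left _ _)))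
        exact ⟨Z', h4, by rw [h5, sm_add, sm_add, h3]⟩
    · obtain ⟨μ, s, e⟩ : ∃ μ s, {(μ, s), (μ, -s)} ≤ Z := by
        by_contra e
        exact np fun μ s c => e ⟨μ, s, c⟩
      obtain ⟨B, rfl⟩ := Multiset.le_iff_exists_add.1 e
      rw [Multiset.card_add, Multiset.card_pair] at c
      obtain ⟨Z', h4, h5⟩ := ih _ (by omega) B rfl (h.mono (Multiset.le_add_left _ _))
      refine ⟨Z', h4, ?_⟩
      rw [h5, sm_add, Multiset.insert_eq_cons, sm_cons, sm_singleton, cl_neg, add_neg_cancel,
        zero_add]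

end RedP

theorem red : RED := by
  intro L _ _ _ F hF x
  obtain ⟨Z, h, rfl⟩ := RedP.all x
  exact RedP.down hF _ Z rfl h

end Vale.Agent.P027M.X
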