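import Vale.Agent.P027M.X.Defs

/-! # P027, route M, row X.SP : transfer of relations in the class group along an ultrafilter -/

open Polynomial Filter

noncomputable section

namespace Vale.Agent.P027M.X

namespace SpAux

/-- a family of ring homomorphisms acts on germs -/
def gmf {Y A B : Type} [CommRing A] [CommRing B] (l : Filter Y) (f : Y → (A →+* B)) :
    Germ l A →+* Germ l B where
  toFun a := Germ.map₂ (fun (g : A →+* B) a => g a) (↑f) a
  map_one' := by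
    show (↑(fun y => f y 1) : Germ l B) = ↑(fun _ : Y => (1 : B))
    simp only [map_one]
  map_mul' a b := Germ.inductionOn₂ a b fun a b => by
    show (↑(fun y => f y (a y * b y)) : Germ l B) = ↑(fun y => f y (a y) * f y (b y))
    simp only [map_mul]
  map_zero' := by
    show (↑(fun y => f y 0) : Germ l B) = ↑(fun _ : Y => (0 : B))
    simp only [map_zero]
  map_add' a b := Germ.inductionOn₂ a b fun a b => by
    show (↑(fun y => f y (a y + b y)) : Germ l B) = ↑(fun y => f y (a y) + f y (b y))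
    simp only [map_add]

theorem gmf_coe {Y A B : Type} [CommRing A] [CommRing B] (l : Filter Y) (f : Y → (A →+* B))
    (a : Y → A) : gmf l f ↑a = ↑(fun y => f y (a y)) := rfl

variable {Y Om : Type} [Field Om] {l : Filter Y} (φ : Om →+* Germ l ℂ)

/-- the map on polynomials -/
def pol : Om[X] →+* Germ l ℂ[X] :=
  eval₂RingHom ((gmf l fun _ => C).comp φ) (↑(fun _ : Y => (X : ℂ[X])))

theorem pol_C (z : Om) (a : Y → ℂ) (h : φ z = ↑a) : pol φ (C z) = ↑(fun y => C (a y)) := by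
  simp only [pol, coe_eval₂RingHom, eval₂_C, RingHom.comp_apply, h, gmf_coe]

theorem pol_X : pol φ X = ↑(fun _ : Y => (X : ℂ[X])) := by
  simp only [pol, coe_eval₂RingHom, eval₂_X]

theorem rep {A : Type} (g : Germ l A) : ∃ a : Y → A, g = ↑a :=
  Germ.inductionOn g fun a => ⟨a, rfl⟩

theorem pol_eval (μ : Om) (m : Y → ℂ) (h : φ μ = ↑m) (A : Om[X]) (a : Y → ℂ[X])
    (ha : pol φ A = ↑a) : φ (A.eval μ) = ↑(fun y => (a y).eval (m y)) := by
  have e : (gmf l fun y => evalRingHom (m y)).comp (pol φ) = φ.comp (evalRingHom μ) := by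
    refine Polynomial.ringHom_ext (fun z => ?_) ?_
    · obtain ⟨b, hb⟩ := rep (φ z)
      simp only [RingHom.comp_apply, pol_C φ z b hb, gmf_coe, coe_evalRingHom, eval_C, hb]
    · simp only [RingHom.comp_apply, pol_X, gmf_coe, coe_evalRingHom, eval_X, h]
  have e1 := DFunLike.congr_fun e A
  simp only [RingHom.comp_apply, ha, gmf_coe, coe_evalRingHom] at e1
  exact e1.symm

theorem pol_map [Algebra ℂ Om]
    (hc : ∀ c : ℂ, φ (algebraMap ℂ Om c) = (↑(fun _ : Y => c) : Germ l ℂ)) (F : ℂ[X]) :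
    pol φ (F.map (algebraMap ℂ Om)) = ↑(fun _ : Y => F) := by
  have e : (pol φ).comp (mapRingHom (algebraMap ℂ Om)) =
      (Germ.coeRingHom l).comp (Pi.constRingHom Y ℂ[X]) := by
    refine Polynomial.ringHom_ext (fun z => ?_) ?_
    · simp only [RingHom.comp_apply, coe_mapRingHom, map_C, pol_C φ _ _ (hc z)]
      rfl
    · simp only [RingHom.comp_apply, coe_mapRingHom, map_X, pol_X]
      rfl
  exact DFunLike.congr_fun e F

/-- chosen representatives -/
def ra (z : Om) : Y → ℂ := (rep (φ z)).choose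

theorem ra_spec (z : Om) : φ z = ↑(ra φ z) := (rep (φ z)).choose_spec

/-- the specialised point -/
def pt (y : Y) (p : Om × Om) : ℂ × ℂ := (ra φ p.1 y, ra φ p.2 y)

theorem ra_eq {z : Om} {a : Y → ℂ} (h : φ z = ↑a) : ∀ᶠ y in l, ra φ z y = a y :=
  Germ.coe_eq.1 ((ra_spec φ z).symm.trans h)

theorem ra_neg (z : Om) : ∀ᶠ y in l, ra φ (-z) y = -ra φ z y :=
  ra_eq φ (by rw [map_neg, ra_spec φ z]; rfl)

theorem ev_all {α : Type} (Z : Multiset α) {P : Y → α → Prop}
    (h : ∀ p ∈ Z, ∀ᶠ y in l, P y p) : ∀ᶠ y in l, ∀ p ∈ Z, P y p :=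
  (Filter.eventually_all_finite (Multiset.finite_toSet Z)).2 h

theorem pol_prod (Z : Multiset (Om × Om)) : pol φ (Z.map fun p => X - C p.1).prod =
    ↑(fun y => ((Z.map (pt φ y)).map fun p => X - C p.1).prod) := by
  induction Z using Multiset.induction_on with
  | empty => simp only [Multiset.map_zero, Multiset.prod_zero, map_one]; rfl
  | cons p Z ih =>
    simp only [Multiset.map_cons, Multiset.prod_cons, map_mul, ih, map_sub, pol_X,
      pol_C φ _ _ (ra_spec φ p.1)]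
    rfl

theorem sum_coe (F : ℂ[X]) (Z : Multiset (Om × Om)) :
    (Z.map fun p => (↑(fun y => cl F (pt φ y p)) : Germ l (PicP F))).sum =
      ↑(fun y => sm F (Z.map (pt φ y))) := by
  induction Z using Multiset.induction_on with
  | empty => simp only [Multiset.map_zero, Multiset.sum_zero, sm_zero]; rfl
  | cons p Z ih =>
    simp only [Multiset.map_cons, Multiset.sum_cons, ih, sm_cons]
    rfl

theorem on_iff [Algebra ℂ Om] [l.NeBot]
    (hc : ∀ c : ℂ, φ (algebraMap ℂ Om c) = (↑(fun _ : Y => c) : Germ l ℂ)) (F : ℂ[X])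
    (p : Om × Om) : p.2 ^ 2 = (F.map (algebraMap ℂ Om)).eval p.1 ↔
      ∀ᶠ y in l, (pt φ y p).2 ^ 2 = F.eval (pt φ y p).1 := by
  rw [← φ.injective.eq_iff, pol_eval φ p.1 _ (ra_spec φ _) _ _ (pol_map φ hc F), map_pow,
    ra_spec φ p.2]
  exact Germ.coe_eq (f := ra φ p.2 ^ 2)

theorem ra_ne {𝒰 : Ultrafilter Y} (φ : Om →+* Germ (𝒰 : Filter Y) ℂ) {z w : Om} (h : z ≠ w) :
    ∀ᶠ y in (𝒰 : Filter Y), ra φ z y ≠ ra φ w y := by
  refine Ultrafilter.eventually_not.2 fun e => h (φ.injective ?_)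
  rw [ra_spec φ z, ra_spec φ w]
  exact Germ.coe_eq.2 e

theorem div_rel [Algebra ℂ Om] {𝒰 : Ultrafilter Y} (φ : Om →+* Germ (𝒰 : Filter Y) ℂ)
    (hc : ∀ c : ℂ, φ (algebraMap ℂ Om c) = (↑(fun _ : Y => c) : Germ (𝒰 : Filter Y) ℂ))
    (F : ℂ[X]) (Z : Multiset (Om × Om)) (A B : Om[X]) (c : Om) (h0 : c ≠ 0) (hAB : IsCoprime A B)
    (hN : A ^ 2 - B ^ 2 * F.map (algebraMap ℂ Om) = C c * (Z.map fun p => X - C p.1).prod)
    (hZ : ∀ p ∈ Z, A.eval p.1 + B.eval p.1 * p.2 = 0) :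
    ∀ᶠ y in (𝒰 : Filter Y), sm F (Z.map (pt φ y)) = 0 := by
  obtain ⟨u, v, huv⟩ := hAB
  obtain ⟨a, ha⟩ := rep (pol φ A)
  obtain ⟨b, hb⟩ := rep (pol φ B)
  obtain ⟨u', hu⟩ := rep (pol φ u)
  obtain ⟨v', hv⟩ := rep (pol φ v)
  have e1 : ∀ᶠ y in (𝒰 : Filter Y), u' y * a y + v' y * b y = 1 := by
    have e := congrArg (pol φ) huv
    rw [map_add, map_mul, map_mul, map_one, ha, hb, hu, hv] at e
    exact (Germ.coe_eq (f := u' * a + v' * b) (g := 1)).1 e
  have e2 : ∀ᶠ y in (𝒰 : Filter Y), a y ^ 2 - b y ^ 2 * F =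
      C (ra φ c y) * ((Z.map (pt φ y)).map fun p => X - C p.1).prod := by
    have e := congrArg (pol φ) hN
    rw [map_sub, map_mul, map_mul, map_pow, map_pow, ha, hb, pol_map φ hc, pol_prod,
      pol_C φ _ _ (ra_spec φ c), ← Germ.coe_pow, ← Germ.coe_pow, ← Germ.coe_mul, ← Germ.coe_mul,
      ← Germ.coe_sub] at e
    exact Germ.coe_eq.1 e
  have e3 : ∀ᶠ y in (𝒰 : Filter Y), ra φ c y ≠ 0 := by
    refine Ultrafilter.eventually_not.2 fun e => h0 (φ.injective ?_)
    rw [ra_spec φ c, map_zero]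
    exact (Germ.coe_eq (g := 0)).2 e
  have e4 : ∀ᶠ y in (𝒰 : Filter Y), ∀ p ∈ Z,
      (a y).eval (ra φ p.1 y) + (b y).eval (ra φ p.1 y) * ra φ p.2 y = 0 := by
    refine ev_all Z fun p hp => ?_
    have e := congrArg φ (hZ p hp)
    rw [map_add, map_mul, map_zero, pol_eval φ p.1 _ (ra_spec φ _) _ _ ha,
      pol_eval φ p.1 _ (ra_spec φ _) _ _ hb, ra_spec φ p.2] at e
    exact (Germ.coe_eq (f := (fun y => (a y).eval (ra φ p.1 y)) +
      (fun y => (b y).eval (ra φ p.1 y)) * ra φ p.2) (g := 0)).1 e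
  filter_upwards [e1, e2, e3, e4] with y e1 e2 e3 e4
  refine sm_div e3 ⟨_, _, e1⟩ e2 fun p hp => ?_
  obtain ⟨q, hq, rfl⟩ := Multiset.mem_map.1 hp
  exact e4 q hq

/-- the specialisation of classes -/
def spec [Algebra ℂ Om] {𝒰 : Ultrafilter Y} (φ : Om →+* Germ (𝒰 : Filter Y) ℂ)
    (hc : ∀ c : ℂ, φ (algebraMap ℂ Om c) = (↑(fun _ : Y => c) : Germ (𝒰 : Filter Y) ℂ))
    (F : ℂ[X]) : PicP (F.map (algebraMap ℂ Om)) →+ Germ (𝒰 : Filter Y) (PicP F) :=
  PicP.lift (fun p => ↑(fun y => cl F (pt φ y p)))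
    (fun p hp => (Germ.coe_eq (g := 0)).2 (by
      have e := Ultrafilter.eventually_not.2 (mt (on_iff φ hc F p).2 hp)
      filter_upwards [e] with y e
      exact cl_off e))
    (fun μ s => (Germ.coe_eq (f := (fun y => cl F (pt φ y (μ, s))) +
      fun y => cl F (pt φ y (μ, -s))) (g := 0)).2 (by
      filter_upwards [ra_neg φ s] with y e
      show cl F (ra φ μ y, ra φ s y) + cl F (ra φ μ y, ra φ (-s) y) = 0
      rw [e, cl_neg, add_neg_cancel]))
    (fun Z A B c h0 hAB hN hZ => by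
      rw [sum_coe]
      exact (Germ.coe_eq (g := 0)).2 (div_rel φ hc F Z A B c h0 hAB hN hZ))

theorem spec_cl [Algebra ℂ Om] {𝒰 : Ultrafilter Y} (φ : Om →+* Germ (𝒰 : Filter Y) ℂ)
    (hc : ∀ c : ℂ, φ (algebraMap ℂ Om c) = (↑(fun _ : Y => c) : Germ (𝒰 : Filter Y) ℂ))
    (F : ℂ[X]) (p : Om × Om) : spec φ hc F (cl _ p) = ↑(fun y => cl F (pt φ y p)) :=
  PicP.lift_cl _ _ _ _ p

theorem spec_sm [Algebra ℂ Om] {𝒰 : Ultrafilter Y} (φ : Om →+* Germ (𝒰 : Filter Y) ℂ)
    (hc : ∀ c : ℂ, φ (algebraMap ℂ Om c) = (↑(fun _ : Y => c) : Germ (𝒰 : Filter Y) ℂ))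
    (F : ℂ[X]) (Z : Multiset (Om × Om)) :
    spec φ hc F (sm _ Z) = ↑(fun y => sm F (Z.map (pt φ y))) := by
  rw [← sum_coe, sm, map_multiset_sum, Multiset.map_map]
  exact congrArg _ (Multiset.map_congr rfl fun p _ => spec_cl φ hc F p)

theorem pair_le {α β : Type} (g : α → β) (Z : Multiset α) (u v : β)
    (h : ({u, v} : Multiset β) ≤ Z.map g) :
    ∃ p q, ({p, q} : Multiset α) ≤ Z ∧ g p = u ∧ g q = v := by
  obtain ⟨p, hp, rfl⟩ := Multiset.mem_map.1 (Multiset.mem_of_le h (Multiset.mem_cons_self u _))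
  obtain ⟨Z', rfl⟩ := Multiset.exists_cons_of_mem hp
  rw [Multiset.map_cons, Multiset.insert_eq_cons, Multiset.cons_le_cons_iff,
    Multiset.singleton_le] at h
  obtain ⟨q, hq, rfl⟩ := Multiset.mem_map.1 h
  refine ⟨p, q, ?_, rfl, rfl⟩
  rw [Multiset.insert_eq_cons, Multiset.cons_le_cons_iff, Multiset.singleton_le]
  exact hq

theorem red_pt [Algebra ℂ Om] {𝒰 : Ultrafilter Y} (φ : Om →+* Germ (𝒰 : Filter Y) ℂ)
    (hc : ∀ c : ℂ, φ (algebraMap ℂ Om c) = (↑(fun _ : Y => c) : Germ (𝒰 : Filter Y) ℂ))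
    (F : ℂ[X]) (Z : Multiset (Om × Om)) (h : Red (F.map (algebraMap ℂ Om)) Z) :
    ∀ᶠ y in (𝒰 : Filter Y), Red F (Z.map (pt φ y)) := by
  have e1 := ev_all Z fun p hp => (on_iff φ hc F p).1 (h.on p hp)
  have e2 : ∀ᶠ y in (𝒰 : Filter Y), ∀ p ∈ Z, ∀ q ∈ Z, ({p, q} : Multiset _) ≤ Z →
      ¬ (ra φ q.1 y = ra φ p.1 y ∧ ra φ q.2 y = -ra φ p.2 y) := by
    refine ev_all Z fun p _ => ev_all Z fun q _ => ?_
    by_cases hpq : ({p, q} : Multiset _) ≤ Z
    · by_cases h1 : q.1 = p.1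
      · have h2 : q.2 ≠ -p.2 := fun h2 => h.nopair p.1 p.2 (by
          have e : (p.1, -p.2) = q := Prod.ext h1.symm h2.symm
          rw [e]; exact hpq)
        filter_upwards [ra_ne φ h2, ra_neg φ p.2] with y e e' _ e''
        exact e (e''.2.trans e'.symm)
      · filter_upwards [ra_ne φ h1] with y e _ e''
        exact e e''.1
    · exact Eventually.of_forall fun y e => absurd e hpq
  filter_upwards [e1, e2] with y e1 e2
  refine ⟨fun p hp => ?_, by rw [Multiset.card_map]; exact h.card, fun μ s hle => ?_⟩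
  · obtain ⟨q, hq, rfl⟩ := Multiset.mem_map.1 hp
    exact e1 q hq
  · obtain ⟨p, q, hpq, hp, hq⟩ := pair_le _ Z _ _ hle
    have hp1 : ra φ p.1 y = μ := congrArg Prod.fst hp
    have hp2 : ra φ p.2 y = s := congrArg Prod.snd hp
    have hq1 : ra φ q.1 y = μ := congrArg Prod.fst hq
    have hq2 : ra φ q.2 y = -s := congrArg Prod.snd hq
    exact e2 p (Multiset.mem_of_le hpq (by simp)) q (Multiset.mem_of_le hpq (by simp)) hpq
      ⟨hq1.trans hp1.symm, by rw [hq2, hp2]⟩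

end SpAux

open SpAux in
theorem sp : RED → UNQ → SP := by
  intro red unq Y 𝒰 Om _ _ _ φ F hc hd hs ι _ p n a b hab
  have hinj := (algebraMap ℂ Om).injective
  have : CharZero Om := charZero_of_injective_algebraMap hinj
  have key : ∀ x, spec φ hc F x = 0 → x = 0 := by
    intro x hx
    obtain ⟨Z, hZ, rfl⟩ := red Om _ (by rw [natDegree_map_eq_of_injective hinj, hd]) x
    rw [spec_sm] at hx
    have e := (Germ.coe_eq (g := 0)).1 hx
    obtain ⟨y, e1, e2⟩ := (e.and (red_pt φ hc F Z hZ)).exists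
    have e3 := unq ℂ F hd hs _ 0 e2 ⟨by simp, by simp, by simp⟩ (e1.trans (sm_zero F).symm)
    rw [Multiset.map_eq_zero.1 e3, sm_zero]
  have e : spec φ hc F (∑ i, n i • cl (F.map (algebraMap ℂ Om)) (p i)) =
      ↑(fun y => ∑ i, n i • cl F (a i y, b i y)) := by
    have e1 : ∀ i, spec φ hc F (cl _ (p i)) =
        Germ.coeAddHom (𝒰 : Filter Y) fun y => cl F (a i y, b i y) := by
      intro i
      rw [spec_cl]
      refine Germ.coe_eq.2 ?_
      filter_upwards [ra_eq φ (hab i).1, ra_eq φ (hab i).2] with y e1 e2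
      rw [pt, e1, e2]
    simp only [map_sum, map_zsmul, e1]
    simp only [← map_zsmul, ← map_sum]
    refine congrArg (Germ.coeAddHom (𝒰 : Filter Y)) (funext fun y => ?_)
    simp only [Finset.sum_apply, Pi.smul_apply]
  constructor
  · intro h
    rw [h, map_zero] at e
    exact (Germ.coe_eq (g := 0)).1 e.symm
  · intro h
    exact key _ (e.trans ((Germ.coe_eq (g := 0)).2 h))

end Vale.Agent.P027M.X
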