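import Vale.Agent.P027M.X.Dvs
import Vale.Agent.P027M.X.ExpDefs
import Vale.Agent.P025.R2.H816.Pic

/-! # P027, route M, block X : `PicP F` is the degree `0` class group; uniqueness of reduced
divisors -/

set_option linter.all false

open Polynomial Vale.Agent.P019P P025H492 P025H816 IntermediateField

noncomputable section

namespace Vale.Agent.P027M.X

open B B.PtsAux

section
variable {k L : Type*} [Field k] [Field L] [Algebra k L] [CFF k L] {F : k[X]} {m w : L}

theorem mk_dv {z : L} (hz : z ≠ 0) : (QuotientAddGroup.mk (dv k z) : Pc k L) = 0 :=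
  (QuotientAddGroup.eq_zero_iff _).2 ⟨z, hz, rfl⟩

theorem mk_dvs (h : Hyp F m w) (Z : Multiset (k × k)) :
    (Z.map fun p => (QuotientAddGroup.mk (dpt h p) : Pc k L)).sum =
      QuotientAddGroup.mk (dvs h Z) := by
  induction Z using Multiset.induction_on with
  | empty => simp
  | cons p Z ih => rw [Multiset.map_cons, Multiset.sum_cons, ih, dvs_cons, QuotientAddGroup.mk_add]

/-- the comparison map -/
def toPc (h : Hyp F m w) : PicP F →+ Pc k L :=
  PicP.lift (fun p => QuotientAddGroup.mk (dpt h p))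
    (fun p hp => by rw [dpt_off h hp]; rfl)
    (fun μ s => by
      by_cases hs : s ^ 2 = F.eval μ
      · have e := mk_dv (k := k) (ne0 h (X_sub_C_ne_zero μ))
        rw [dv_lin h hs, ← mk_dvs] at e
        simpa using e
      · rw [dpt_off h (p := (μ, s)) hs, dpt_off h (p := (μ, -s)) (by simpa using hs)]
        exact add_zero _)
    (fun Z A B c hc hAB hN hZ => by
      obtain ⟨h1, h2⟩ := dv_ab h hc hAB hN hZ
      rw [mk_dvs, ← h2, mk_dv h1])

theorem toPc_cl (h : Hyp F m w) (p : k × k) :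
    toPc h (cl F p) = QuotientAddGroup.mk (dpt h p) := PicP.lift_cl _ _ _ _ p

theorem toPc_sm (h : Hyp F m w) (Z : Multiset (k × k)) :
    toPc h (sm F Z) = QuotientAddGroup.mk (dvs h Z) := by
  rw [sm, map_multiset_sum, Multiset.map_map, ← mk_dvs]
  exact congrArg _ (Multiset.map_congr rfl fun p _ => toPc_cl h p)

/-- conjugate divisor -/
def cj (Z : Multiset (k × k)) : Multiset (k × k) := Z.map fun p => (p.1, -p.2)

theorem count_cj [DecidableEq k] (Z : Multiset (k × k)) (μ s : k) :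
    (cj Z).count (μ, s) = Z.count (μ, -s) := by
  have hi : Function.Injective fun p : k × k => (p.1, -p.2) := fun p q e => by
    simpa [Prod.ext_iff] using e
  have := Multiset.count_map_eq_count' _ Z hi (μ, -s)
  simpa [cj] using this

theorem dv_prod (h : Hyp F m w) {Z : Multiset (k × k)} (hZ : ∀ p ∈ Z, p.2 ^ 2 = F.eval p.1) :
    dv k (aeval m (Z.map fun p => X - C p.1).prod) = dvs h (Z + cj Z) := by
  induction Z using Multiset.induction_on with
  | empty => simpa [cj] using dv_const (k := k) (F := L) 1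
  | cons p Z ih =>
    rw [Multiset.map_cons, Multiset.prod_cons, map_mul, dv_mul (ne0 h (X_sub_C_ne_zero _))
      (ne0 h (monic_multiset_prod_of_monic _ _ fun p _ => monic_X_sub_C p.1).ne_zero),
      ih fun q hq => hZ q (Multiset.mem_cons_of_mem hq),
      dv_lin h (hZ p (Multiset.mem_cons_self _ _))]
    simp only [cj, Multiset.map_cons, dvs_add, dvs_cons, Multiset.insert_eq_cons,
      ← Multiset.cons_zero, dvs_zero]
    abel

theorem dv_poly (h : Hyp F m w) {a : k[X]} (ha : a ≠ 0) :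
    ∃ Z : Multiset (k × k), (∀ p ∈ Z, p.2 ^ 2 = F.eval p.1) ∧
      dv k (aeval m a) = dvs h (Z + cj Z) := by
  have := CFF.ac (k := k) (F := L)
  choose r hr using fun μ : k => IsAlgClosed.exists_pow_nat_eq (F.eval μ) two_pos
  have hZ : ∀ p ∈ a.roots.map fun μ => (μ, r μ), p.2 ^ 2 = F.eval p.1 := fun p hp => by
    obtain ⟨μ, -, rfl⟩ := Multiset.mem_map.1 hp
    exact hr μ
  refine ⟨_, hZ, ?_⟩
  rw [← dv_prod h hZ, Multiset.map_map]
  conv_lhs => rw [← C_leadingCoeff_mul_prod_multiset_X_sub_C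
    (IsAlgClosed.card_roots_eq_natDegree (p := a))]
  rw [map_mul, dv_mul (ne0 h (C_ne_zero.2 (leadingCoeff_ne_zero.2 ha)))
      (ne0 h (monic_multisetProd_X_sub_C _).ne_zero), aeval_C, dv_const, zero_add]
  rfl

theorem on_cj {Z : Multiset (k × k)} (hZ : ∀ p ∈ Z, p.2 ^ 2 = F.eval p.1) :
    ∀ p ∈ cj Z, p.2 ^ 2 = F.eval p.1 := fun p hp => by
  obtain ⟨q, hq, rfl⟩ := Multiset.mem_map.1 hp
  simpa using hZ q hq

theorem on_add {Z Z' : Multiset (k × k)} (hZ : ∀ p ∈ Z, p.2 ^ 2 = F.eval p.1)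
    (hZ' : ∀ p ∈ Z', p.2 ^ 2 = F.eval p.1) : ∀ p ∈ Z + Z', p.2 ^ 2 = F.eval p.1 := fun p hp =>
  (Multiset.mem_add.1 hp).elim (hZ p) (hZ' p)

theorem dvs_inj (h : Hyp F m w) {Z Z' : Multiset (k × k)} (hZ : ∀ p ∈ Z, p.2 ^ 2 = F.eval p.1)
    (hZ' : ∀ p ∈ Z', p.2 ^ 2 = F.eval p.1) (e : dvs h Z = dvs h Z') : Z = Z' := by
  classical
  ext p
  by_cases hp : p.2 ^ 2 = F.eval p.1
  · obtain ⟨h1, h2, h3⟩ := plc_spec h hp
    have := DFunLike.congr_fun e (plc h p)
    rw [dvs_aff h h1, dvs_aff h h1, h2, h3] at this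
    exact_mod_cast this
  · rw [Multiset.count_eq_zero_of_notMem fun q => hp (hZ p q),
      Multiset.count_eq_zero_of_notMem fun q => hp (hZ' p q)]

theorem ord_oo (h : Hyp F m w) (a : k[X]) {b : k[X]} (hb : b ≠ 0) :
    ord (oo h) (aeval m a + aeval m b * w) ≤ -7 := by
  have h0 : ord (oo h) m < 0 := not_le.1 (oo_not h)
  have h1 := mul_ne_zero (ne0 h hb) (w0 h)
  have h2 : ord (oo h) (aeval m b * w) = -2 * b.natDegree - 7 := by
    rw [ord_mul _ (ne0 h hb) (w0 h), ord_pole h0 hb, oo_m, oo_w]; ring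
  by_cases ha : a = 0
  · rw [ha, map_zero, zero_add, h2]; omega
  have h3 : ord (oo h) (aeval m a) = -2 * a.natDegree := by rw [ord_pole h0 ha, oo_m]; ring
  by_cases h4 : a.natDegree ≤ b.natDegree + 3
  · rw [add_comm, (ord_add_of_lt h1 (mem_Mge.2 (Or.inr (by omega)))).2]; omega
  · rw [(ord_add_of_lt (ne0 h ha) (mem_Mge.2 (Or.inr (by omega)))).2]; omega

/-- an effective divisor of degree `≤ 6` whose class is `0` is a sum of conjugate pairs -/
theorem pairs_of (h : Hyp F m w) {Z : Multiset (k × k)} (hZ : ∀ p ∈ Z, p.2 ^ 2 = F.eval p.1)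
    (hc : Z.card ≤ 6) (h0 : sm F Z = 0) : ∃ Y, Z = Y + cj Y := by
  classical
  have := CFF.ac (k := k) (F := L)
  have h1 := toPc_sm h Z
  rw [h0, map_zero, eq_comm, QuotientAddGroup.eq_zero_iff] at h1
  obtain ⟨z, hz, e⟩ := h1
  obtain ⟨a, b, rfl⟩ := h.pts.reg z fun P hP => by
    rw [← dv_apply, ← e, dvs_aff h hP]; omega
  have hb : b = 0 := by
    by_contra hb
    have h2 := ord_oo h a hb
    rw [← dv_apply, ← e, dvs_oo h hZ] at h2
    omega
  subst hb
  rw [map_zero, zero_mul, add_zero] at hz e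
  have ha : a ≠ 0 := fun h => hz (by rw [h, map_zero])
  obtain ⟨Y, h2, h3⟩ := dv_poly h ha
  exact ⟨Y, dvs_inj h hZ (on_add h2 (on_cj h2)) (e.trans h3)⟩

theorem Red.count {Z : Multiset (k × k)} [DecidableEq k] (h : Red F Z) (μ s : k) :
    (s = -s → Z.count (μ, s) ≤ 1) ∧ (s ≠ -s → Z.count (μ, s) = 0 ∨ Z.count (μ, -s) = 0) := by
  refine ⟨fun e => not_lt.1 fun h1 => h.nopair μ s ?_, fun e => ?_⟩
  · rw [← e]
    exact Multiset.le_count_iff_replicate_le.1 (show 2 ≤ Z.count (μ, s) from h1)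
  · by_contra h1
    rw [not_or, Multiset.count_eq_zero, Multiset.count_eq_zero, not_not, not_not] at h1
    refine h.nopair μ s ((Multiset.le_iff_subset ?_).2 ?_)
    · simpa using e
    · intro p hp
      rcases (by simpa using hp : p = (μ, s) ∨ p = (μ, -s)) with rfl | rfl
      exacts [h1.1, h1.2]

theorem unq_of (h : Hyp F m w) {Z Z' : Multiset (k × k)} (hZ : Red F Z) (hZ' : Red F Z')
    (e : sm F Z = sm F Z') : Z = Z' := by
  classical
  obtain ⟨Y, hY⟩ := pairs_of h (on_add hZ.on (on_cj hZ'.on)) (by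
    have := hZ.card
    have := hZ'.card
    rw [Multiset.card_add, cj, Multiset.card_map]
    omega) (by rw [sm_add, cj, sm_neg, e, add_neg_cancel])
  ext ⟨μ, s⟩
  have h1 := congrArg (Multiset.count (μ, s)) hY
  have h2 := congrArg (Multiset.count (μ, -s)) hY
  simp only [Multiset.count_add, count_cj, neg_neg] at h1 h2
  obtain ⟨a1, a2⟩ := hZ.count μ s
  obtain ⟨b1, b2⟩ := hZ'.count μ s
  by_cases hs : s = -s
  · have a3 := a1 hs
    have b3 := b1 hs
    rw [← hs] at h1
    omega
  · have a3 := a2 hs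
    have b3 := b2 hs
    omega

end

section field
variable {k : Type*} [Field k]

theorem irr (F : k[X]) (hd : F.natDegree = 7) :
    Irreducible (X ^ 2 - C (algebraMap k[X] (RatFunc k) F) : (RatFunc k)[X]) := by
  refine X_pow_sub_C_irreducible_of_prime Nat.prime_two fun b e => ?_
  have hF : F ≠ 0 := fun e => by simp [e] at hd
  have hb : b ≠ 0 := fun e' => hF (RatFunc.algebraMap_injective k (by rw [← e, e']; simp))
  have := congrArg RatFunc.intDegree e
  rw [sq, RatFunc.intDegree_mul hb hb, RatFunc.intDegree_polynomial, hd] at this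
  omega

/-- the function field of `w ^ 2 = F m` exists -/
theorem exists_hyp {k : Type} [Field k] [IsAlgClosed k] (F : k[X]) (h2 : (2 : k) ≠ 0)
    (hd : F.natDegree = 7) (hs : F.Separable) : ∃ (L : Type) (_ : Field L) (_ : Algebra k L)
    (_ : CFF k L) (m w : L), Hyp F m w := by
  classical
  set G : (RatFunc k)[X] := X ^ 2 - C (algebraMap k[X] (RatFunc k) F) with hG
  have : Fact (Irreducible G) := ⟨irr F hd⟩
  have hm : G.Monic := monic_X_pow_sub_C _ two_ne_zero
  set m : AdjoinRoot G := algebraMap (RatFunc k) (AdjoinRoot G) RatFunc.X with hm'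
  have ev : ∀ p : k[X], aeval m p =
      algebraMap (RatFunc k) (AdjoinRoot G) (algebraMap k[X] (RatFunc k) p) := fun p => by
    rw [hm', aeval_algebraMap_apply, RatFunc.aeval_X_left_eq_algebraMap]
  have H : Hyp F m (AdjoinRoot.root G) := by
    refine ⟨h2, hd, hs, transcendental_iff.2 fun p hp => ?_, ?_, fun z => ?_⟩
    · rw [ev, map_eq_zero] at hp
      exact RatFunc.algebraMap_injective k (by rw [hp, map_zero])
    · have := AdjoinRoot.aeval_eq (f := G) G
      rw [AdjoinRoot.mk_self, hG, map_sub, map_pow, aeval_X, aeval_C, sub_eq_zero] at this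
      rw [ev]
      exact this
    · obtain ⟨p, rfl⟩ := AdjoinRoot.mk_surjective z
      have h1 : (p %ₘ G).degree ≤ 1 := by
        have := degree_modByMonic_lt p hm
        rw [hG, degree_X_pow_sub_C two_pos] at this
        exact Order.le_of_lt_succ this
      have h3 : AdjoinRoot.mk G p = algebraMap _ _ ((p %ₘ G).coeff 0) +
          algebraMap _ _ ((p %ₘ G).coeff 1) * AdjoinRoot.root G := by
        rw [← AdjoinRoot.mk_leftInverse hm (AdjoinRoot.mk G p), AdjoinRoot.modByMonicHom_mk,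
          ← AdjoinRoot.aeval_eq]
        conv_lhs => rw [eq_X_add_C_of_degree_le_one h1]
        simp [add_comm]
      obtain ⟨a, c, hc, ea⟩ := IsFractionRing.div_surjective (A := k[X]) ((p %ₘ G).coeff 0)
      obtain ⟨b, d, hd', eb⟩ := IsFractionRing.div_surjective (A := k[X]) ((p %ₘ G).coeff 1)
      have c0 := nonZeroDivisors.ne_zero hc
      have d0 := nonZeroDivisors.ne_zero hd'
      refine ⟨a * d, b * c, c * d, mul_ne_zero c0 d0, ?_⟩
      have c1 : algebraMap (RatFunc k) (AdjoinRoot G) (algebraMap k[X] _ c) ≠ 0 := by simpa using c0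
      have d1 : algebraMap (RatFunc k) (AdjoinRoot G) (algebraMap k[X] _ d) ≠ 0 := by simpa using d0
      rw [h3, ← ea, ← eb]
      simp only [ev, map_mul, map_div₀]
      field_simp
  refine ⟨AdjoinRoot G, inferInstance, inferInstance, ⟨inferInstance, m, H.tr, ?_⟩, m, _, H⟩
  have h1 : ∀ p : k[X], aeval m p ∈ k⟮m⟯ := fun p =>
    algebra_adjoin_le_adjoin k _ (aeval_mem_adjoin_singleton k m)
  refine Module.finite_def.2 (Submodule.fg_def.2 ⟨Set.range ![1, AdjoinRoot.root G],
    Set.finite_range _, eq_top_iff.2 fun z _ => ?_⟩)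
  obtain ⟨a, b, c, h0, e⟩ := H.top z
  rw [Submodule.mem_span_range_iff_exists_fun]
  refine ⟨![⟨aeval m a / aeval m c, div_mem (h1 a) (h1 c)⟩,
    ⟨aeval m b / aeval m c, div_mem (h1 b) (h1 c)⟩], ?_⟩
  have := ne0 H h0
  rw [Fin.sum_univ_two]
  show aeval m a / aeval m c * 1 + aeval m b / aeval m c * AdjoinRoot.root G = z
  field_simp
  exact e.symm

end field

/-- [X.UNQ] -/
theorem unq : UNQ := by
  intro k _ _ _ F hd hs Z Z' hZ hZ' e
  obtain ⟨L, _, _, _, m, w, h⟩ := exists_hyp F two_ne_zero hd hs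
  exact unq_of h hZ hZ' e

theorem red_fin {k : Type*} [Field k] {F : k[X]} {mu s : Fin 3 → k} (hi : Function.Injective mu)
    (hs : ∀ i, s i ^ 2 = F.eval (mu i)) :
    Red F (Finset.univ.val.map fun i => (mu i, s i)) := by
  refine ⟨fun p hp => ?_, by simp, fun μ t h => ?_⟩
  · obtain ⟨i, -, rfl⟩ := Multiset.mem_map.1 hp
    exact hs i
  · have h1 := Multiset.map_le_map (f := Prod.fst) h
    rw [Multiset.map_map] at h1
    simpa using Multiset.nodup_of_le h1 (Finset.univ.nodup.map hi)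

/-- the class group satisfies the interface of the exponential map -/
theorem cls {F : ℂ[X]} (hd : F.natDegree = 7) (hs : F.Separable) :
    Cls F fun m w => cl F (m, w) := by
  refine ⟨hd, fun m w _ => cl_neg F m w, fun ι _ A B c mu s hc hi h1 hN hv => ?_,
    fun mu s mu' s' hi hi' h1 h1' e k => ?_⟩
  · rw [← sm_fin F fun i => (mu i, s i)]
    refine sm_div hc ?_ (by rw [hN, Multiset.map_map]; rfl) fun p hp => ?_
    · refine (isCoprime_iff_aeval_ne_zero_of_isAlgClosed ℂ ℂ A B).2 fun a => ?_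
      by_contra h2
      simp only [not_or, not_not, coe_aeval_eq_eval] at h2
      have h3 : (X - C a) * (X - C a) ∣ C c * ∏ i, (X - C (mu i)) := by
        rw [← hN, ← sq]
        exact dvd_sub (pow_dvd_pow_of_dvd (dvd_iff_isRoot.2 h2.1) 2)
          ((pow_dvd_pow_of_dvd (dvd_iff_isRoot.2 h2.2) 2).mul_right _)
      rw [(isUnit_C.2 hc.isUnit).dvd_mul_left] at h3
      exact not_isUnit_X_sub_C a ((separable_prod_X_sub_C_iff.2 hi).squarefree _ h3)
    · obtain ⟨i, -, rfl⟩ := Multiset.mem_map.1 hp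
      exact hv i
  · rw [← sm_fin F fun i => (mu i, s i), ← sm_fin F fun i => (mu' i, s' i)] at e
    have h2 := unq ℂ F hd hs _ _ (red_fin hi fun i => (h1 i).2) (red_fin hi' fun i => (h1' i).2) e
    have h3 : (mu k, s k) ∈ Finset.univ.val.map fun i => (mu' i, s' i) :=
      h2 ▸ Multiset.mem_map_of_mem _ (Finset.mem_univ k)
    obtain ⟨l, -, h4⟩ := Multiset.mem_map.1 h3
    exact ⟨l, (congrArg Prod.fst h4).symm⟩

end Vale.Agent.P027M.X
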