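import Vale.Agent.P027M.X.Der
import Vale.Agent.P027M.X.Red
import Vale.Agent.P027M.X.Unq
import Vale.Agent.P027M.X.Sp

/-! # P027, route M, block MON : classes killed by a derivation are constant -/

open Polynomial

noncomputable section

namespace Vale.Agent.P027M.X.Mo

section
variable {L L' : Type} [Field L] [Field L']

/-- the infinitesimal Abel-Jacobi maps -/
def IsAJ (F : L[X]) (d : L → L) (a : Fin 3 → PicP F →+ L) : Prop :=
  ∀ (j : Fin 3) μ s, s ^ 2 = F.eval μ → a j (cl F (μ, s)) = μ ^ (j : ℕ) * d μ / s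

theorem exists_aj [IsAlgClosed L] [CharZero L] {F : L[X]} (d : Derivation ℤ L L)
    (hdeg : F.natDegree = 7) (hsep : F.Separable) (hd : ∀ i, d (F.coeff i) = 0) :
    ∃ a, IsAJ F d a := by
  choose a ha using fun j : Fin 3 => der0 L F d hdeg hsep hd j j.2
  exact ⟨a, ha⟩

theorem on_map (g : L →+* L') {F : L[X]} {F' : L'[X]} (hF : F.map g = F') {μ s : L}
    (h : s ^ 2 = F.eval μ) : g s ^ 2 = F'.eval (g μ) := by
  rw [← map_pow, h, ← hF, eval_map_apply]

/-- naturality -/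
theorem aj_nat (g : L →+* L') {F : L[X]} {F' : L'[X]} (hF : F.map g = F') {d : L → L}
    {d' : L' → L'} {a : Fin 3 → PicP F →+ L} {a' : Fin 3 → PicP F' →+ L'} (ha : IsAJ F d a)
    (ha' : IsAJ F' d' a') (h : ∀ y, d' (g y) = g (d y)) (j : Fin 3) (x : PicP F) :
    a' j (pmap g hF x) = g (a j x) := by
  refine DFunLike.congr_fun (f := (a' j).comp (pmap g hF))
    (g := (g : L →+ L').comp (a j)) (PicP.hom_ext fun p hp => ?_) x
  show a' j (pmap g hF (cl F p)) = g (a j (cl F (p.1, p.2)))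
  rw [pmap_cl, ha' j _ _ (on_map g hF hp), ha j _ _ hp, h, map_div₀, map_mul, map_pow]

theorem aj_const (g : L →+* L') {F : L[X]} {F' : L'[X]} (hF : F.map g = F')
    {d' : L' → L'} {a' : Fin 3 → PicP F' →+ L'} (ha' : IsAJ F' d' a') (h : ∀ y, d' (g y) = 0)
    (j : Fin 3) (x : PicP F) : a' j (pmap g hF x) = 0 := by
  have := aj_nat g hF (d := fun _ => 0) (a := fun _ => 0) (fun j μ s _ => by simp) ha'
    (fun y => by rw [h, map_zero]) j x
  simpa using this

theorem aj_iota {F : L[X]} {i : L} (hi : i ^ 2 = -1) (hF : F.comp (-X) = -F) {d : L →+ L}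
    {a : Fin 3 → PicP F →+ L} (ha : IsAJ F d a) (j : Fin 3) (x : PicP F) :
    a j (piota i hi hF x) = (-1) ^ (j : ℕ) * i * a j x := by
  refine DFunLike.congr_fun (f := (a j).comp (piota i hi hF))
    (g := (AddMonoidHom.mulLeft ((-1) ^ (j : ℕ) * i)).comp (a j)) (PicP.hom_ext fun p hp => ?_) x
  show a j (piota i hi hF (cl F p)) = (-1) ^ (j : ℕ) * i * a j (cl F (p.1, p.2))
  have hev : F.eval (-p.1) = -F.eval p.1 := by
    simpa [eval_comp] using congrArg (eval p.1) hF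
  have i0 : i ≠ 0 := by
    rintro rfl
    simp at hi
  rw [piota_cl, ha j _ _ (by rw [hev, mul_pow, hi, hp]; ring), ha j _ _ hp, map_neg, neg_pow p.1]
  by_cases h : p.2 = 0
  · simp [h]
  · field_simp
    linear_combination (-(p.1 ^ (j : ℕ) * d p.1)) * hi

theorem aj_sm {F : L[X]} {d : L → L} {a : Fin 3 → PicP F →+ L} (ha : IsAJ F d a)
    {Z : Multiset (L × L)} (hZ : ∀ p ∈ Z, p.2 ^ 2 = F.eval p.1) (j : Fin 3) :
    a j (sm F Z) = (Z.map fun p => p.1 ^ (j : ℕ) * d p.1 / p.2).sum := by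
  rw [sm, map_multiset_sum, Multiset.map_map]
  exact congrArg _ (Multiset.map_congr rfl fun p hp => ha j _ _ (hZ p hp))

/-- Vandermonde -/
theorem vdm [CharZero L] {F : L[X]} {Z : Multiset (L × L)} (hZ : Red F Z) {d : L → L}
    (h : ∀ j : Fin 3, (Z.map fun p => p.1 ^ (j : ℕ) * d p.1 / p.2).sum = 0) {p : L × L}
    (hp : p ∈ Z) (h0 : p.2 ≠ 0) : d p.1 = 0 := by
  classical
  have key : ∀ Q : L[X], Q.natDegree < 3 →
      (Z.map fun p => Q.eval p.1 * (d p.1 / p.2)).sum = 0 := by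
    intro Q hQ
    have e : ∀ p : L × L, Q.eval p.1 * (d p.1 / p.2) =
        Q.coeff 0 * (p.1 ^ 0 * d p.1 / p.2) + Q.coeff 1 * (p.1 ^ 1 * d p.1 / p.2) +
          Q.coeff 2 * (p.1 ^ 2 * d p.1 / p.2) := fun p => by
      rw [eval_eq_sum_range' hQ]
      simp only [Finset.sum_range_succ, Finset.sum_range_zero]
      ring
    have h0 := h 0
    have h1 := h 1
    have h2 := h 2
    simp only [Fin.val_zero, Fin.val_one, Fin.val_two] at h0 h1 h2
    simp only [e, Multiset.sum_map_add, Multiset.sum_map_mul_left, h0, h1, h2]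
    simp
  let Z1 := Z.filter fun q => q.1 = p.1
  let Z2 := Z.filter fun q => ¬ q.1 = p.1
  have hZ12 : Z1 + Z2 = Z := Multiset.filter_add_not _ _
  have p1 : p ∈ Z1 := Multiset.mem_filter.2 ⟨hp, rfl⟩
  have c1 : 0 < Z1.card := Multiset.card_pos_iff_exists_mem.2 ⟨p, p1⟩
  have c2 : Z2.card < 3 := by
    have := hZ.card
    rw [← hZ12, Multiset.card_add] at this
    omega
  have e := key (RedP.UU Z2) (by rw [RedP.UU_deg]; exact c2)
  have a1 : ∀ q ∈ Z1, q = p := fun q hq => by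
    obtain ⟨hq, e1⟩ := Multiset.mem_filter.1 hq
    have e2 : q.2 ^ 2 = p.2 ^ 2 := by rw [hZ.on q hq, hZ.on p hp, e1]
    rcases sq_eq_sq_iff_eq_or_eq_neg.1 e2 with e3 | e3
    · exact Prod.ext e1 e3
    · by_contra hne
      refine hZ.nopair p.1 p.2 ?_
      have e4 : (p.1, -p.2) = q := Prod.ext e1.symm e3.symm
      rw [e4, Multiset.insert_eq_cons]
      exact (Multiset.cons_le_of_notMem (by simpa using Ne.symm hne)).2
        ⟨hp, Multiset.singleton_le.2 hq⟩
  rw [← hZ12, Multiset.map_add, Multiset.sum_add,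
    Multiset.sum_eq_zero (s := Z2.map _) (fun y hy => by
      obtain ⟨q, hq, rfl⟩ := Multiset.mem_map.1 hy
      rw [(RedP.UU_eval Z2 q.1).2 ⟨q, hq, rfl⟩, zero_mul]), add_zero,
    Multiset.map_congr rfl (g := fun _ => (RedP.UU Z2).eval p.1 * (d p.1 / p.2))
      (fun q hq => by rw [a1 q hq]), Multiset.map_const', Multiset.sum_replicate,
    nsmul_eq_mul] at e
  have u0 : (RedP.UU Z2).eval p.1 ≠ 0 := fun h => by
    obtain ⟨q, hq, e1⟩ := (RedP.UU_eval Z2 p.1).1 h
    exact (Multiset.mem_filter.1 hq).2 e1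
  have n0 : (Z1.card : L) ≠ 0 := Nat.cast_ne_zero.2 c1.ne'
  simpa [n0, u0, h0] using e

/-- **a class killed by the derivation is constant** -/
theorem const [IsAlgClosed L'] [CharZero L'] (ι : L →+* L') {F : L[X]} {F' : L'[X]}
    (hF : F.map ι = F') (hdeg : F'.natDegree = 7) (hsep : F'.Separable) {d : Derivation ℤ L' L'}
    (hd : ∀ c, d (ι c) = 0) (hk : ∀ y, d y = 0 → ∃ c, ι c = y) {a : Fin 3 → PicP F' →+ L'}
    (ha : IsAJ F' d a) {ξ : PicP F'} (h : ∀ j, a j ξ = 0) : ∃ c, pmap ι hF c = ξ := by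
  obtain ⟨Z, hZ, rfl⟩ := red L' F' hdeg ξ
  have hc : ∀ i, d (F'.coeff i) = 0 := fun i => by rw [← hF, coeff_map, hd]
  have h1 : ∀ p ∈ Z, d p.1 = 0 ∧ d p.2 = 0 := fun p hp => by
    have e := congrArg d (hZ.on p hp)
    rw [B.Abeld.der_eval d hc, Derivation.leibniz_pow] at e
    by_cases h0 : p.2 = 0
    · refine ⟨?_, by rw [h0, map_zero]⟩
      have r : F'.eval p.1 = 0 := by rw [← hZ.on p hp, h0]; simp
      have r' : F'.derivative.eval p.1 ≠ 0 := by
        simpa using hsep.aeval_derivative_ne_zero (x := p.1) (by simpa using r)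
      rw [h0] at e
      simpa [r'] using e
    · have e1 := vdm hZ (fun j => (aj_sm ha hZ.on j).symm.trans (h j)) hp h0
      refine ⟨e1, ?_⟩
      rw [e1] at e
      simpa [h0] using e
  refine ⟨sm F (Z.map fun p => (Function.invFun ι p.1, Function.invFun ι p.2)), ?_⟩
  rw [pmap_sm, Multiset.map_map]
  congr 1
  conv_rhs => rw [← Multiset.map_id Z]
  exact Multiset.map_congr rfl fun p hp => Prod.ext (Function.invFun_eq (hk _ (h1 p hp).1))
    (Function.invFun_eq (hk _ (h1 p hp).2))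

theorem red_map (ι : L →+* L') {F : L[X]} {F' : L'[X]} (hF : F.map ι = F')
    {Z : Multiset (L × L)} (hZ : Red F Z) : Red F' (Z.map fun p => (ι p.1, ι p.2)) := by
  refine ⟨fun p hp => ?_, by rw [Multiset.card_map]; exact hZ.card, fun μ s h => ?_⟩
  · obtain ⟨q, hq, rfl⟩ := Multiset.mem_map.1 hp
    exact on_map ι hF (hZ.on q hq)
  · obtain ⟨p, q, hpq, hp, hq⟩ := SpAux.pair_le _ Z _ _ h
    obtain ⟨rfl, rfl⟩ := Prod.mk.inj hp
    obtain ⟨e1, e2⟩ := Prod.mk.inj hq
    refine hZ.nopair p.1 p.2 ?_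
    rwa [show (p.1, -p.2) = q from Prod.ext (ι.injective e1).symm
      (ι.injective (by rw [map_neg]; exact e2.symm))]

theorem pmap_inj [IsAlgClosed L] [CharZero L] [IsAlgClosed L'] [CharZero L'] (ι : L →+* L')
    {F : L[X]} {F' : L'[X]} (hF : F.map ι = F') (hdeg : F.natDegree = 7) (hsep : F.Separable) :
    Function.Injective (pmap ι hF) := by
  refine (injective_iff_map_eq_zero _).2 fun c hc => ?_
  obtain ⟨Z, hZ, rfl⟩ := red L F hdeg c
  rw [pmap_sm] at hc
  have e := unq L' F' (by rw [← hF, natDegree_map, hdeg]) (hF ▸ hsep.map) _ 0 (red_map ι hF hZ)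
    ⟨by simp, by simp, by simp⟩ (hc.trans (sm_zero F').symm)
  rw [Multiset.map_eq_zero.1 e, sm_zero]

theorem pmap_pmap {L'' : Type} [Field L''] (g : L →+* L') (g' : L' →+* L'') (g'' : L →+* L'')
    {F : L[X]} {F' : L'[X]} {F'' : L''[X]} (h : F.map g = F') (h' : F'.map g' = F'')
    (h'' : F.map g'' = F'') (e : ∀ y, g' (g y) = g'' y) (x : PicP F) :
    pmap g' h' (pmap g h x) = pmap g'' h'' x := by
  refine DFunLike.congr_fun (f := (pmap g' h').comp (pmap g h)) (g := pmap g'' h'')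
    (PicP.hom_ext fun p _ => ?_) x
  show pmap g' h' (pmap g h (cl F p)) = _
  rw [pmap_cl, pmap_cl, pmap_cl, e, e]

theorem pmap_id (g : L →+* L) {F : L[X]} (h : F.map g = F) (e : ∀ y, g y = y) (x : PicP F) :
    pmap g h x = x := by
  refine DFunLike.congr_fun (f := pmap g h) (g := AddMonoidHom.id _)
    (PicP.hom_ext fun p _ => ?_) x
  rw [pmap_cl, e, e]
  rfl

end

end Vale.Agent.P027M.X.Mo
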