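import Vale.Agent.P027M.X.Defs
import Vale.Agent.P027M.B.Abeld
import Vale.Agent.P027M.B.Abel

/-! # P027, route M, row X.DER : Abel's theorem on the class group -/

set_option linter.all false

open Polynomial

noncomputable section

namespace Vale.Agent.P027M.X

namespace Der

theorem sum_div {L : Type} [Field L] [IsAlgClosed L] (hA : B.ABEL) (h2 : (2 : L) ≠ 0) {F : L[X]}
    (d : Derivation ℤ L L) (hdeg : F.natDegree = 7) (hsep : F.Separable)
    (hd : ∀ i, d (F.coeff i) = 0) {j : ℕ} (hj : j < 3) (Z : Multiset (L × L)) (A B : L[X]) (c : L)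
    (hc : c ≠ 0) (hAB : IsCoprime A B)
    (hN : A ^ 2 - B ^ 2 * F = C c * (Z.map fun p => X - C p.1).prod)
    (hZ : ∀ p ∈ Z, A.eval p.1 + B.eval p.1 * p.2 = 0) :
    (∀ p ∈ Z, p.2 ^ 2 = F.eval p.1) ∧ (Z.map fun p => p.1 ^ j * d p.1 / p.2).sum = 0 := by
  classical
  obtain ⟨V, hV1, hV2⟩ := P027M.B.Abeld.ex_V (F := F) hAB
  set N := A ^ 2 - B ^ 2 * F with hNd
  have hU : (Z.map fun p => (X - C p.1 : L[X])) = (Z.map Prod.fst).map fun a => X - C a := by
    rw [Multiset.map_map]; rfl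
  have hN0 : N ≠ 0 := by
    rw [hN, hU]
    exact mul_ne_zero (C_ne_zero.2 hc) (monic_multisetProd_X_sub_C _).ne_zero
  have hr : N.roots = Z.map Prod.fst := by
    rw [hN, hU, roots_C_mul _ hc, roots_multiset_prod_X_sub_C]
  have hroot : ∀ p ∈ Z, N.IsRoot p.1 := fun p hp =>
    (mem_roots hN0).1 (by rw [hr]; exact Multiset.mem_map_of_mem _ hp)
  have hV : ∀ p ∈ Z, V.eval p.1 = p.2 := by
    intro p hp
    have e1 := ((hroot p hp).dvd hV1).eq_zero
    have e2 := hZ p hp
    rw [eval_add, eval_mul] at e1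
    have e3 : B.eval p.1 ≠ 0 := fun h => by
      obtain ⟨u, v, huv⟩ := hAB
      have e4 := congrArg (eval p.1) huv
      rw [h, zero_mul, add_zero] at e2
      simp [h, e2] at e4
    exact mul_left_cancel₀ e3 (by linear_combination e1 - e2)
  refine ⟨fun p hp => by rw [← hV p hp]; exact P027M.B.Abeld.root_sq hV2 (hroot p hp), ?_⟩
  have key := P027M.B.Abeld.poly_part hA h2 hdeg hsep d hd hNd.symm hN0 hV1 hV2 hj
  have e1 : (Z.map fun p => p.1 ^ j * d p.1 / p.2) =
      N.roots.map fun μ => μ ^ j * d μ / V.eval μ := by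
    rw [hr, Multiset.map_map]
    exact Multiset.map_congr rfl fun p hp => by simp [hV p hp]
  rw [e1, Finset.sum_multiset_map_count, ← key,
    Finset.sum_coe_sort _ fun μ => (N.rootMultiplicity μ : L) * (μ ^ j * d μ / V.eval μ),
    Finset.sum_filter]
  refine Finset.sum_congr rfl fun μ hμ => ?_
  split_ifs with h
  · have e2 := P027M.B.Abeld.root_sq hV2 ((mem_roots hN0).1 (Multiset.mem_toFinset.1 hμ))
    rw [h, pow_eq_zero_iff two_ne_zero] at e2
    rw [e2, div_zero, smul_zero]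
  · rw [count_roots, nsmul_eq_mul]

end Der

theorem der (hA : B.ABEL) : DER := by
  intro L _ _ _ F d hdeg hsep hd j hj
  classical
  refine ⟨PicP.lift (fun p => if p.2 ^ 2 = F.eval p.1 then p.1 ^ j * d p.1 / p.2 else 0)
    (fun p hp => if_neg hp) (fun μ s => ?_) (fun Z A B c hc hAB hN hZ => ?_), fun μ s h => ?_⟩
  · simp only [neg_sq]
    split_ifs
    · rw [div_neg, add_neg_cancel]
    · rw [add_zero]
  · obtain ⟨h1, h2⟩ := Der.sum_div hA two_ne_zero d hdeg hsep hd hj Z A B c hc hAB hN hZ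
    rw [← h2]
    exact congrArg _ (Multiset.map_congr rfl fun p hp => if_pos (h1 p hp))
  · rw [PicP.lift_cl]
    exact if_pos h

theorem der0 : DER := der B.abel

end Vale.Agent.P027M.X
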