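import Vale.Agent.P027M.X.HDefs
import Vale.Agent.P027M.X.Der
import Vale.Agent.P027M.X.Red
import Vale.Agent.P297.H927.Der

/-! # P027, route M, row X.TORS : torsion classes under extension of the field -/

open Polynomial

noncomputable section

namespace Vale.Agent.P027M.X

namespace Tors

theorem key {L : Type} [Field L] [IsAlgClosed L] [CharZero L] {F : L[X]} (d : Derivation ℤ L L)
    (hdeg : F.natDegree = 7) (hsep : F.Separable) (hd : ∀ i, d (F.coeff i) = 0)
    {Z : Multiset (L × L)} (hZ : Red F Z) {n : ℕ} (hn : n ≠ 0) (h0 : n • sm F Z = 0) {μ s : L}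
    (hp : (μ, s) ∈ Z) (hs : s ≠ 0) : d μ = 0 := by
  classical
  obtain ⟨a0, h0'⟩ := der0 L F d hdeg hsep hd 0 (by norm_num)
  obtain ⟨a1, h1'⟩ := der0 L F d hdeg hsep hd 1 (by norm_num)
  obtain ⟨a2, h2'⟩ := der0 L F d hdeg hsep hd 2 (by norm_num)
  have hc := Multiset.filter_add_not (fun p : L × L => p.1 = μ) Z
  generalize hA : Z.filter (fun p => p.1 = μ) = A at hc
  generalize hB : Z.filter (fun p => ¬ p.1 = μ) = B at hc
  have hA0 : A.card ≠ 0 := fun q => by
    have : (μ, s) ∈ A := hA ▸ Multiset.mem_filter.2 ⟨hp, rfl⟩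
    rw [Multiset.card_eq_zero.1 q] at this
    exact Multiset.notMem_zero _ this
  have hB2 : B.card < 3 := by
    have := hZ.card
    rw [← hc, Multiset.card_add] at this
    omega
  obtain ⟨Q, hQ⟩ : ∃ Q : L[X], Q = (B.map fun p => X - C p.1).prod := ⟨_, rfl⟩
  have hQd : Q.natDegree < 3 := by
    rw [hQ, ← Function.comp_def (fun a => X - C a) Prod.fst, ← Multiset.map_map,
      natDegree_multiset_prod_X_sub_C_eq_card, Multiset.card_map]
    exact hB2
  have hQe : ∀ t, Q.eval t = 0 ↔ ∃ p ∈ B, p.1 = t := fun t => by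
    rw [hQ, eval_multiset_prod, Multiset.prod_eq_zero_iff]
    simp only [Multiset.map_map, Multiset.mem_map, Function.comp, eval_sub, eval_X, eval_C,
      sub_eq_zero]
    exact exists_congr fun p => and_congr_right fun _ => eq_comm
  let a : PicP F →+ L := Q.coeff 0 • a0 + Q.coeff 1 • a1 + Q.coeff 2 • a2
  have ha : ∀ p ∈ Z, a (cl F p) = Q.eval p.1 * d p.1 / p.2 := fun p hp => by
    have e := hZ.on p hp
    change Q.coeff 0 * a0 (cl F (p.1, p.2)) + Q.coeff 1 * a1 (cl F (p.1, p.2)) +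
      Q.coeff 2 * a2 (cl F (p.1, p.2)) = _
    rw [h0' _ _ e, h1' _ _ e, h2' _ _ e, eval_eq_sum_range' hQd]
    simp only [Finset.sum_range_succ, Finset.range_zero, Finset.sum_empty]
    ring
  have h1 : a (sm F Z) = 0 := by
    have e := congrArg a h0
    rw [map_nsmul, map_zero, nsmul_eq_mul] at e
    exact (mul_eq_zero.1 e).resolve_left (Nat.cast_ne_zero.2 hn)
  have h2 : a (sm F B) = 0 := by
    rw [sm, map_multiset_sum, Multiset.map_map]
    refine Multiset.sum_eq_zero fun x hx => ?_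
    obtain ⟨p, hp, rfl⟩ := Multiset.mem_map.1 hx
    have hpZ : p ∈ Z := (Multiset.mem_filter.1 (hB ▸ hp)).1
    rw [Function.comp, ha p hpZ, (hQe _).2 ⟨p, hp, rfl⟩, zero_mul, zero_div]
  have h3 : A = Multiset.replicate A.card (μ, s) := by
    refine Multiset.eq_replicate_card.2 fun p hpA => ?_
    obtain ⟨hpZ, e⟩ := Multiset.mem_filter.1 (hA ▸ hpA)
    obtain ⟨m, t⟩ := p
    dsimp only at e
    subst e
    by_contra hne
    have e1 : t ^ 2 = s ^ 2 := (hZ.on _ hpZ).trans (hZ.on _ hp).symm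
    rcases sq_eq_sq_iff_eq_or_eq_neg.1 e1 with rfl | rfl
    · exact hne rfl
    · refine hZ.nopair m s ((Multiset.le_iff_subset ?_).2 ?_)
      · simpa using Ne.symm hne
      · intro q hq
        simp only [Multiset.insert_eq_cons, Multiset.mem_cons, Multiset.mem_singleton] at hq
        rcases hq with rfl | rfl <;> assumption
  rw [← hc, sm_add, map_add, h2, add_zero, h3, sm, Multiset.map_replicate, Multiset.sum_replicate,
    map_nsmul, ha _ hp, nsmul_eq_mul] at h1
  have h4 : Q.eval μ ≠ 0 := fun q => by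
    obtain ⟨p, hp, e⟩ := (hQe _).1 q
    rw [← hB, Multiset.mem_filter] at hp
    exact hp.2 e
  simpa [hA0, h4, hs] using h1

theorem red_map {k k' : Type} [Field k] [Field k'] (φ : k →+* k') {F : k[X]} {F' : k'[X]}
    (h : F.map φ = F') {Z : Multiset (k × k)} (hZ : Red F Z) :
    Red F' (Z.map fun p => (φ p.1, φ p.2)) := by
  refine ⟨fun p hp => ?_, by rw [Multiset.card_map]; exact hZ.card, fun μ s hle => ?_⟩
  · obtain ⟨q, hq, rfl⟩ := Multiset.mem_map.1 hp
    rw [← h, eval_map, eval₂_at_apply, ← hZ.on q hq, map_pow]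
  · obtain ⟨q, -, e⟩ := Multiset.mem_map.1 (Multiset.mem_of_le hle (Multiset.mem_cons_self _ _))
    obtain ⟨rfl, rfl⟩ := Prod.mk.inj e
    refine hZ.nopair q.1 q.2 ((Multiset.map_le_map_iff (f := fun p : k × k => (φ p.1, φ p.2))
      fun p p' e => Prod.ext (φ.injective (Prod.mk.inj e).1) (φ.injective (Prod.mk.inj e).2)).1 ?_)
    simpa using hle

end Tors

theorem tors (hU : UNQ) : TORS := by
  intro k k' _ _ _ _ _ _ φ F F' h hdeg hsep
  have hdeg' : F'.natDegree = 7 := by rw [← h, natDegree_map, hdeg]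
  have hsep' : F'.Separable := h ▸ hsep.map
  refine ⟨(injective_iff_map_eq_zero _).2 fun x hx => ?_, fun y n hn hy => ?_⟩
  · obtain ⟨Z, hZ, rfl⟩ := red k F hdeg x
    rw [pmap_sm, ← sm_zero F'] at hx
    have e := hU k' F' hdeg' hsep' _ 0 (Tors.red_map φ h hZ)
      ⟨fun p hp => absurd hp (Multiset.notMem_zero p), by simp, fun μ s => by simp⟩ hx
    rw [Multiset.map_eq_zero.1 e, sm_zero]
  · obtain ⟨Z, hZ, rfl⟩ := red k' F' hdeg' y
    let _ : Algebra k k' := φ.toAlgebra
    have h1 : ∀ p ∈ Z, ∃ q : k × k, (φ q.1, φ q.2) = p := by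
      rintro ⟨μ, s⟩ hp
      have e : s ^ 2 = F'.eval μ := hZ.on _ hp
      have h2 : IsAlgebraic k μ := by
        by_contra ht
        obtain ⟨D, hD⟩ := Vale.Agent.P297.H927.exists_derivation (F := k) ht
        have h3 := Tors.key (D.restrictScalars ℤ) hdeg' hsep' (fun i => by
          rw [← h, coeff_map]
          exact D.map_algebraMap _) hZ hn hy hp fun h0 => ht ⟨F, hsep.ne_zero, by
            rw [aeval_def, eval₂_eq_eval_map, show algebraMap k k' = φ from rfl, h, ← e, h0]
            simp⟩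
        exact one_ne_zero (hD.symm.trans h3)
      obtain ⟨a, rfl⟩ : ∃ a, φ a = μ := minpoly.mem_range_of_degree_eq_one k μ
        (IsAlgClosed.degree_eq_one_of_irreducible k (minpoly.irreducible h2.isIntegral))
      obtain ⟨b, hb⟩ := IsAlgClosed.exists_pow_nat_eq (F.eval a) two_pos
      rw [← h, eval_map, eval₂_at_apply, ← hb, map_pow] at e
      rcases sq_eq_sq_iff_eq_or_eq_neg.1 e with rfl | rfl
      · exact ⟨(a, b), rfl⟩
      · exact ⟨(a, -b), by rw [map_neg]⟩
    refine ⟨sm F (Z.map (Function.invFun fun q : k × k => (φ q.1, φ q.2))), ?_⟩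
    rw [pmap_sm, Multiset.map_map]
    congr 1
    exact (Multiset.map_congr rfl fun p hp => Function.invFun_eq (h1 p hp)).trans (Multiset.map_id Z)

end Vale.Agent.P027M.X
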