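import Vale.Agent.P027M.X.Top
import Vale.Agent.P027M.X.Genp
import Vale.Agent.P027M.X.Tors
import Vale.Agent.P027M.X.Sep
import Vale.Agent.P027M.X.Mon1
import Vale.Agent.P022.H964.L3.Orb

/-! # P027, route M, row X.CYC : cyclic submodules, from `ℚ̄` to `ℂ` -/

set_option linter.all false

open Polynomial

noncomputable section

namespace Vale.Agent.P027M.X

open Vale.Agent.P022

theorem pmap_piota {L L' : Type*} [Field L] [Field L'] (φ : L →+* L') {F : L[X]} {F' : L'[X]}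
    (h : F.map φ = F') {i : L} {i' : L'} (hi : i ^ 2 = -1) (hi' : i' ^ 2 = -1) (e : φ i = i')
    (hF : F.comp (-X) = -F) (hF' : F'.comp (-X) = -F') (x : PicP F) :
    pmap φ h (piota i hi hF x) = piota i' hi' hF' (pmap φ h x) :=
  DFunLike.congr_fun (PicP.hom_ext (φ := (pmap φ h).comp (piota i hi hF))
    (ψ := (piota i' hi' hF').comp (pmap φ h)) fun p _ => by
      simp only [AddMonoidHom.comp_apply, piota_cl, pmap_cl, map_neg, map_mul, e]) x

theorem cyc (hx : HEX) : CYC := by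
  intro i hi j g T K0 hj hR hQ H' hH' y ⟨n, hn, hy⟩ hHy hst
  obtain ⟨hd, hs⟩ := sep Qb g T hR
  have hF := fG_map j g T
  obtain ⟨inj, sur⟩ := tors unq Qb ℂ j _ _ hF hd hs
  obtain ⟨x, rfl⟩ := sur y n hn hy
  obtain ⟨H, hH⟩ := hx Qb g T hR
  have hm := hmap sep Qb ℂ j g T _ _ hF H H' hR rfl rfl hH hH'
  rw [← map_nsmul, hQ H hH x ⟨n, hn, inj (by rw [map_nsmul, hy, map_zero])⟩
    (inj (by rw [hm, hHy, map_neg])) fun σ hσ hσF => ?_, map_zero]
  obtain ⟨τ, hτ⟩ := H964.L3.exists_ext_C j σ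
  have e : (τ : ℂ →+* ℂ).comp j = j.comp (σ : Qb →+* Qb) := RingHom.ext hτ
  have hτF : (fG (j g) (j T)).map (τ : ℂ →+* ℂ) = fG (j g) (j T) := by
    rw [← hF, Polynomial.map_map, e, ← Polynomial.map_map, hσF]
  have h2 : (fG g T).map (j.comp (σ : Qb →+* Qb)) = fG (j g) (j T) := by
    rw [← Polynomial.map_map, hσF, hF]
  obtain ⟨c, hc⟩ := hst τ (by rw [← hj, hτ, hσ]) hτF
  refine ⟨c, inj ?_⟩
  rw [B2.gs_comm _ c (pmap_piota j hF hi Complex.I_sq hj _ (fG_odd _ _) x), ← hc,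
    Mo.pmap_pmap _ _ _ hσF hF h2 fun _ => rfl, Mo.pmap_pmap _ _ _ hF hτF h2 hτ]

end Vale.Agent.P027M.X
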