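import Vale.Agent.P027M.X.HDefs
import Vale.Agent.P027M.X.Exp

/-! # P027, route M, row X.EQH : the differential of the correspondence `H` -/

set_option linter.all false

open Polynomial Filter Topology

noncomputable section

namespace Vale.Agent.P027M.X

namespace Eqh

variable {g T p c D A B C' Y z w Z ε d : ℂ}

/-- the mates of `z` -/
def mq (c T ε z Z : ℂ) : ℂ := ((1 - c) * T * z + ε * Z) / (2 * (z ^ 2 - T))

/-- the ordinate of the point of the elliptic curve -/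
def yy (g T z w : ℂ) : ℂ := w * (z ^ 2 - g * T) / (z ^ 2 - T) ^ 2

theorem swap (h : F.Rel c T D A B C' Y) : F.Rel c T D B A C' Y :=
  ⟨by linear_combination h.e2, by linear_combination h.e3, by linear_combination h.eY⟩

theorem root (h : F.Rel c T D A B C' Y) : A * (A ^ 2 - c * T) = (A + B + C') * (A ^ 2 - T) := by
  linear_combination (-A) * h.e2 + h.e3

theorem crit (h : F.Rel (g * p) T D A B C' Y) (r : g * p + g + p = 3) :
    (A - B) * (A - C') * (A ^ 2 - T) = (A ^ 2 - g * T) * (A ^ 2 - p * T) := by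
  linear_combination 2 * A * root h + (A ^ 2 - T) * h.e2 + T * A ^ 2 * r

theorem keyF (R : Rg g T) (h1 : A ^ 2 - T ≠ 0) :
    (A * (A ^ 2 - c3 g * T) / (A ^ 2 - T)) ^ 3 - b2 g * T * (A * (A ^ 2 - c3 g * T) / (A ^ 2 - T)) =
      (fG g T).eval A * (A ^ 2 - g * T) ^ 2 / ((A ^ 2 - T) ^ 2) ^ 2 := by
  have := R.hp1
  rw [F.keyY (g := g) (d2 := d2 g) h1 (by unfold b2 d2; ring)
    (by unfold b2 d2 c3; field_simp; ring) (by unfold b2 d2 c3; field_simp; ring)]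
  simp [fG]

theorem rel (R : Rg g T) (h1 : z ^ 2 - T ≠ 0) (hw : w ^ 2 = (fG g T).eval z) (hε : ε ^ 2 = 1)
    (hZ : Z ^ 2 = (1 - c3 g) ^ 2 * T ^ 2 * z ^ 2 - 4 * T * (c3 g * T - z ^ 2) * (z ^ 2 - T)) :
    F.Rel (c3 g) T (b2 g * T) z (mq (c3 g) T ε z Z) (mq (c3 g) T (-ε) z Z) (yy g T z w) := by
  have a1 : mq (c3 g) T ε z Z + mq (c3 g) T (-ε) z Z = (1 - c3 g) * T * z / (z ^ 2 - T) := by
    unfold mq; field_simp; ring
  have a2 : mq (c3 g) T ε z Z * mq (c3 g) T (-ε) z Z = T * (c3 g * T - z ^ 2) / (z ^ 2 - T) := by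
    unfold mq; field_simp; linear_combination -hZ - Z ^ 2 * hε
  have a3 : z + mq (c3 g) T ε z Z + mq (c3 g) T (-ε) z Z =
      z * (z ^ 2 - c3 g * T) / (z ^ 2 - T) := by
    rw [add_assoc, a1]; field_simp; ring
  refine ⟨?_, ?_, ?_⟩
  · have : z * ((1 - c3 g) * T * z / (z ^ 2 - T)) + T * (c3 g * T - z ^ 2) / (z ^ 2 - T) =
        -(c3 g * T) := by field_simp; ring
    linear_combination z * a1 + a2 + this
  · rw [mul_assoc, a2, a3]; field_simp; ring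
  · rw [a3, keyF R h1, yy, div_pow, mul_pow, hw]

theorem mate (R : Rg g T) (hc : c3 g = g * p) (r : g * p + g + p = 3) (c1 : 1 - g * p ≠ 0)
    (h : F.Rel (c3 g) T (b2 g * T) A B C' Y) (h2 : A ^ 2 - g * T ≠ 0) (h3 : A ^ 2 - p * T ≠ 0)
    (h4 : B - C' ≠ 0) : B ^ 2 - T ≠ 0 ∧ B ^ 2 - g * T ≠ 0 ∧ B ^ 2 - p * T ≠ 0 ∧
      wv g T B Y ^ 2 = (fG g T).eval B := by
  have k0 := root (swap h)
  have k1 : B ^ 2 - T ≠ 0 := fun e => pow_ne_zero 2 (mul_ne_zero R.hT c1) (mul_left_cancel₀ R.hT (by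
    rw [hc] at k0
    linear_combination (B * (B ^ 2 - g * p * T) + (B + A + C') * (B ^ 2 - T)) * k0 +
      ((B + A + C') ^ 2 * (B ^ 2 - T) - (B ^ 2 - g * p * T) ^ 2 -
        T * (B ^ 2 + T - 2 * g * p * T)) * e))
  have k2 : B - A ≠ 0 := fun e => mul_ne_zero h2 h3 (by
    linear_combination -crit (hc ▸ h) r - (A - C') * (A ^ 2 - T) * e)
  have k3 := mul_ne_zero_iff.1 (crit (hc ▸ swap h) r ▸ mul_ne_zero (mul_ne_zero k2 h4) k1)
  refine ⟨k1, k3.1, k3.2, ?_⟩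
  have k4 := keyF R k1
  rw [k0, mul_div_cancel_right₀ _ k1, ← (swap h).eY, eq_div_iff (by simp [k1])] at k4
  rw [wv, div_pow, mul_pow, k4, mul_div_cancel_right₀ _ (pow_ne_zero 2 k3.1)]

theorem sums (r : g * p + g + p = 3) (h : F.Rel (g * p) T D A B C' Y) (h0 : T - p * T ≠ 0)
    (h1 : A ^ 2 - p * T ≠ 0) (h2 : B ^ 2 - p * T ≠ 0) (h3 : C' ^ 2 - p * T ≠ 0) :
    1 / (A ^ 2 - p * T) + 1 / (B ^ 2 - p * T) + 1 / (C' ^ 2 - p * T) = 2 / (T - p * T) ∧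
      A / (A ^ 2 - p * T) + B / (B ^ 2 - p * T) + C' / (C' ^ 2 - p * T) = 0 := by
  have s1 : A ^ 2 + B ^ 2 + C' ^ 2 = (A + B + C') ^ 2 + 2 * (g * p) * T := by
    linear_combination (-2) * h.e2
  have s2 : A ^ 2 * B ^ 2 + B ^ 2 * C' ^ 2 + C' ^ 2 * A ^ 2 =
      (g * p * T) ^ 2 + 2 * T * (A + B + C') ^ 2 := by
    linear_combination (A * B + B * C' + C' * A - g * p * T) * h.e2 - 2 * (A + B + C') * h.e3
  have s3 : (A * B * C') ^ 2 = (T * (A + B + C')) ^ 2 := by rw [h.e3, neg_sq]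
  rw [div_add_div _ _ h1 h2, div_add_div _ _ (mul_ne_zero h1 h2) h3, div_add_div _ _ h1 h2,
    div_add_div _ _ (mul_ne_zero h1 h2) h3, div_eq_div_iff (mul_ne_zero (mul_ne_zero h1 h2) h3) h0,
    div_eq_zero_iff]
  refine ⟨?_, Or.inl ?_⟩
  · linear_combination (-2 * p * T ^ 2) * s1 + (T + p * T) * s2 - 2 * s3 +
      (g * p * T - p * T) * T ^ 2 * p * r
  · linear_combination (A * B * C' - p * T * (A + B + C')) * h.e2 +
      (3 * p * T - g * p * T) * h.e3 + (A + B + C') * T ^ 2 * p * r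

theorem der (r : g * p + g + p = 3) {m : ℂ → ℂ} (hm : HasDerivAt m d z)
    (h : ∀ᶠ x in 𝓝 z, m x * (m x ^ 2 - g * p * T) * (x ^ 2 - T) =
      x * (x ^ 2 - g * p * T) * (m x ^ 2 - T)) (h1 : z ^ 2 - T ≠ 0) (h2 : z ^ 2 - g * T ≠ 0)
    (k1 : m z ^ 2 - T ≠ 0) (k2 : m z ^ 2 - g * T ≠ 0) (k3 : m z ^ 2 - p * T ≠ 0) (hw : w ≠ 0) :
    d / wv g T (m z) (yy g T z w) = (z ^ 2 - p * T) / w * (1 / (m z ^ 2 - p * T)) := by
  have a := (hm.mul ((hm.pow 2).sub_const (g * p * T))).mul (((hasDerivAt_id z).pow 2).sub_const T)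
  have b := ((hasDerivAt_id z).mul (((hasDerivAt_id z).pow 2).sub_const (g * p * T))).mul
    ((hm.pow 2).sub_const T)
  have hd := a.unique (b.congr_of_eventuallyEq h)
  simp only [Pi.mul_apply, Pi.pow_apply, id, Nat.cast_ofNat, Nat.add_one_sub_one, pow_one] at hd
  have e : d * (z ^ 2 - T) ^ 2 * ((m z ^ 2 - g * T) * (m z ^ 2 - p * T)) =
      (m z ^ 2 - T) ^ 2 * ((z ^ 2 - g * T) * (z ^ 2 - p * T)) := by
    linear_combination (z ^ 2 - T) * (m z ^ 2 - T) * hd -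
      2 * (d * (z ^ 2 - T) * m z + z * (m z ^ 2 - T)) * h.self_of_nhds +
      T * ((m z ^ 2 - T) ^ 2 * z ^ 2 - d * (z ^ 2 - T) ^ 2 * m z ^ 2) * r
  unfold wv yy
  generalize z ^ 2 - T = a1 at *
  generalize z ^ 2 - g * T = a2 at *
  generalize z ^ 2 - p * T = a3 at *
  generalize m z ^ 2 - T = b1 at *
  generalize m z ^ 2 - g * T = b2 at *
  generalize m z ^ 2 - p * T = b3 at *
  field_simp
  linear_combination e

theorem vec (r : g * p + g + p = 3) (h : F.Rel (g * p) T D z B C' Y) (h0 : T - p * T ≠ 0)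
    (h1 : z ^ 2 - p * T ≠ 0) (h2 : B ^ 2 - p * T ≠ 0) (h3 : C' ^ 2 - p * T ≠ 0) {u u' d' : ℂ}
    (d1 : d / u = (z ^ 2 - p * T) / w * (1 / (B ^ 2 - p * T)))
    (d2 : d' / u' = (z ^ 2 - p * T) / w * (1 / (C' ^ 2 - p * T))) :
    d • om B u + d' • om C' u' = -om z w + (om z w 2 - p * T * om z w 0) •
      ![2 / (T - p * T), 0, 3 + p * T * (2 / (T - p * T))] := by
  obtain ⟨s0, s1⟩ := sums r h h0 h1 h2 h3
  simp only [div_eq_mul_inv, one_mul] at s0 s1 d1 d2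
  have i1 := mul_inv_cancel₀ h1
  have i2 := mul_inv_cancel₀ h2
  have i3 := mul_inv_cancel₀ h3
  funext j
  fin_cases j <;> simp [om, div_eq_mul_inv]
  · linear_combination d1 + d2 + (z ^ 2 - p * T) * w⁻¹ * s0 - w⁻¹ * i1
  · linear_combination B * d1 + C' * d2 + (z ^ 2 - p * T) * w⁻¹ * s1 - z * w⁻¹ * i1
  · linear_combination B ^ 2 * d1 + C' ^ 2 * d2 +
      (z ^ 2 - p * T) * w⁻¹ * (p * T * s0 + i2 + i3) - p * T * w⁻¹ * i1

theorem loc (R : Rg g T) (hc : c3 g = g * p) (r : g * p + g + p = 3) (c1 : 1 - g * p ≠ 0)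
    {z0 : ℂ} {w Z : ℂ → ℂ} (hw0 : w z0 ≠ 0)
    (hw : ∀ᶠ z in 𝓝 z0, DifferentiableAt ℂ w z ∧ w z ^ 2 = (fG g T).eval z)
    (g1 : ∀ᶠ z in 𝓝 z0, z ^ 2 - T ≠ 0 ∧ z ^ 2 - g * T ≠ 0 ∧ z ^ 2 - p * T ≠ 0)
    (hZ : ∀ᶠ z in 𝓝 z0, DifferentiableAt ℂ Z z ∧ Z z ≠ 0 ∧ Z z ^ 2 =
      (1 - c3 g) ^ 2 * T ^ 2 * z ^ 2 - 4 * T * (c3 g * T - z ^ 2) * (z ^ 2 - T))
    (hε : ε ^ 2 = 1) {m : ℂ → ℂ} (hm : m = fun z => mq (c3 g) T ε z (Z z)) :
    (ContinuousAt (fun z => wv g T (m z) (yy g T z (w z))) z0 ∧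
      wv g T (m z0) (yy g T z0 (w z0)) ≠ 0) ∧
    ∀ᶠ z in 𝓝 z0, F.Rel (c3 g) T (b2 g * T) z (m z) (mq (c3 g) T (-ε) z (Z z)) (yy g T z (w z)) ∧
      (HasDerivAt m (deriv m z) z ∧ wv g T (m z) (yy g T z (w z)) ^ 2 = (fG g T).eval (m z)) ∧
      m z ^ 2 - p * T ≠ 0 ∧ deriv m z / wv g T (m z) (yy g T z (w z)) =
        (z ^ 2 - p * T) / w z * (1 / (m z ^ 2 - p * T)) := by
  have cw := hw.self_of_nhds.1.continuousAt
  have g2 : ∀ᶠ z in 𝓝 z0, F.Rel (c3 g) T (b2 g * T) z (m z) (mq (c3 g) T (-ε) z (Z z))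
      (yy g T z (w z)) ∧ DifferentiableAt ℂ m z ∧ m z ^ 2 - T ≠ 0 ∧ m z ^ 2 - g * T ≠ 0 ∧
      m z ^ 2 - p * T ≠ 0 ∧ wv g T (m z) (yy g T z (w z)) ^ 2 = (fG g T).eval (m z) := by
    subst hm
    filter_upwards [g1, hw, hZ] with z ⟨a1, a2, a3⟩ a4 ⟨b1, b2, b3⟩
    have h := rel R a1 a4.2 hε b3
    refine ⟨h, ?_, mate R hc r c1 h a2 a3 fun e => b2 ?_⟩
    · have := mul_ne_zero two_ne_zero a1
      unfold mq
      fun_prop (disch := assumption)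
    · unfold mq at e
      rw [← sub_div, div_eq_zero_iff, or_iff_left (mul_ne_zero two_ne_zero a1)] at e
      linear_combination ε / 2 * e - Z z * hε
  clear hm
  constructor
  · obtain ⟨-, b1, b2, b3, -⟩ := g2.self_of_nhds
    obtain ⟨b5, b6, -⟩ := g1.self_of_nhds
    have b7 := b1.continuousAt
    have b8 := pow_ne_zero 2 b5
    unfold wv yy
    exact ⟨by fun_prop (disch := assumption), div_ne_zero (mul_ne_zero
      (div_ne_zero (mul_ne_zero hw0 b6) b8) (pow_ne_zero 2 b2)) b3⟩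
  · filter_upwards [g2.eventually_nhds, cw.eventually_ne hw0, g1] with z a1 a2 ⟨b5, b6, _⟩
    obtain ⟨b0, b1, b2, b3, b4, b7⟩ := a1.self_of_nhds
    refine ⟨b0, ⟨b1.hasDerivAt, b7⟩, b4,
      der r b1.hasDerivAt (a1.mono fun x h => ?_) b5 b6 b2 b3 b4 a2⟩
    rw [← hc, root (swap h.1), root h.1]
    ring

end Eqh

open Eqh in
theorem eqh : EQH := by
  rintro g T E H R hE ⟨S0, c0, hH⟩ t ht
  have hp1 := R.hp1
  obtain ⟨p, hp⟩ : ∃ p, p = (3 - g) / (g + 1) := ⟨_, rfl⟩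
  have hc : c3 g = g * p := by rw [hp, c3, mul_div_assoc]
  have r : g * p + g + p = 3 := by rw [hp]; field_simp; ring
  have p0 : p ≠ 0 := hp ▸ div_ne_zero R.hm3 hp1
  have c1 : 1 - g * p ≠ 0 := fun e => pow_ne_zero 2 R.hm1 (by
    linear_combination (g + 1) * e + g * r)
  have p1 : T - p * T ≠ 0 := fun e => mul_ne_zero R.hT R.hm1 (by
    linear_combination ((g + 1) * e + T * r) / 2)
  obtain ⟨Q, Qe⟩ : ∃ Q : ℂ[X], ∀ z, Q.eval z = (1 - c3 g) ^ 2 * T ^ 2 * z ^ 2 -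
      4 * T * (c3 g * T - z ^ 2) * (z ^ 2 - T) := ⟨C ((1 - c3 g) ^ 2 * T ^ 2) * X ^ 2 -
    C (4 * T) * (C (c3 g * T) - X ^ 2) * (X ^ 2 - C T), fun z => by simp⟩
  obtain ⟨P, Pe⟩ : ∃ P : ℂ[X], ∀ z, P.eval z =
      (z ^ 2 - T) * (z ^ 2 - g * T) * (z ^ 2 - p * T) * Q.eval z :=
    ⟨(X ^ 2 - C T) * (X ^ 2 - C (g * T)) * (X ^ 2 - C (p * T)) * Q, fun z => by simp⟩
  have P0 : P ≠ 0 := fun e => by
    have h := Pe 0
    rw [e, Qe, hc] at h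
    simp [R.hT, R.hg, p0] at h
  have key := eqv _ _ _ E hE H (-ContinuousLinearMap.id ℂ _ + (ContinuousLinearMap.proj 2 -
      (p * T) • ContinuousLinearMap.proj 0 : (Fin 3 → ℂ) →L[ℂ] ℂ).smulRight
      ![2 / (T - p * T), 0, 3 + p * T * (2 / (T - p * T))]) (S0 ∪ P.roots.toFinset)
    (fun z0 w hz0 hw0 hw => ?_) t
  · rw [key, ← map_neg]
    simp [ht, hp]
  have g1 : ∀ᶠ z in 𝓝 z0, z ∉ S0 ∧ z ^ 2 - T ≠ 0 ∧ z ^ 2 - g * T ≠ 0 ∧ z ^ 2 - p * T ≠ 0 ∧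
      Q.eval z ≠ 0 := by
    filter_upwards [(S0 ∪ P.roots.toFinset).finite_toSet.isClosed.isOpen_compl.mem_nhds hz0]
      with z hz
    simpa only [Set.mem_compl_iff, Finset.mem_coe, Finset.mem_union, Multiset.mem_toFinset,
      mem_roots P0, IsRoot, Pe, mul_eq_zero, not_or, and_assoc] using hz
  obtain ⟨s, hs⟩ := IsAlgClosed.exists_pow_nat_eq (Q.eval z0) two_pos
  obtain ⟨δ, hδ, Z, -, hZ⟩ := B.An.root Q (m := z0) (s := s)
    (fun e => g1.self_of_nhds.2.2.2.2 (by rw [← hs, e]; simp)) hs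
  have L := fun (ε : ℂ) (hε : ε ^ 2 = 1) => loc R hc r c1 (Z := Z) hw0 hw
    (g1.mono fun z h => ⟨h.2.1, h.2.2.1, h.2.2.2.1⟩)
    (Eventually.mono (Metric.ball_mem_nhds z0 hδ) fun z h => Qe z ▸ hZ z h) hε rfl
  obtain ⟨k1, k2⟩ := L 1 (one_pow 2)
  obtain ⟨k3, k4⟩ := L (-1) neg_one_sq
  refine ⟨Fin 2, inferInstance, fun _ => 1, fun i z => mq (c3 g) T (![1, -1] i) z (Z z),
    fun i z => wv g T (mq (c3 g) T (![1, -1] i) z (Z z)) (yy g T z (w z)),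
    fun i => deriv fun z => mq (c3 g) T (![1, -1] i) z (Z z), c0,
    Fin.forall_fin_two.2 ⟨k1, k3⟩, ?_⟩
  filter_upwards [g1, k2, k4] with z ⟨a0, a1, a2, a3, _⟩ ⟨b0, b1, b2, d1⟩ ⟨_, b4, b5, d2⟩
  refine ⟨Fin.forall_fin_two.2 ⟨b1, b4⟩, ?_, ?_⟩
  · simpa using vec r (by rw [← hc]; exact b0) p1 a3 b2 b5 d1 d2
  · have h := hH _ _ _ _ b0 a0
    rw [show wv g T z (yy g T z (w z)) = w z by unfold wv yy; field_simp] at h
    simpa using h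

end Vale.Agent.P027M.X
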