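import Vale.Agent.P027M.B.All
import Vale.Agent.P027M.X.MerDefs

/-! # P027, route M, row X.FIN : a multiple of the period group is killed by the exponential -/

set_option linter.all false

open Polynomial NumberField
open scoped PowerSeries MatrixGroups

noncomputable section

namespace Vale.Agent.P027M.X

open Vale.Agent.P027M.B Vale.Agent.P027M.B.Top

/-- `LEAFALG` with integral, distinct and generic base points -/
theorem leafalg2 (K : Type) [Field K] [NumberField K] (F : (𝓞 K)[X]) (b : Fin 3 → ℕ → 𝓞 K)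
    (x : ℤ⟦X⟧) (γ : Gam) (hF : F.natDegree = 7) (hb : ∀ j, b j 0 = 0) (hne : ∃ j n, b j n ≠ 0)
    (hx : ∃ n, n ≠ 0 ∧ PowerSeries.coeff n x ≠ 0) (han : AN γ (fun j n => (b j n : K)) x)
    (hcc : CC F b) :
    ∃ (K' : IntermediateField K (AlgebraicClosure K)) (M n0 : ℕ) (m0 : Fin 3 → ℤ) (s : Fin 3 → K')
      (m w : Fin 3 → K'⟦X⟧), FiniteDimensional K K' ∧ 0 < M ∧ Function.Injective m0 ∧
      (∀ k, s k ≠ 0) ∧ (∀ j, ∀ n < n0, b j n = 0) ∧
      (∀ a c, a ≠ c →
        b 2 n0 - ((m0 a : 𝓞 K) + m0 c) * b 1 n0 + (m0 a : 𝓞 K) * m0 c * b 0 n0 ≠ 0) ∧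
      Sol ((F.map (algebraMap (𝓞 K) K)).map (algebraMap K K')) (fun k => (m0 k : K')) s
        (fun j => PowerSeries.mk fun n => (M : K') * algebraMap K K' (b j n)) m w ∧
      ∀ k, IsAlgebraic (Algebra.adjoin K' {x.map (Int.castRingHom K')}) (m k) := by
  classical
  have hex : ∃ n, ∃ j, b j n ≠ 0 := by
    obtain ⟨j, n, h⟩ := hne
    exact ⟨n, j, h⟩
  have hF0 : F ≠ 0 := by
    rintro rfl
    simp at hF
  obtain ⟨m0, hi, hm, hg⟩ := choose hF0 (b0 := b 0 (Nat.find hex)) (b1 := b 1 (Nat.find hex))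
    (b2 := b 2 (Nat.find hex)) (by
      obtain ⟨j, hj⟩ := Nat.find_spec hex
      fin_cases j
      exacts [Or.inl hj, Or.inr (Or.inl hj), Or.inr (Or.inr hj)])
  have hn0 : ∀ j, ∀ n < Nat.find hex, b j n = 0 := fun j n hn => by
    by_contra h
    exact Nat.find_min hex hn ⟨j, h⟩
  choose t ht using fun k => IsAlgClosed.exists_pow_nat_eq
    (algebraMap K (AlgebraicClosure K) (F.eval (m0 k : 𝓞 K) : 𝓞 K)) (n := 2) (by norm_num)
  let K' : IntermediateField K (AlgebraicClosure K) := IntermediateField.adjoin K (Set.range t)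
  haveI : FiniteDimensional K K' :=
    IntermediateField.finiteDimensional_adjoin fun z _ => Algebra.IsIntegral.isIntegral z
  haveI : NumberField K' := NumberField.of_module_finite K K'
  let φ : 𝓞 K →+* 𝓞 K' := RingOfIntegers.mapRingHom (algebraMap K K')
  have hφ : Function.Injective φ := fun a c h =>
    RingOfIntegers.ext ((algebraMap K K').injective (congrArg (fun z : 𝓞 K' => (z : K')) h))
  let t' : Fin 3 → K' := fun k => ⟨t k, IntermediateField.subset_adjoin _ _ ⟨k, rfl⟩⟩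
  have ht' : ∀ k, t' k ^ 2 = (φ (F.eval (m0 k : 𝓞 K)) : 𝓞 K') := fun k => Subtype.ext (ht k)
  let s : Fin 3 → 𝓞 K' := fun k => ⟨t' k, IsIntegral.of_pow (n := 2) (by norm_num)
    (by rw [ht']; exact RingOfIntegers.isIntegral_coe _)⟩
  have hsq : ∀ k, s k ^ 2 = (F.map φ).eval (m0 k : 𝓞 K') := fun k => by
    rw [← map_intCast φ, eval_map_apply]
    exact RingOfIntegers.ext (ht' k)
  have hs : ∀ k, s k ≠ 0 := fun k h => by
    have := hsq k
    rw [h, ← map_intCast φ, eval_map_apply, zero_pow two_ne_zero] at this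
    exact hm k (hφ (by rw [← this, map_zero]))
  obtain ⟨M, m, w, hM, hS, halg⟩ := core (arith leaf pc bad tay_ok den) (ana Hol.hol)
    (cont (abel2 abel) uniq) (alg Hol.hol (gain Hol.hol)) K' (F.map φ) (fun j n => φ (b j n)) x γ
    m0 s (Nat.find hex) (by rw [natDegree_map_eq_of_injective hφ, hF])
    (fun j => by simp only [hb j, map_zero])
    (fun j n hn => by simp only [hn0 j n hn, map_zero]) hx
    ⟨han.1, fun σ j => han.2 (σ.comp (algebraMap K K')) j⟩ (ccmap _ _ φ F b hcc) hi hs hsq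
    (fun a c hac h => hg a c hac (hφ (by
      simp only [map_add, map_sub, map_mul, map_intCast, map_zero]
      exact h)))
  refine ⟨K', M, Nat.find hex, m0, fun k => (s k : K'), m, w, inferInstance, hM, hi,
    fun k h => hs k (RingOfIntegers.ext h), hn0, hg, ?_, halg⟩
  rw [Polynomial.map_map] at hS ⊢
  exact hS

theorem alg_map {L L' : Type} [Field L] [Field L'] (σ : L →+* L') {x y : L⟦X⟧}
    (h : IsAlgebraic (Algebra.adjoin L {x}) y) :
    IsAlgebraic (Algebra.adjoin L' {x.map σ}) (y.map σ) := by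
  have hm : ∀ z ∈ Algebra.adjoin L {x}, PowerSeries.map σ z ∈ Algebra.adjoin L' {x.map σ} :=
    fun z hz => by
      induction hz using Algebra.adjoin_induction with
      | mem z hz =>
        rw [Set.mem_singleton_iff.1 hz]
        exact Algebra.self_mem_adjoin_singleton _ _
      | algebraMap r =>
        rw [PowerSeries.algebraMap_apply, PowerSeries.map_C]
        exact Subalgebra.algebraMap_mem _ (σ r)
      | add _ _ _ _ i j =>
        rw [map_add]
        exact add_mem i j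
      | mul _ _ _ _ i j =>
        rw [map_mul]
        exact mul_mem i j
  let f : Algebra.adjoin L {x} →+* Algebra.adjoin L' {x.map σ} :=
    ((PowerSeries.map σ).comp (Algebra.adjoin L {x}).val.toRingHom).codRestrict _
      fun z => hm z z.2
  exact h.ringHom_of_comp_eq f (PowerSeries.map σ) (fun a c e => Subtype.ext
    (PowerSeries.map_injective σ σ.injective (congrArg Subtype.val e))) (RingHom.ext fun _ => rfl)

/-- the algebraic leaf over `ℂ` -/
theorem leafC (K : Type) [Field K] [NumberField K] (σ : K →+* ℂ) (F : (𝓞 K)[X])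
    (b : Fin 3 → ℕ → 𝓞 K) (x : ℤ⟦X⟧) (γ : Gam) (hF : F.natDegree = 7) (hb : ∀ j, b j 0 = 0)
    (hne : ∃ j n, b j n ≠ 0) (hx : ∃ n, n ≠ 0 ∧ PowerSeries.coeff n x ≠ 0)
    (han : AN γ (fun j n => (b j n : K)) x) (hcc : CC F b) :
    ∃ (M : ℕ) (m0 s : Fin 3 → ℂ) (u m w : Fin 3 → ℂ⟦X⟧), 0 < M ∧
      (∀ j, u j = PowerSeries.C (M : ℂ) * PowerSeries.mk fun n => σ (b j n) / n) ∧
      Function.Injective m0 ∧ (∀ k, s k ≠ 0) ∧ Gen m0 (fun j => th (u j)) ∧
      Sol (F.map (σ.comp (algebraMap (𝓞 K) K))) m0 s (fun j => th (u j)) m w ∧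
      ∀ k, IsAlgebraic (Algebra.adjoin ℂ {x.map (Int.castRingHom ℂ)}) (m k) := by
  obtain ⟨K', M, n0, m0, s, m, w, fd, hM, hi, hs, hn0, hg, hS, ha⟩ :=
    leafalg2 K F b x γ hF hb hne hx han hcc
  letI := σ.toAlgebra
  let σ' : K' →ₐ[K] ℂ := IsAlgClosed.lift
  have hσ : (σ' : K' →+* ℂ).comp (algebraMap K K') = σ := σ'.comp_algebraMap
  let φ : 𝓞 K →+* ℂ := σ.comp (algebraMap (𝓞 K) K)
  have hφ : Function.Injective φ := σ.injective.comp RingOfIntegers.coe_injective
  let u : Fin 3 → ℂ⟦X⟧ := fun j =>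
    PowerSeries.C (M : ℂ) * PowerSeries.mk fun n => σ (b j n) / n
  have hu : ∀ j n, PowerSeries.coeff n (th (u j)) = M * φ (b j n) := by
    intro j n
    rw [Uniq.coeff_th, PowerSeries.coeff_C_mul, PowerSeries.coeff_mk]
    rcases eq_or_ne n 0 with rfl | hn
    · rw [hb j]; simp
    · have : (n : ℂ) ≠ 0 := by exact_mod_cast hn
      show _ = M * σ (b j n)
      field_simp
  have hu' : (fun j => (PowerSeries.mk fun n => (M : K') * algebraMap K K' (b j n)).map
      (σ' : K' →+* ℂ)) = fun j => th (u j) := by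
    funext j
    ext n
    rw [hu, PowerSeries.coeff_map, PowerSeries.coeff_mk, map_mul, map_natCast]
    exact congrArg _ (σ'.commutes _)
  have hSσ := sol_map (σ' : K' →+* ℂ) hS hs
  rw [hu', Polynomial.map_map, Polynomial.map_map, hσ] at hSσ
  simp only [map_intCast] at hSσ
  refine ⟨M, fun k => (m0 k : ℂ), _, u, _, _, hM, fun _ => rfl,
    Int.cast_injective.comp hi, fun k => (_root_.map_ne_zero _).2 (hs k),
    ⟨n0, fun j n hn => by rw [hu, hn0 j n hn, map_zero, mul_zero], fun a c hac e => ?_⟩, hSσ,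
    fun k => ?_⟩
  · simp only [hu] at e
    refine hg a c hac (hφ (mul_left_cancel₀ (show (M : ℂ) ≠ 0 by exact_mod_cast hM.ne') ?_))
    simp only [map_add, map_sub, map_mul, map_intCast, map_zero]
    linear_combination e
  · have e : (x.map (Int.castRingHom K')).map (σ' : K' →+* ℂ) = x.map (Int.castRingHom ℂ) := by
      ext l
      simp
    rw [← e]
    exact alg_map _ (ha k)

theorem qq_lt_one (τ : UpperHalfPlane) : ‖qq τ‖ < 1 := by
  rw [qq, Complex.norm_exp, Real.exp_lt_one_iff]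
  have := mul_pos Real.pi_pos τ.im_pos
  simp
  linarith

theorem fin (h : FINA) : FIN := by
  intro K _ _ σ F b x γ0 G _ pt E Γ Φ hF hb hne hx han hcc hE hΓ hxi hui
  obtain ⟨M, m0, s, u, m, w, hM, hu, hi, hs, hg, hS, ha⟩ :=
    leafC K σ F b x γ0 hF hb hne hx han hcc
  have hφ : Function.Injective (σ.comp (algebraMap (𝓞 K) K)) :=
    σ.injective.comp RingOfIntegers.coe_injective
  have cv := fun j => Hol.mul (Hol.const 1 (M : ℂ)).1 (han.2 σ j).conv
  have one : ∀ γ ∈ Γ, ∃ n : ℕ, 0 < n ∧ E (n • Φ γ) = 0 := fun γ hγ => by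
    obtain ⟨n, n0, e⟩ := h _ G pt E m0 s u m w _ (fun τ => γ • τ) (M • Φ γ) hE
      (by rw [natDegree_map_eq_of_injective hφ, hF]) hi hs
      (fun j => by rw [hu]; exact (cv j).1)
      (fun j => by
        rw [hu, map_mul, ← PowerSeries.coeff_zero_eq_constantCoeff_apply (PowerSeries.mk _),
          PowerSeries.coeff_mk]
        simp) hg hS han.1.conv ha (MulAction.injective γ) (hxi γ hγ)
      (fun τ j => by
        rw [hu, (cv j).2 _ (qq_lt_one _), (cv j).2 _ (qq_lt_one _), hui γ hγ, (Hol.const 1 _).2,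
          (Hol.const 1 _).2, Pi.smul_apply, nsmul_eq_mul, mul_add])
    exact ⟨n * M, Nat.mul_pos n0 hM, by rw [mul_smul, e]⟩
  have add : ∀ γ ∈ Γ, ∀ δ ∈ Γ, Φ (γ * δ) = Φ γ + Φ δ := fun γ hγ δ hδ => funext fun j => by
    have e1 := hui _ (Γ.mul_mem hγ hδ) UpperHalfPlane.I j
    rw [mul_smul, hui γ hγ, hui δ hδ] at e1
    rw [Pi.add_apply]
    linear_combination -e1
  have zero : Φ 1 = 0 := by
    have := add 1 Γ.one_mem 1 Γ.one_mem
    rw [mul_one] at this
    exact left_eq_add.1 this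
  haveI : Group.FG SL(2, ℤ) :=
    Group.fg_iff.2 ⟨_, SpecialLinearGroup.SL2Z_generators, Set.toFinite _⟩
  obtain ⟨S, hS1, hS2⟩ := (Subgroup.fg_iff Γ).1 ((Group.fg_iff_subgroup_fg Γ).1 inferInstance)
  have mem : ∀ γ ∈ S, γ ∈ Γ := fun γ hγ => hS1 ▸ Subgroup.subset_closure hγ
  choose! n n0 hn using one
  refine ⟨∏ γ ∈ hS2.toFinset, n γ, Finset.prod_pos fun γ hγ => n0 γ (mem γ (by simpa using hγ)),
    fun γ hγ => ?_⟩
  rw [← hS1] at hγ
  induction hγ using Subgroup.closure_induction with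
  | mem γ hγ =>
    obtain ⟨c, hc⟩ := Finset.dvd_prod_of_mem n (hS2.mem_toFinset.2 hγ)
    rw [hc, mul_comm, mul_smul, map_nsmul, hn γ (mem γ hγ), smul_zero]
  | one => rw [zero, smul_zero, map_zero]
  | mul γ δ hγ hδ i j =>
    rw [hS1] at hγ hδ
    rw [add γ hγ δ hδ, smul_add, map_add, i, j, add_zero]
  | inv γ hγ i =>
    rw [hS1] at hγ
    have e := add γ hγ _ (Γ.inv_mem hγ)
    rw [mul_inv_cancel, zero] at e
    rw [eq_neg_of_add_eq_zero_right e.symm, smul_neg, map_neg, i, neg_zero]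

end Vale.Agent.P027M.X
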