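import Vale.Agent.P027M.X.MerDefs
import Vale.Agent.P027M.B.An
import Vale.Agent.P027M.B.Hol

/-! # P027, route M, block MON : the periods of an algebraic leaf are torsion -/

open Polynomial Filter
open scoped PowerSeries

noncomputable section

namespace Vale.Agent.P027M.X

open Vale.Agent.P027M.B

namespace Fina

theorem val_aeval (V : VALS) {x : ℂ⟦X⟧} (hx : Conv 1 x) {q : ℂ} (hq : ‖q‖ < 1) (f : ℂ[X]) :
    Val (aeval x f) q (f.eval (ev x q)) := by
  have h := An.raeval Hol.hol (φ := ev x) ⟨hx, fun _ _ => rfl⟩ f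
  have e := V.conv 1 _ q h.1 hq
  rwa [h.2 q hq] at e

theorem val_eval₂ (V : VALS) {x y : ℂ⟦X⟧} (hx : Conv 1 x) {q c : ℂ} (hq : ‖q‖ < 1)
    (hy : Val y q c) (P : ℂ[X][X]) : Val (P.eval₂ (aeval x : ℂ[X] →ₐ[ℂ] ℂ⟦X⟧) y) q
      ((P.map (evalRingHom (ev x q))).eval c) := by
  have pw : ∀ n : ℕ, Val (y ^ n) q (c ^ n) := fun n => by
    induction n with
    | zero => simpa using val_aeval V hx hq 1
    | succ n ih => simpa only [pow_succ] using V.mul _ _ _ _ _ ih hy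
  induction P using Polynomial.induction_on' with
  | add P Q hP hQ => simpa only [eval₂_add, Polynomial.map_add, eval_add] using V.add _ _ _ _ _ hP hQ
  | monomial n f =>
    rw [eval₂_monomial, Polynomial.map_monomial, eval_monomial]
    exact V.mul _ _ _ _ _ (val_aeval V hx hq f) (pw n)

theorem lift {x a : ℂ⟦X⟧} (h : IsAlgebraic (Algebra.adjoin ℂ {x}) a) : ∃ (P : ℂ[X][X]) (n : ℕ),
    aeval x (P.coeff n) ≠ 0 ∧ P.eval₂ (aeval x : ℂ[X] →ₐ[ℂ] ℂ⟦X⟧) a = 0 := by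
  obtain ⟨Q, Q0, hQ⟩ := h
  let φ : ℂ[X] →+* Algebra.adjoin ℂ {x} :=
    ((aeval x : ℂ[X] →ₐ[ℂ] ℂ⟦X⟧).codRestrict _ fun f => aeval_mem_adjoin_singleton ℂ x : _ →ₐ[ℂ] _)
  have s : Function.Surjective φ := fun b => by
    obtain ⟨f, hf⟩ := Algebra.adjoin_eq_exists_aeval ℂ x b
    exact ⟨f, Subtype.ext hf⟩
  obtain ⟨P, rfl⟩ := map_surjective φ s Q
  refine ⟨P, (P.map φ).natDegree, fun e => leadingCoeff_ne_zero.2 Q0 ?_, ?_⟩
  · rw [leadingCoeff, coeff_map]
    exact Subtype.ext e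
  · rw [aeval_def, eval₂_map] at hQ
    exact hQ

theorem coeff_mem {B : Type*} [CommRing B] (T : Subring B) {m : Fin 3 → B} (hm : ∀ k, m k ∈ T)
    (i : ℕ) : (∏ k, (X - C (m k))).coeff i ∈ T := by
  have e : ∏ k, (X - C (m k)) = (∏ k, (X - C (⟨m k, hm k⟩ : T))).map T.subtype := by
    rw [Polynomial.map_prod]
    simp
  rw [e, coeff_map]
  exact SetLike.coe_mem _

theorem orbit {p : ℂ → Prop} (h : ∀ᶠ q in cc, p q) {g : UpperHalfPlane → UpperHalfPlane}
    (hg : Function.Injective g) :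
    ∃ τ : UpperHalfPlane, ∀ j : ℕ, p (qq (g^[j] τ : UpperHalfPlane)) := by
  have h1 : {q : ℂ | q ∈ Metric.ball (0 : ℂ) 1 → p q}ᶜ.Countable :=
    mem_cocountable.1 (mem_inf_principal.1 h)
  have h2 := h1.preimage_cexp.preimage (f := fun z : ℂ => 2 * Real.pi * Complex.I * z)
    (mul_right_injective₀ Complex.two_pi_I_ne_zero)
  have h3 := Set.countable_iUnion fun j : ℕ =>
    (h2.preimage UpperHalfPlane.coe_injective).preimage (hg.iterate j)
  have u : Uncountable UpperHalfPlane := Function.Injective.uncountable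
    (f := fun t : ℝ => (⟨t + Complex.I, by simp⟩ : UpperHalfPlane)) fun a b e => by
      simpa using congrArg (fun z : UpperHalfPlane => (z : ℂ).re) e
  by_contra c
  refine Set.not_countable_univ (h3.mono fun τ _ => ?_)
  obtain ⟨j, hj⟩ := not_forall.1 fun e => c ⟨τ, e⟩
  exact Set.mem_iUnion.2 ⟨j, fun e => hj (e (mem_ball_zero_iff.2
    (UpperHalfPlane.norm_exp_two_pi_I_lt_one _)))⟩

theorem pigeon (F : ℂ[X]) (Q : Fin 4 → ℂ[X]) (hQ : ∀ i, Q i ≠ 0) (μ σ : ℕ → Fin 3 → ℂ)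
    (h1 : ∀ j k, σ j k ^ 2 = F.eval (μ j k))
    (h2 : ∀ j (i : Fin 4), (Q i).eval ((∏ k, (X - C (μ j k))).coeff i) = 0) :
    ∃ a b, a < b ∧ μ a = μ b ∧ σ a = σ b := by
  classical
  have f1 : (insert 0 (⋃ i, ((Q i).roots.toFinset : Set ℂ))).Finite :=
    (Set.finite_iUnion fun i => Finset.finite_toSet _).insert 0
  have f2 := bUnion_roots_finite (RingHom.id ℂ) 3 f1
  have f3 := f2.biUnion (t := fun z => ((X ^ 2 - C (F.eval z)).roots.toFinset : Set ℂ))
    fun z _ => Finset.finite_toSet _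
  have f4 := (Set.Finite.pi' fun _ : Fin 3 => f2).prod (Set.Finite.pi' fun _ : Fin 3 => f3)
  have m : ∀ j k, μ j k ∈ ⋃ (f : ℂ[X]) (_ : f.natDegree ≤ 3 ∧
      ∀ i, f.coeff i ∈ insert 0 (⋃ i, ((Q i).roots.toFinset : Set ℂ))),
      ((f.map (RingHom.id ℂ)).roots.toFinset : Set ℂ) := fun j k => by
    have mo : (∏ k, (X - C (μ j k))).Monic := monic_prod_of_monic _ _ fun k _ => monic_X_sub_C _
    have d : (∏ k, (X - C (μ j k))).natDegree ≤ 3 := by
      rw [natDegree_prod_of_monic _ _ fun k _ => monic_X_sub_C _]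
      simp
    refine Set.mem_iUnion₂.2 ⟨∏ k, (X - C (μ j k)), ⟨d, fun i => ?_⟩, ?_⟩
    · by_cases e : i < 4
      · refine Or.inr (Set.mem_iUnion.2 ⟨⟨i, e⟩, ?_⟩)
        exact Multiset.mem_toFinset.2 ((mem_roots (hQ _)).2 (h2 j ⟨i, e⟩))
      · exact Or.inl (coeff_eq_zero_of_natDegree_lt (by omega))
    · rw [Polynomial.map_id]
      refine Multiset.mem_toFinset.2 ((mem_roots mo.ne_zero).2 ?_)
      rw [IsRoot, eval_prod]
      exact Finset.prod_eq_zero (Finset.mem_univ k) (by simp)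
  obtain ⟨a, b, l, e⟩ := Set.Finite.exists_lt_map_eq_of_forall_mem (f := fun j => (μ j, σ j))
    (by
      refine fun j => ⟨m j, fun k => Set.mem_iUnion₂.2 ⟨μ j k, m j k, Multiset.mem_toFinset.2
        ((mem_roots (X_pow_sub_C_ne_zero two_pos _)).2 ?_)⟩⟩
      simp [h1 j k]) f4
  exact ⟨a, b, l, congrArg Prod.fst e, congrArg Prod.snd e⟩

end Fina

open Fina in
theorem fina (V : VALS) (hM : MER) : FINA := by
  intro F G _ pt E m0 s u m w x g φ hE hF hm hs hu u0 hG hS hx ha hg gx gu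
  obtain ⟨W, r1, -, -, r2⟩ := hM F G pt E m0 s u m w hE hF hm hs hu u0 hG hS
  choose P n P0 P1 using fun i : Fin 4 => lift (x := x)
    (coeff_mem (Subalgebra.algebraicClosure (Algebra.adjoin ℂ {x}) ℂ⟦X⟧).toSubring ha i)
  have r3 : ∀ᶠ q in cc, ∀ i : Fin 4, Reg ((∏ k, (X - C (m k))).coeff i) q ∧
      val (aeval x ((P i).coeff (n i))) q ≠ 0 := eventually_all.2 fun i =>
    (V.reg _ (r1 i)).and (V.nz _ (V.mrc _
      (An.raeval Hol.hol (φ := ev x) ⟨hx, fun _ _ => rfl⟩ _).1) (P0 i))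
  obtain ⟨τ, hτ⟩ := orbit (r2.and r3) hg
  have q1 : ∀ z : UpperHalfPlane, ‖qq z‖ < 1 := UpperHalfPlane.norm_exp_two_pi_I_lt_one
  have ex : ∀ j : ℕ, ev x (qq (g^[j] τ : UpperHalfPlane)) = ev x (qq τ) := fun j => by
    induction j with
    | zero => rfl
    | succ j ih => rw [Function.iterate_succ_apply', gx, ih]
  have eu : ∀ j : ℕ, (fun i => ev (u i) (qq (g^[j] τ : UpperHalfPlane))) =
      (fun i => ev (u i) (qq τ)) + j • φ := fun j => by
    induction j with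
    | zero => simp
    | succ j ih =>
      rw [succ_nsmul, ← add_assoc, ← ih, Function.iterate_succ_apply']
      exact funext fun i => gu _ i
  choose μ σ _ h1 h2 _ h3 using fun j => (hτ j).1
  obtain ⟨a, b, l, e1, e2⟩ := pigeon F (fun i => (P i).map (evalRingHom (ev x (qq τ))))
    (fun i e => ((hτ 0).2 i).2 (by
      have e3 := congrArg (fun f => f.coeff (n i)) e
      simp only [coeff_map, coeff_zero] at e3
      exact (V.uniq _ _ _ (val_aeval V hx (q1 τ) _)).trans e3)) μ σ (fun j k => (h1 j k).2)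
    fun j i => by
      have e3 := val_eval₂ V hx (q1 _) ((hτ j).2 i).1 (P i)
      rw [P1, ex, h2] at e3
      have e4 := val_aeval V hx (q1 (g^[j] τ)) 0
      rw [map_zero, eval_zero] at e4
      exact (V.uniq _ _ _ e3).symm.trans (V.uniq _ _ _ e4)
  refine ⟨b - a, Nat.sub_pos_of_lt l, ?_⟩
  have e3 := (h3 a).symm.trans (e1 ▸ e2 ▸ h3 b)
  rw [eu, eu, map_add, map_add, add_right_inj] at e3
  rw [sub_nsmul _ l.le, map_add, map_neg, e3, add_neg_cancel]

end Vale.Agent.P027M.X
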