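import Vale.Agent.P027M.X.Mer
import Vale.Agent.P027M.X.Fina
import Vale.Agent.P027M.X.Fin

/-! # P027, route M, block MON : `FIN` as a closed term -/

namespace Vale.Agent.P027M.X

theorem finac : FINA := fina vals mer

theorem finc : FIN := fin finac

end Vale.Agent.P027M.X
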