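import Mathlib

/-! # P027, route M : the Gaussian field as a number field with a complex embedding -/

set_option linter.all false

open NumberField
open scoped IntermediateField

namespace Vale.Agent.P027M.X

theorem kgi : ∃ (K : Type) (_ : Field K) (_ : NumberField K) (σ : K →+* ℂ)
    (φ : GaussianInt →+* 𝓞 K), ∀ z, σ (φ z : K) = (z : ℂ) := by
  have hI : IsIntegral ℤ Complex.I := IsIntegral.of_pow (n := 2) (by norm_num)
    (by rw [Complex.I_sq]; exact isIntegral_one.neg)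
  haveI : FiniteDimensional ℚ ℚ⟮Complex.I⟯ :=
    IntermediateField.adjoin.finiteDimensional hI.tower_top
  haveI : NumberField ℚ⟮Complex.I⟯ := ⟨⟩
  let i0 : ℚ⟮Complex.I⟯ := ⟨Complex.I, IntermediateField.mem_adjoin_simple_self _ _⟩
  have h0 : i0 ^ 2 = -1 := Subtype.ext Complex.I_sq
  let i : 𝓞 ℚ⟮Complex.I⟯ := ⟨i0, IsIntegral.of_pow (n := 2) (by norm_num)
    (by rw [h0]; exact isIntegral_one.neg)⟩
  have hi : i * i = ((-1 : ℤ) : 𝓞 ℚ⟮Complex.I⟯) := by
    rw [← sq, Int.cast_neg, Int.cast_one]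
    exact RingOfIntegers.ext h0
  refine ⟨ℚ⟮Complex.I⟯, inferInstance, inferInstance, algebraMap _ ℂ, Zsqrtd.lift ⟨i, hi⟩,
    fun z => ?_⟩
  rw [GaussianInt.toComplex_def, Zsqrtd.lift_apply_apply]
  simp only [map_add, map_mul, map_intCast]
  rfl

end Vale.Agent.P027M.X
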