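import Vale.Agent.P027M.X.Top2
import Vale.Agent.P027M.X.FinAll
import Vale.Agent.P027M.X.Sep
import Vale.Agent.P027M.X.Kgi
import Vale.Agent.P027M.B.Cc

/-! # P027, route M, row X.FINB -/

set_option linter.all false

open Polynomial UpperHalfPlane NumberField
open scoped PowerSeries MatrixGroups ComplexConjugate

noncomputable section

namespace Vale.Agent.P027M.X

namespace Fb

theorem ser (l0 l1 l2 : GaussianInt) (c : ℕ → GaussianInt) (j : Fin 3) :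
    (PowerSeries.mk fun n => (B.hb l0 l1 l2 c j n : ℂ) / n) =
      PowerSeries.C (![(l0 : ℂ), l1, l2] j) * ![U1 c, U3 c, U1 c] j := by
  ext n
  rw [PowerSeries.coeff_C_mul, PowerSeries.coeff_mk, B.hb]
  by_cases h1 : n % 4 = 1
  · fin_cases j <;> simp [U1, U3, B3.cf, h1, mul_div_assoc]
  · by_cases h3 : n % 4 = 3
    · fin_cases j <;> simp [U1, U3, B3.cf, h3, mul_div_assoc]
    · fin_cases j <;> simp [U1, U3, B3.cf, h1, h3]

theorem conv {Γ c η} (h : Md1 Γ c η) (j : Fin 3) : B.Conv 1 (![U1 c, U3 c, U1 c] j) := by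
  fin_cases j
  exacts [h.cu.1, h.cu.2, h.cu.1]

theorem per {Γ c η} (h : Md1 Γ c η) (l0 l1 l2 : GaussianInt) {γ : SL(2, ℤ)} (hγ : γ ∈ Γ) (τ : ℍ)
    (j : Fin 3) :
    B.ev (PowerSeries.mk fun n => (B.hb l0 l1 l2 c j n : ℂ) / n) (B.qq (γ • τ : ℍ)) =
      B.ev (PowerSeries.mk fun n => (B.hb l0 l1 l2 c j n : ℂ) / n) (B.qq τ) +
        ![l0 * p1 c γ, l1 * p3 c γ, l2 * p1 c γ] j := by
  have cv := B.Hol.mul (B.Hol.const 1 (![(l0 : ℂ), l1, l2] j)).1 (conv h j)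
  rw [ser, cv.2 _ (qq_lt_one _), cv.2 _ (qq_lt_one _), (B.Hol.const 1 _).2, (B.Hol.const 1 _).2]
  have e := h.per γ hγ τ
  fin_cases j
  · exact (congrArg ((l0 : ℂ) * ·) e.1).trans (mul_add _ _ _)
  · exact (congrArg ((l1 : ℂ) * ·) e.2).trans (mul_add _ _ _)
  · exact (congrArg ((l2 : ℂ) * ·) e.1).trans (mul_add _ _ _)

theorem PP_one (l0 l1 l2 : GaussianInt) (c : ℕ → GaussianInt) (γ : SL(2, ℤ)) :
    PP l0 l1 l2 c 1 γ = ![l0 * p1 c γ, l1 * p3 c γ, l2 * p1 c γ] := by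
  funext j
  fin_cases j <;> simp [PP, tw]

/-- the data over the number field `ℚ(i)` -/
theorem pre {g N e c F0 T0 l0 l1 l2 ν Γ η x γ0 E}
    (h : St g N e c F0 T0 l0 l1 l2 ν Γ η x γ0 E) :
    ∃ (K : Type) (_ : Field K) (_ : NumberField K) (σ : K →+* ℂ) (F : (𝓞 K)[X])
      (b : Fin 3 → ℕ → 𝓞 K), F.natDegree = 7 ∧ (∀ j, b j 0 = 0) ∧ (∃ j n, b j n ≠ 0) ∧
      (∃ n, n ≠ 0 ∧ PowerSeries.coeff n x ≠ 0) ∧ B.AN γ0 (fun j n => (b j n : K)) x ∧ B.CC F b ∧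
      F.map (σ.comp (algebraMap (𝓞 K) K)) = fG (g : ℂ) (T0 : ℂ) ∧
      ∀ j n, σ (b j n) = (B.hb l0 l1 l2 c j n : ℂ) := by
  obtain ⟨K, _, _, σ, φ, hφ⟩ := kgi
  have hc : (σ.comp (algebraMap (𝓞 K) K)).comp φ = GaussianInt.toComplex := RingHom.ext hφ
  have hF : (F0.map φ).map (σ.comp (algebraMap (𝓞 K) K)) = fG (g : ℂ) (T0 : ℂ) := by
    rw [Polynomial.map_map, hc, h.dt.hF]
  have hi : Function.Injective (σ.comp (algebraMap (𝓞 K) K)) :=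
    σ.injective.comp RingOfIntegers.coe_injective
  refine ⟨K, inferInstance, inferInstance, σ, F0.map φ, fun j n => φ (B.hb l0 l1 l2 c j n), ?_,
    fun j => by simp [B.hb], ⟨0, 1, fun e0 => h.dt.hl0 ?_⟩,
    ⟨1, one_ne_zero, by rw [h.m2.x1]; exact one_ne_zero⟩,
    h.m2.an l0 l1 l2 K ((algebraMap (𝓞 K) K).comp φ), B.ccmap _ _ φ _ _ h.dt.cc, hF,
    fun j n => hφ _⟩
  · rw [← natDegree_map_eq_of_injective hi, hF]
    exact (sep ℂ _ _ h.rg).1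
  · have e1 := hφ (B.hb l0 l1 l2 c 0 1)
    rw [show φ _ = 0 from e0] at e1
    simpa [B.hb, h.dt.form.one] using e1.symm

end Fb

theorem finb : FINB := by
  intro g N e c F0 T0 l0 l1 l2 ν Γ η x γ0 E h
  obtain ⟨K, _, _, σ, F, b, h1, h2, h3, h4, h5, h6, h7, h8⟩ := Fb.pre h
  refine finc K σ F b x γ0 _ (fun m w => cl _ (m, w)) E Γ _ h1 h2 h3 h4 h5 h6
    (by rw [h7]; exact h.exp) h.m1.fi h.m2.xinv fun γ hγ τ j => ?_
  simp only [h8, Fb.PP_one]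
  exact Fb.per h.m1 l0 l1 l2 hγ τ j

end Vale.Agent.P027M.X

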