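import Vale.Agent.P027M.X.Top
import Vale.Agent.P027M.B3.Prim
import Vale.Agent.P027M.B3.Serd
import Vale.Agent.P027M.ES.Defs

/-! # P027, route M : row MD1, the periods of the depleted form -/

set_option linter.all false

open UpperHalfPlane
open scoped PowerSeries MatrixGroups ComplexConjugate ModularForm

noncomputable section

namespace Vale.Agent.P027M.X

open Vale.Agent.P022.H218.L3 Vale.Agent.P027M.B3

namespace Md1p

/-- the units which are `± 1` modulo `M` -/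
def HM {M L : ℕ} (h : M ∣ L) : Subgroup (ZMod L)ˣ :=
  (Subgroup.zpowers (-1 : (ZMod M)ˣ)).comap (ZMod.unitsMap h)

theorem mem_HM {M L : ℕ} (h : M ∣ L) {u : (ZMod L)ˣ} :
    u ∈ HM h ↔ ZMod.unitsMap h u = 1 ∨ ZMod.unitsMap h u = -1 := by
  rw [HM, Subgroup.mem_comap]
  constructor
  · rintro ⟨k, hk⟩
    rw [← hk]
    exact Int.even_or_odd k |>.imp (fun e => e.neg_one_zpow) fun e => e.neg_one_zpow
  · rintro (e | e) <;> rw [e]
    exacts [one_mem _, Subgroup.mem_zpowers _]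

theorem neg_HM {M L : ℕ} (h : M ∣ L) : -1 ∈ HM h :=
  (mem_HM h).2 (Or.inr (Units.ext (by simp [ZMod.unitsMap_def])))

theorem lvl {M L : ℕ} (h : M ∣ L) (hL : L = 4 * M) (h0 : 0 < M) (h4 : 4 ∣ M) :
    Lvl M (P027M.M.GH L (HM h)) := by
  refine ⟨h0, h4, fun γ => ?_⟩
  have e0 : (4 * M : ℤ) = (L : ℕ) := by rw [hL]; push_cast; rfl
  have key : ∀ u : (ZMod L)ˣ, (u : ZMod L) = ((γ 1 1 : ℤ) : ZMod L) →
      (u ∈ HM h ↔ (M : ℤ) ∣ γ 1 1 - 1 ∨ (M : ℤ) ∣ γ 1 1 + 1) := fun u hu => by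
    have e : ((ZMod.unitsMap h u : (ZMod M)ˣ) : ZMod M) = ((γ 1 1 : ℤ) : ZMod M) := by
      rw [ZMod.unitsMap_def, Units.coe_map, MonoidHom.coe_coe, hu, map_intCast]
    rw [mem_HM, Units.ext_iff, Units.ext_iff, e, ← ZMod.intCast_zmod_eq_zero_iff_dvd,
      ← ZMod.intCast_zmod_eq_zero_iff_dvd]
    push_cast
    rw [sub_eq_zero, add_eq_zero_iff_eq_neg]
  rw [P027M.M.mem_GH, e0]
  refine and_congr_right fun hc => ⟨fun ⟨u, hu, e⟩ => (key u e).1 hu, fun hd => ?_⟩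
  have e1 : ((γ 1 1 : ℤ) : ZMod L) * ((γ 0 0 : ℤ) : ZMod L) = 1 := by
    have e2 := congrArg (Int.cast : ℤ → ZMod L) (sl_det γ)
    rw [Int.cast_sub, Int.cast_mul, Int.cast_mul, (ZMod.intCast_zmod_eq_zero_iff_dvd _ L).2 hc,
      mul_zero, sub_zero, Int.cast_one, mul_comm] at e2
    exact e2
  exact ⟨Units.mkOfMulEqOne _ _ e1, (key _ rfl).2 hd, rfl⟩

theorem escp (hO : ES.ONTO) {N : ℕ} {Γ : Subgroup SL(2, ℤ)} [Γ.FiniteIndex] (h : M.Mid N Γ) :
    ESCP Γ := by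
  intro φ hφ
  obtain ⟨f, g, F, G, hf, hg, hF, hG, e⟩ := hO N Γ h φ hφ
  refine ⟨F ∘ ofComplex, G ∘ ofComplex, (prim Γ f _ _ hf hF).1, (prim Γ g _ _ hg.1 hG).2 hg.2,
    fun γ hγ => ?_⟩
  have e1 : mob γ Complex.I = ((γ • UpperHalfPlane.I : ℍ) : ℂ) := mob_smul γ UpperHalfPlane.I
  have e2 : ofComplex Complex.I = UpperHalfPlane.I := ofComplex_apply UpperHalfPlane.I
  rw [e γ hγ UpperHalfPlane.I, ES.per, pd, pd, e1]
  simp only [Function.comp, ofComplex_apply, e2]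

theorem const_of {u : ℂ → ℂ} (hu : ∀ τ : ℍ, HasDerivAt u 0 (τ : ℂ)) {z : ℂ} (hz : 0 < z.im) :
    u z = u Complex.I := by
  have h := Prim.mvt (g := fun _ => 0) (M := 0) (A := 0) hu (fun _ _ => by simp) hz hz.le
    (w := Complex.I) (by simp) (by simp)
  rwa [zero_mul, norm_le_zero_iff, sub_eq_zero] at h

theorem norm_le {e : GaussianInt} (h : e ^ 4 = 1) : ‖(e : ℂ)‖ ≤ 1 := by
  have h1 : ‖(e : ℂ)‖ ^ 4 = 1 := by
    rw [← norm_pow, ← map_pow GaussianInt.toComplex, h, map_one, norm_one]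
  exact ((pow_eq_one_iff_of_nonneg (norm_nonneg _) (by norm_num)).1 h1).le

theorem eig {N M L : ℕ} {Γ : Subgroup SL(2, ℤ)} [Γ.FiniteIndex] {e : ℤ → GaussianInt}
    {c : ℕ → GaussianInt} (hl : Lvl M Γ) (hL : L = 4 * M) (hN : N ∣ M) (he : Fo.Chr N e)
    (h : Fo.FormS L e c) :
    Eig M Γ (fun n => e n) (fun n => c n) (fun n => c n) := by
  have e0 : (4 * M : ℤ) = (L : ℕ) := by rw [hL]; push_cast; rfl
  have hp : ∀ p : ℕ, p.Prime → ¬ p ∣ M → ¬ p ∣ L := fun p hp k k' => k (by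
    rw [hL] at k'
    rcases hp.dvd_mul.1 k' with a | a
    exacts [a.trans hl.four, a])
  have he1 : ∀ γ ∈ Γ, e (γ 1 1) = 1 := fun γ hγ => by
    rcases ((hl.mem γ).1 hγ).2 with a | a
    · rw [he.per _ 1 ((Int.natCast_dvd_natCast.2 hN).trans a), he.one]
    · rw [he.per _ (-1) ((Int.natCast_dvd_natCast.2 hN).trans (by rwa [sub_neg_eq_add])), he.neg]
  have key : ∀ s : Bool, ∃ f, Fo.Cusp L (fun d => (e d : ℂ)) f ∧
      B.Conv 1 (PowerSeries.mk (cf (fun n => (c n : ℂ)) s)) ∧ ∀ τ : ℍ,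
      HasDerivAt (GG (fun n => (c n : ℂ)) s) (2 * Real.pi * Complex.I * f τ) (τ : ℂ) := by
    intro s
    obtain ⟨f, hf, hx⟩ : Fo.Sq L (fun d => (e d : ℂ))
        fun n => if n % 4 = (if s then 1 else 3) then (c n : ℂ) else 0 := by
      cases s
      exacts [h.g3, h.g1]
    have h1 := serd f (fun n => if n % 4 = (if s then 1 else 3) then (c n : ℂ) else 0)
      (by cases s <;> simp) fun τ => by
        rw [Serd.qq_eq]
        exact hx τ
    have h2 : (fun n : ℕ => (if n % 4 = (if s then 1 else 3) then (c n : ℂ) else 0) / n) =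
        cf (fun n => (c n : ℂ)) s := funext fun n => by
      rw [cf, ite_div, zero_div]
    rw [h2] at h1
    exact ⟨f, hf, h1⟩
  refine ⟨by rw [h.one, map_one], fun p hp k m => ?_, fun p hp' k m => ?_, fun p hp' k => ?_,
    fun s => (key s).choose_spec.2.1, fun s => ?_, fun p hp' k δ hδ hd s => ?_⟩
  · rw [h.dep _ fun a => hp.ne_one (Nat.eq_one_of_dvd_coprimes a (dvd_mul_right p m)
      (hL ▸ k.mul_left 4)), map_zero]
  · have h1 := congrArg GaussianInt.toComplex (h.hec p hp' (hp p hp' k) m)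
    rw [mul_comm p m]
    split_ifs at h1 ⊢ <;> simpa [map_ofNat] using h1
  · exact norm_le (he.four p (Nat.isCoprime_iff_coprime.2
      ((Nat.Prime.coprime_iff_not_dvd hp').2 fun a => k (a.trans hN))))
  · obtain ⟨f, hf, -, hd⟩ := key s
    refine (prim Γ f _ _ ⟨hf.hol, fun γ hγ => ?_, fun γ => (hf.zer γ).isBoundedAtImInfty⟩ hd).2 hf.zer
    rw [hf.law γ (e0 ▸ ((hl.mem γ).1 hγ).1), he1 γ hγ, map_one, one_smul]
  · obtain ⟨f, hf, -, hD⟩ := key s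
    refine ⟨_, fun z hz => sub_eq_iff_eq_add'.1 (const_of (u := fun z =>
      GG (fun n => (c n : ℂ)) s (mob δ z) - (e p : ℂ) * GG (fun n => (c n : ℂ)) s z)
      (fun τ => ?_) hz)⟩
    have h1 := (Prim.der hD δ τ).sub ((hD τ).const_mul (e p : ℂ))
    rw [hf.law δ (e0 ▸ hδ), hd] at h1
    refine h1.congr_deriv ?_
    simp only [Pi.smul_apply, smul_eq_mul]
    ring

end Md1p

open Md1p in
theorem md1 (hG : M.GRP) (hO : ES.ONTO) (h1 : LOWB) (h2 : SPAN) (h3 : RST) (h4 : IDX) (h5 : REFL) :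
    MD1 := by
  obtain ⟨C, κ, h1⟩ := h1
  refine ⟨|C|, 3 * κ, fun N e c hN he h h11 => ?_⟩
  obtain ⟨n, hn⟩ := hN.four
  have hL : N ^ 3 = 4 * (N * (N * n)) := by
    conv_lhs => rw [pow_succ, sq, mul_assoc]
    nth_rewrite 3 [hn]
    ring
  have hd : N * (N * n) ∣ N ^ 3 := hL ▸ dvd_mul_left _ _
  have hn0 : 0 < n := Nat.pos_of_ne_zero fun e => hN.pos.ne' (by rw [hn, e])
  have hl := lvl hd hL (Nat.mul_pos hN.pos (Nat.mul_pos hN.pos hn0)) (hN.four.mul_right _)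
  obtain ⟨hfi, -, -, -, hT⟩ := h4 _ _ hl
  have hE := eig hl hL (dvd_mul_right _ _) he h
  have hE' := h5 _ _ _ _ _ hl hE
  have hc : ((c 11 : GaussianInt) : ℂ) ≠ 0 := GaussianInt.toComplex_eq_zero.not.2 h11
  have hLv : M.Lv (N ^ 3) := ⟨pow_pos hN.pos 3, hN.four.trans (dvd_pow_self N (by norm_num))⟩
  have hmid := ((hG _ hLv).2.2.2.2.2.2.2 (HM hd)).2.1 (neg_HM hd)
  refine ⟨HM hd, neg_HM hd, fun γ hγ => ?_, hfi, hT, ⟨hE.conv true, hE'.conv false⟩,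
    fun γ hγ τ => ?_, h3 _ _ _ _ _ hl hE, h2 _ _ _ _ _ hl hE hc, fun γ hγ hne => ?_⟩
  · rcases ((hl.mem γ).1 hγ).2 with a | a
    · rw [he.per _ 1 ((Int.natCast_dvd_natCast.2 (dvd_mul_right _ _)).trans a), he.one]
    · rw [he.per _ (-1) ((Int.natCast_dvd_natCast.2 (dvd_mul_right _ _)).trans
        (by rwa [sub_neg_eq_add])), he.neg]
  · rw [← mob_smul]
    exact ⟨(hE.cp true).per γ hγ τ τ.im_pos, (hE'.cp false).per γ hγ τ τ.im_pos⟩
  · refine le_trans (Real.exp_le_exp.2 (neg_le_neg ?_))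
      (h1 _ _ (fun n => e n) c c hl (escp hO hmid) hE h11 γ hγ hne)
    have h6 : ((N * (N * n) : ℕ) : ℝ) ≤ (N : ℝ) ^ 3 := by
      exact_mod_cast Nat.le_of_dvd (pow_pos hN.pos 3) hd
    rw [pow_mul]
    exact mul_le_mul (le_abs_self C) (pow_le_pow_left₀ (Nat.cast_nonneg _) h6 κ) (by positivity)
      (abs_nonneg C)

end Vale.Agent.P027M.X
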