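import Vale.Agent.P022.H236.L3.Exm
import Vale.Agent.P022.H218.L3.Deg
import Vale.Agent.P022.H29.L3.Wr

/-! # P027, route M, row X.MD2, file 1: degree of transcendence, quotients of differentials -/

set_option linter.all false

open UpperHalfPlane Filter
open scoped PowerSeries MatrixGroups IntermediateField ModularForm Manifold Derivative

noncomputable section

namespace Vale.Agent.P027M.X.Md

open Vale.Agent.P022 Vale.Agent.P022.H218.L3 Vale.Agent.P022.H236.L3 Vale.Agent.P022.H542.L3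

theorem abs_alg {k M : Type} [Field k] [Field M] [Algebra k M] (F : IntermediateField k M) (j : F)
    (h : ∀ z : F, IsAlgebraic k⟮(j : M)⟯ (z : M)) (x : F) (hx : Transcendental k x) :
    Algebra.IsAlgebraic k⟮x⟯ F := by
  have e : IntermediateField.lift k⟮j⟯ = k⟮(j : M)⟯ := IntermediateField.lift_adjoin_simple _ _ _
  have h1 : Algebra.IsAlgebraic k⟮j⟯ F := ⟨fun z => by
    have h2 := h z
    rw [← e] at h2
    exact h2.of_ringHom_of_comp_eq (IntermediateField.liftAlgEquiv k⟮j⟯) F.val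
      (IntermediateField.liftAlgEquiv k⟮j⟯).surjective Subtype.val_injective rfl⟩
  have h3 := IntermediateField.isAlgebraic_adjoin_iff_top.1 h1
  have h4 : Algebra.trdeg k F ≤ Cardinal.mk ({j} : Set F) :=
    Algebra.IsAlgebraic.trdeg_le_cardinalMk k _
  have hai : AlgebraicIndependent k (fun _ : Unit => x) :=
    algebraicIndependent_unique_type_iff.2 hx
  have hb := hai.isTranscendenceBasis_of_trdeg_le_of_finite (by simpa using h4)
  have h5 := hb.isAlgebraic_field
  rwa [Set.range_const] at h5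

theorem alg_nc (Γ : Subgroup SL(2, ℤ)) [Γ.FiniteIndex] (x : MF Γ)
    (hx : ∀ c : ℂ, (x : Mer) ≠ algebraMap ℂ Mer c) : Algebra.IsAlgebraic ℂ⟮x⟯ (MF Γ) := by
  refine abs_alg (MF Γ) ⟨jM, MF_mono le_top jM_mem⟩ (fun z => ?_) x fun ha => ?_
  · obtain ⟨P, h1, -, h2⟩ := exists_monic Γ z.2
    show IsAlgebraic ℂ⟮jM⟯ (z : Mer)
    rw [← MF_top]
    exact ⟨P, h1.ne_zero, h2⟩
  · obtain ⟨a, e⟩ := minpoly.mem_range_of_degree_eq_one _ _
      (IsAlgClosed.degree_eq_one_of_irreducible ℂ (minpoly.irreducible ha.isIntegral))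
    exact hx a (congrArg Subtype.val e).symm

/-- an everywhere convergent expansion is an expansion -/
theorem exL_of {F : ℂ⟦X⟧} {f : ℍ → ℂ} (h : H29.L3.Ex (fun n => PowerSeries.coeff n F) f) :
    ExL 1 (F : LS) f := by
  refine ⟨0, F, ?_, Eventually.of_forall fun τ => ?_⟩
  · rw [ls]
    exact (one_mul _).symm
  · have := h τ
    rw [neg_zero, zpow_zero, mul_one, Nat.cast_one]
    exact this

theorem D_mul {y h : ℍ → ℂ} (hy : y ∈ Hol) (hh : h ∈ Hol) :
    H29.L3.wr h (y * h) = D y * (h * h) := by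
  rw [H29.L3.wr, Derivative.normalizedDerivOfComplex_mul y h hy hh]
  ring

/-- the quotient of a form of weight two by the derivative of a modular function -/
theorem quo {Γ : Subgroup SL(2, ℤ)} {f y : ℍ → ℂ} (hf : IsMF Γ 2 f) (hy : y ∈ Hol)
    (hm : inc y hy ∈ MF Γ) (h0 : D y ≠ 0) :
    inc f hf.hol / inc (D y) (H29.L3.D_mem hy) ∈ MF Γ := by
  obtain ⟨k, g, h, hg, hh, n0, e⟩ := hm
  rw [eq_div_iff (inc_ne_zero _ n0), ← inc_mul] at e
  have e1 : y * h = g := inc_injective _ _ e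
  have hw := H29.L3.IsMF.wr hh hg
  rw [← e1, D_mul hy hh.hol] at hw
  have h2 := hf.mul (hh.mul hh)
  rw [show 2 + (k + k) = 2 * k + 2 by ring] at h2
  have n1 : h * h ≠ 0 := fun e => by
    rcases (UpperHalfPlane.mul_eq_zero_iff hh.hol hh.hol).1 e with e | e <;> exact n0 e
  have m1 : h * h ∈ Hol := Hol.mul_mem hh.hol hh.hol
  refine ⟨_, _, _, h2, hw, fun e => ?_, ?_⟩
  · rcases (UpperHalfPlane.mul_eq_zero_iff (H29.L3.D_mem hy) m1).1 e with e | e
    · exact h0 e
    · exact n1 e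
  · rw [inc_mul hf.hol m1, inc_mul (H29.L3.D_mem hy) m1,
      mul_div_mul_right _ _ (inc_ne_zero m1 n1)]

end Vale.Agent.P027M.X.Md
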