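import Vale.Agent.P027M.X.Top
import Vale.Agent.P027M.X.Md2a
import Vale.Agent.P027M.Fo.Xf
import Vale.Agent.P027M.Fo.Sta
import Vale.Agent.P027M.Fo.Anf
import Vale.Agent.P027M.Fo.An1
import Vale.Agent.P027M.B.Hol

/-! # P027, route M, row X.MD2: the modular function `x` -/

set_option linter.all false

open UpperHalfPlane Filter
open scoped PowerSeries MatrixGroups IntermediateField ModularForm Manifold Derivative
  ComplexConjugate

noncomputable section

namespace Vale.Agent.P027M.X.Md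

open Vale.Agent.P022 Vale.Agent.P022.H218.L3 Vale.Agent.P022.H236.L3 Vale.Agent.P022.H542.L3

theorem coeff_th (F : ℂ⟦X⟧) (n : ℕ) : PowerSeries.coeff n (B.th F) = n * PowerSeries.coeff n F := by
  unfold B.th
  cases n with
  | zero => simp
  | succ n =>
    rw [PowerSeries.coeff_succ_X_mul, PowerSeries.coeff_derivative]
    push_cast
    ring

theorem th_cf (c : ℕ → ℂ) (s : Bool) (n : ℕ) :
    PowerSeries.coeff n (B.th (PowerSeries.mk (B3.cf c s))) =
      if n % 4 = (if s then 1 else 3) then c n else 0 := by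
  rw [coeff_th, PowerSeries.coeff_mk, B3.cf]
  by_cases h : n % 4 = (if s then 1 else 3)
  · have h0 : (n : ℂ) ≠ 0 := by
      rw [Nat.cast_ne_zero]
      rintro rfl
      cases s <;> simp at h
    rw [if_pos h, if_pos h, mul_div_cancel₀ _ h0]
  · rw [if_neg h, if_neg h, mul_zero]

theorem fin_GH {N : ℕ} (hN : 0 < N) (H : Subgroup (ZMod N)ˣ) : (M.GH N H).FiniteIndex := by
  have : NeZero N := ⟨hN.ne'⟩
  refine Subgroup.finiteIndex_of_le (H := CongruenceSubgroup.Gamma N) fun γ hγ => ?_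
  obtain ⟨-, -, h3, h4⟩ := (CongruenceSubgroup.Gamma_mem).1 hγ
  exact ⟨(ZMod.intCast_zmod_eq_zero_iff_dvd _ _).1 h3, 1, H.one_mem, by rw [h4]; rfl⟩

theorem isMF_of {N : ℕ} {H : Subgroup (ZMod N)ˣ} {e : ℤ → ℂ} {f : ℍ → ℂ} (h : Fo.Cusp N e f)
    (he : ∀ γ ∈ M.GH N H, e (γ 1 1) = 1) : IsMF (M.GH N H) 2 f :=
  ⟨h.hol, fun γ hγ => by rw [h.law γ hγ.1, he γ hγ, one_smul],
    fun γ => (h.zer γ).isBoundedAtImInfty⟩

theorem md2 : MD2 := by
  intro N e c H hN hC hF _ he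
  obtain ⟨x, y, hy, -, x1, hx, hm, hi, hh⟩ := Fo.xf
  have := fin_GH hN.pos H
  have h4 : ∀ γ ∈ M.GH N H, ((4 : ℕ) : ℤ) ∣ γ 1 0 := fun γ hγ =>
    (Int.natCast_dvd_natCast.2 hN.four).trans hγ.1
  have hle : M.GH N H ≤ M.G0 := fun γ hγ =>
    CongruenceSubgroup.Gamma0_mem.2 ((ZMod.intCast_zmod_eq_zero_iff_dvd _ 4).2 (h4 γ hγ))
  have hm' := MF_mono hle hm
  have hX : H29.L3.Ex (fun n => PowerSeries.coeff n (x.map (Int.castRingHom ℂ))) y := fun τ => by
    simpa only [PowerSeries.coeff_map, eq_intCast] using hx τ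
  have hD : H29.L3.Ex (fun n => PowerSeries.coeff n (B.th (x.map (Int.castRingHom ℂ)))) (D y) := by
    simpa only [coeff_th] using hX.D
  have c1 : PowerSeries.coeff 1 (B.th (x.map (Int.castRingHom ℂ))) = 1 := by
    rw [coeff_th, PowerSeries.coeff_map, x1]
    simp
  have d0 : D y ≠ 0 := fun h0 => by
    rw [h0] at hD
    have h1 := Fo.exp_ok.uniq _ (fun _ => 0) _ hD fun τ => by simpa using hasSum_zero
    have h2 := congrFun h1 1
    rw [c1] at h2
    exact one_ne_zero h2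
  have ev : ∀ τ : ℍ, B.ev (x.map (Int.castRingHom ℂ)) (B.qq τ) = y τ := fun τ => by
    rw [Fo.An1.qq_eq]
    exact (hX τ).tsum_eq
  have key : ∀ (e' : ℤ → ℂ) (u : ℂ⟦X⟧), (∀ γ ∈ M.GH N H, e' (γ 1 1) = 1) →
      Fo.Sq N e' (fun n => PowerSeries.coeff n (B.th u)) → ∃ w ∈ MF (M.GH N H),
      ExM 1 (((B.th u : ℂ⟦X⟧) : LS) / ((B.th (x.map (Int.castRingHom ℂ)) : ℂ⟦X⟧) : LS)) w := by
    rintro e' u he' ⟨f, hf, hE⟩
    have h2 := isMF_of hf he'
    exact ⟨_, quo h2 hy hm' d0, (exL_of hE).exM h2.hol (H29.L3.D_mem hy) d0 (exL_of hD)⟩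
  refine ⟨x, Fo.gam N hN.pos, x1, fun γ hγ τ => ?_, ⟨⟨_, hm'⟩, (exL_of hX).exM_inc hy, ?_⟩, ?_,
    Fo.anf Fo.exp_ok Fo.sta (Fo.an1 Fo.exp_ok B.Hol.hol) N hN e c hC hF x hh⟩
  · rw [ev, ev, hi γ ((by norm_num : (2 : ℤ) ∣ ((4 : ℕ) : ℤ)).trans (h4 γ hγ))]
  · refine alg_nc _ _ fun a ha => d0 ?_
    rw [← inc_const] at ha
    rw [inc_injective _ _ ha]
    exact Derivative.normalizedDerivOfComplex_const a
  · rintro u (rfl | rfl)
    · refine key (fun d => (e d : ℂ)) _ (fun γ hγ => by rw [he γ hγ, map_one]) ?_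
      have h1 := hF.g1
      simp only [U1, th_cf, if_true]
      exact h1
    · refine key (fun d => conj (e d : ℂ)) _ (fun γ hγ => by rw [he γ hγ, map_one, map_one]) ?_
      have h1 := Fo.sta _ _ _ hF.g3
      simp only [apply_ite conj, map_zero] at h1
      simp only [U3, th_cf, Bool.false_eq_true, if_false]
      exact h1

end Vale.Agent.P027M.X.Md
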