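import Vale.Agent.P027M.X.Top
import Vale.Agent.P027M.M.Bc1

/-! # P027, route M: row X.MD3 -/

namespace Vale.Agent.P027M.X

theorem md3 : MD3 := fun _ _ hN h1 =>
  ⟨fun σ _ hy _ hs => M.aut1 σ hN h1 hy hs,
    fun _ ⟨_, hz, h⟩ => M.frb1 (M.mid_GH hN h1) hz one_pos h⟩

end Vale.Agent.P027M.X
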