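import Vale.Agent.P027M.X.Mon1
import Vale.Agent.P027M.X.MonDefs
import Vale.Agent.P027M.B.Corr
import Vale.Agent.P297.H927.Der

/-! # P027, route M, row X.MONA : the leaves of all multiples are algebraic -/

open Polynomial TensorProduct
open scoped PowerSeries

noncomputable section

namespace Vale.Agent.P027M.X

open Vale.Agent.P027M.B

namespace Mo

theorem ext_der {k R N : Type} [Field k] [CommRing R] [Algebra k R] [Field N] [Algebra R N]
    [Algebra k N] [IsScalarTower k R N] [Algebra.FormallyEtale R N] (d : Derivation k R N) :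
    ∃ D : Derivation k N N, ∀ r, D (algebraMap R N r) = d r := by
  let L : N ⊗[R] Ω[R⁄k] →ₗ[N] N := d.liftKaehlerDifferential.liftBaseChange N
  let e := KaehlerDifferential.tensorKaehlerEquivOfFormallyEtale k R N
  refine ⟨(L ∘ₗ e.symm.toLinearMap).compDer (KaehlerDifferential.D k N), fun r => ?_⟩
  calc ((L ∘ₗ e.symm.toLinearMap).compDer (KaehlerDifferential.D k N)) (algebraMap R N r)
      = L (e.symm (KaehlerDifferential.D k N (algebraMap R N r))) := rfl
    _ = L (1 ⊗ₜ KaehlerDifferential.D k R r) :=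
        congrArg L (KaehlerDifferential.tensorKaehlerEquivOfFormallyEtale_symm_D_algebraMap k R N r)
    _ = d r := by
        simp only [L, LinearMap.liftBaseChange_tmul, Derivation.liftKaehlerDifferential_comp_D,
          one_smul]

theorem th_pow_mul (n : ℕ) (f : ℂ⟦X⟧) :
    th (PowerSeries.X ^ n * f) = PowerSeries.X ^ n * ((n : ℂ⟦X⟧) * f + th f) := by
  have h1 : Corr.thD ℂ PowerSeries.X = PowerSeries.X := by simp [Corr.thD_apply, th]
  rw [← Corr.thD_apply, Derivation.leibniz, Derivation.leibniz_pow, h1, Corr.thD_apply]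
  cases n with
  | zero => simp
  | succ n =>
    simp only [smul_eq_mul, nsmul_eq_mul, Nat.add_sub_cancel]
    ring

/-- the Wronskian -/
theorem wron {a b : ℂ⟦X⟧} (ha : a ≠ 0) (h : a * th b = th a * b) :
    ∃ c : ℂ, b = PowerSeries.C c * a := by
  have dec : ∀ f : ℂ⟦X⟧, f ≠ 0 → ∃ (n : ℕ) (g : ℂ⟦X⟧), f = PowerSeries.X ^ n * g ∧
      PowerSeries.constantCoeff g ≠ 0 := fun f hf =>
    ⟨_, _, PowerSeries.X_pow_order_mul_divXPowOrder.symm, by
      rwa [Ne, PowerSeries.constantCoeff_divXPowOrder_eq_zero_iff]⟩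
  obtain ⟨k, a1, rfl, a0⟩ := dec a ha
  have ck : ∀ g : ℂ⟦X⟧, PowerSeries.coeff k (PowerSeries.X ^ k * g) =
      PowerSeries.constantCoeff g := fun g => by
    simpa using PowerSeries.coeff_X_pow_mul g k 0
  refine ⟨PowerSeries.coeff k b / PowerSeries.constantCoeff a1, ?_⟩
  generalize hc : PowerSeries.coeff k b / PowerSeries.constantCoeff a1 = c
  by_contra hne
  obtain ⟨l, b1, e, b0⟩ := dec _ (sub_ne_zero.2 hne)
  have t1 : th (PowerSeries.C c * (PowerSeries.X ^ k * a1)) =
      PowerSeries.C c * th (PowerSeries.X ^ k * a1) := by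
    rw [← Corr.thD_apply, Derivation.leibniz, Corr.thD_apply, Corr.thD_apply]
    simp [th]
  have e1 := congrArg th e
  rw [← Corr.thD_apply, map_sub, Corr.thD_apply, Corr.thD_apply, t1] at e1
  have e2 : PowerSeries.X ^ k * a1 * th (PowerSeries.X ^ l * b1) =
      th (PowerSeries.X ^ k * a1) * (PowerSeries.X ^ l * b1) := by
    rw [← e1, ← e]
    linear_combination h
  rw [th_pow_mul, th_pow_mul] at e2
  have e3 : a1 * (l * b1 + th b1) = (k * a1 + th a1) * b1 :=
    mul_left_cancel₀ (mul_ne_zero (pow_ne_zero k PowerSeries.X_ne_zero)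
      (pow_ne_zero l PowerSeries.X_ne_zero)) (by linear_combination e2)
  have e4 := congrArg PowerSeries.constantCoeff e3
  simp only [map_mul, map_add, map_natCast, th, PowerSeries.constantCoeff_X, zero_mul,
    add_zero] at e4
  have e5 : (l : ℂ) = k := mul_left_cancel₀ (mul_ne_zero a0 b0) (by linear_combination e4)
  obtain rfl : l = k := by exact_mod_cast e5
  have e6 := congrArg (PowerSeries.coeff l) e
  rw [ck, map_sub, PowerSeries.coeff_C_mul, ck, ← hc, div_mul_cancel₀ _ a0, sub_self] at e6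
  exact b0 e6.symm

theorem mem_range {N : Type} [Field N] [Algebra ℂ N] {y : N} (h : IsAlgebraic ℂ y) :
    ∃ c, algebraMap ℂ N c = y :=
  minpoly.mem_range_of_degree_eq_one ℂ _
    (IsAlgClosed.degree_eq_one_of_irreducible ℂ (minpoly.irreducible h.isIntegral))

/-- the constants of an extension of `q d/dq` -/
theorem consts {N : Type} [Field N] [Algebra ℂ⟦X⟧ N] [Algebra ℂ N] [IsScalarTower ℂ ℂ⟦X⟧ N]
    (hj : Function.Injective (algebraMap ℂ⟦X⟧ N)) (D : Derivation ℂ N N)
    (hD : ∀ r, D (algebraMap ℂ⟦X⟧ N r) = algebraMap ℂ⟦X⟧ N (th r)) {y : N} (hy : D y = 0)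
    (P : ℂ⟦X⟧[X]) (h0 : P ≠ 0) (hP : aeval y P = 0) : IsAlgebraic ℂ y := by
  induction hn : P.natDegree using Nat.strong_induction_on generalizing P with
  | _ N ih =>
  have l0 : P.coeff N ≠ 0 := by rw [← hn]; exact leadingCoeff_ne_zero.2 h0
  have cf : ∀ {A : Type} [CommRing A] (f : ℕ → A) (n : ℕ),
      (∑ i ∈ Finset.range (N + 1), monomial i (f i)).coeff n = if n < N + 1 then f n else 0 := by
    intro A _ f n
    simp [coeff_monomial]
  have hs := aeval_eq_sum_range' (hn ▸ Nat.lt_succ_self _ : P.natDegree < N + 1) y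
  rw [hP] at hs
  let Q : ℂ⟦X⟧[X] := ∑ i ∈ Finset.range (N + 1),
    monomial i (P.coeff N * th (P.coeff i) - th (P.coeff N) * P.coeff i)
  by_cases hQ : Q = 0
  · have h1 : ∀ n, ∃ c : ℂ, n < N + 1 → P.coeff n = PowerSeries.C c * P.coeff N := fun n => by
      by_cases hn : n < N + 1
      · have e := cf (fun i => P.coeff N * th (P.coeff i) - th (P.coeff N) * P.coeff i) n
        rw [if_pos hn, show (∑ i ∈ Finset.range (N + 1), _) = Q from rfl, hQ, coeff_zero] at e
        obtain ⟨c, hc⟩ := wron l0 (sub_eq_zero.1 e.symm)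
        exact ⟨c, fun _ => hc⟩
      · exact ⟨0, fun h => absurd h hn⟩
    choose c hc using h1
    refine ⟨∑ i ∈ Finset.range (N + 1), monomial i (c i), fun h => l0 ?_, ?_⟩
    · have e := cf c N
      rw [h, coeff_zero, if_pos (Nat.lt_succ_self _)] at e
      rw [hc N (Nat.lt_succ_self _), ← e, map_zero, zero_mul]
    · refine mul_right_cancel₀ ((map_ne_zero_iff _ hj).2 l0) ?_
      rw [zero_mul, hs, map_sum, Finset.sum_mul]
      refine Finset.sum_congr rfl fun i hi => ?_
      rw [aeval_monomial, Algebra.smul_def, hc i (Finset.mem_range.1 hi), map_mul,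
        IsScalarTower.algebraMap_apply ℂ ℂ⟦X⟧ _ (c i), mul_right_comm]
      rfl
  · refine ih Q.natDegree ?_ Q hQ ?_ rfl
    · rw [natDegree_lt_iff_degree_lt hQ, degree_lt_iff_coeff_zero]
      intro n hn
      rw [show Q.coeff n = _ from cf _ n]
      split_ifs with h
      · rw [show n = N by omega]
        ring
      · rfl
    · have e := congrArg D hs
      simp only [Algebra.smul_def] at e hs
      simp only [map_zero, map_sum, Derivation.leibniz, Derivation.leibniz_pow,
        hy, hD, mul_zero, zero_add, smul_eq_mul, smul_zero] at e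
      simp only [Q, map_sum, aeval_monomial, map_sub, map_mul, sub_mul, Finset.sum_sub_distrib,
        mul_assoc, ← Finset.mul_sum, ← hs]
      rw [Finset.sum_congr rfl fun i _ => mul_comm _ (y ^ i), ← e]
      simp

theorem alg_iff {k A B : Type} [Field k] [CommRing A] [CommRing B] [Algebra k A] [Algebra k B]
    (j : A →ₐ[k] B) (hj : Function.Injective j) (x y : A) :
    IsAlgebraic (Algebra.adjoin k {j x}) (j y) ↔ IsAlgebraic (Algebra.adjoin k {x}) y := by
  let e : Algebra.adjoin k {x} ≃ₐ[k] Algebra.adjoin k {j x} :=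
    (Subalgebra.equivMapOfInjective _ j hj).trans
      (Subalgebra.equivOfEq _ _ (AlgHom.map_adjoin_singleton j x))
  have h : (algebraMap (Algebra.adjoin k {j x}) B).comp (e : _ →+* _) =
      (j : A →+* B).comp (algebraMap (Algebra.adjoin k {x}) A) := RingHom.ext fun _ => rfl
  exact ⟨fun H => IsAlgebraic.of_ringHom_of_comp_eq (e : _ →+* _) (j : A →+* B) H e.surjective hj h,
    fun H => H.ringHom_of_comp_eq (e : _ →+* _) (j : A →+* B) e.injective h⟩

theorem sol_on {N : Type} [Field N] [Algebra ℂ N] (j : ℂ⟦X⟧ →ₐ[ℂ] N) {F : ℂ[X]}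
    {m0 s : Fin 3 → ℂ} {h m w : Fin 3 → ℂ⟦X⟧} (H : Sol F m0 s h m w) (k : Fin 3) :
    j (w k) ^ 2 = (F.map (algebraMap ℂ N)).eval (j (m k)) := by
  rw [← map_pow, H.sq, eval_map_algebraMap, aeval_algHom_apply]

theorem sol_ne {N : Type} [Field N] [Algebra ℂ N] (j : ℂ⟦X⟧ →ₐ[ℂ] N) {F : ℂ[X]}
    {m0 s : Fin 3 → ℂ} {h m w : Fin 3 → ℂ⟦X⟧} (H : Sol F m0 s h m w) (hs : ∀ k, s k ≠ 0)
    (k : Fin 3) : j (w k) * j (w k)⁻¹ = 1 := by
  rw [← map_mul, PowerSeries.mul_inv_cancel _ (by rw [H.w_zero]; exact hs k), map_one]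

theorem sol_inj {F : ℂ[X]} {m0 s : Fin 3 → ℂ} {h m w : Fin 3 → ℂ⟦X⟧} (H : Sol F m0 s h m w)
    (hi : Function.Injective m0) : Function.Injective m := fun a b e =>
  hi (by rw [← H.m_zero, ← H.m_zero, e])

/-- an algebraically closed differential field which contains the power series -/
theorem exN : ∃ (N : Type) (_ : Field N) (_ : IsAlgClosed N) (_ : Algebra ℂ N)
    (j : ℂ⟦X⟧ →ₐ[ℂ] N) (D : Derivation ℂ N N), Function.Injective j ∧
    (∀ r, D (j r) = j (th r)) ∧ ∀ y, D y = 0 → ∃ c, algebraMap ℂ N c = y := by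
  let K := FractionRing ℂ⟦X⟧
  let N := AlgebraicClosure K
  have : CharZero K := charZero_of_injective_algebraMap (algebraMap ℂ K).injective
  have f1 : Algebra.FormallyEtale ℂ⟦X⟧ K :=
    Algebra.FormallyEtale.of_isLocalization (nonZeroDivisors _)
  have f2 : Algebra.FormallyEtale K N := Algebra.FormallyEtale.of_isSeparable K N
  have f3 : Algebra.FormallyEtale ℂ⟦X⟧ N := Algebra.FormallyEtale.comp _ K _
  have hj : Function.Injective (algebraMap ℂ⟦X⟧ N) := by
    rw [IsScalarTower.algebraMap_eq ℂ⟦X⟧ K N]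
    exact (algebraMap K N).injective.comp (IsFractionRing.injective _ _)
  obtain ⟨D, hD⟩ := ext_der ((Algebra.linearMap ℂ⟦X⟧ N).compDer (Corr.thD ℂ))
  have h1 : Algebra.IsAlgebraic ℂ⟦X⟧ N :=
    (IsFractionRing.comap_isAlgebraic_iff (A := ℂ⟦X⟧) (K := K) (C := N)).2 inferInstance
  refine ⟨N, inferInstance, inferInstance, inferInstance, IsScalarTower.toAlgHom ℂ ℂ⟦X⟧ N, D, hj,
    hD, fun y hy => ?_⟩
  obtain ⟨P, h0, hP⟩ := h1.isAlgebraic y
  exact mem_range (consts hj D hD hy P h0 hP)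

end Mo

open Mo

theorem mona : MONA := by
  intro F x h M n a m0 s m0' s' m w m' w' hdeg hsep hodd hM hn hs H halg hi' hs' H' k
  obtain ⟨N, _, _, _, j, D, hj, hD, hk⟩ := exN
  have : CharZero N := charZero_of_injective_algebraMap (algebraMap ℂ N).injective
  have dg : (F.map (algebraMap ℂ N)).natDegree = 7 := by rw [natDegree_map, hdeg]
  have aj : ∀ D : Derivation ℂ N N, ∃ a, IsAJ (F.map (algebraMap ℂ N)) (D.restrictScalars ℤ) a :=
    fun D => exists_aj _ dg hsep.map fun i => by rw [coeff_map]; exact D.map_algebraMap _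
  have hI : algebraMap ℂ N Complex.I ^ 2 = -1 := by rw [← map_pow, Complex.I_sq, map_neg, map_one]
  have ho : (F.map (algebraMap ℂ N)).comp (-X) = -F.map (algebraMap ℂ N) := by
    simpa [Polynomial.map_comp] using congrArg (Polynomial.map (algebraMap ℂ N)) hodd
  have sm1 : ∀ {d : N → N} {a}, IsAJ (F.map (algebraMap ℂ N)) d a → ∀ {m0 s h m w},
      Sol F m0 s h m w → ∀ i : Fin 3, a i (∑ k, cl _ (j (m k), j (w k))) =
        ∑ k, j (m k) ^ (i : ℕ) * d (j (m k)) / j (w k) := fun ha _ _ _ _ _ H i => by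
    rw [map_sum]
    exact Finset.sum_congr rfl fun k _ => ha i _ _ (sol_on j H k)
  obtain ⟨A, hA⟩ := aj D
  have sm2 : ∀ {m0 s h m w}, Sol F m0 s h m w → (∀ k, s k ≠ 0) → ∀ i : Fin 3,
      A i (∑ k, cl _ (j (m k), j (w k))) = j (h i) := fun H hs i => by
    rw [sm1 hA H, ← H.ode, map_sum]
    refine Finset.sum_congr rfl fun k _ => ?_
    rw [map_mul, map_mul, map_pow, eq_inv_of_mul_eq_one_right (sol_ne j H hs k), div_eq_mul_inv]
    congr 2
    exact hD _
  obtain ⟨c, hc⟩ := const (algebraMap ℂ N) rfl dg hsep.map (d := D.restrictScalars ℤ)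
    (fun c => D.map_algebraMap c) hk hA
    (ξ := (n * M) • ∑ k, cl _ (j (m' k), j (w' k)) - (a.re • ∑ k, cl _ (j (m k), j (w k)) +
      a.im • piota _ hI ho (∑ k, cl _ (j (m k), j (w k))))) (fun i => by
      have e := aj_iota hI ho (d := (D.restrictScalars ℤ : N →+ N)) hA i
      rw [map_sub, map_add, map_nsmul, map_zsmul, map_zsmul, e, sm2 H hs, sm2 H' hs']
      have e1 : (n : ℂ) * tw ((a : ℂ) / n) 1 i = a.re + a.im * ((-1) ^ (i : ℕ) * Complex.I) := by
        have n0 : (n : ℂ) ≠ 0 := Nat.cast_ne_zero.2 hn.ne'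
        rw [GaussianInt.toComplex_def]
        fin_cases i <;> simp [tw] <;> field_simp
      have e2 := congrArg (algebraMap ℂ N) e1
      have e3 : ∀ c : ℂ, j (PowerSeries.C c) = algebraMap ℂ N c := fun c => j.commutes c
      simp only [map_mul, map_add, map_natCast, map_intCast, map_pow, map_neg, map_one] at e2
      simp only [map_mul, e3, map_natCast, nsmul_eq_mul, zsmul_eq_mul, Nat.cast_mul]
      linear_combination (M * j (h i)) * e2)
  by_contra hne
  rw [← alg_iff j hj, ← IntermediateField.isAlgebraic_adjoin_iff] at hne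
  have : CharZero (IntermediateField.adjoin ℂ {j x}) :=
    charZero_of_injective_algebraMap (algebraMap ℂ _).injective
  obtain ⟨D', hD'⟩ := P297.H927.exists_derivation hne
  obtain ⟨A', hA'⟩ := aj (D'.restrictScalars ℂ)
  have z1 : ∀ i, A' i (∑ k, cl _ (j (m k), j (w k))) = 0 := fun i => by
    rw [sm1 hA' H]
    refine Finset.sum_eq_zero fun k _ => ?_
    have e : D'.restrictScalars ℂ (j (m k)) = 0 :=
      P297.H927.eq_zero_of_isAlgebraic_adjoin (s := {j x}) (fun y hy => by
        rw [Set.mem_singleton_iff.1 hy]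
        exact D'.map_algebraMap ⟨j x, IntermediateField.mem_adjoin_simple_self ℂ _⟩)
        (IntermediateField.isAlgebraic_adjoin_iff.2 ((alg_iff j hj _ _).2 (halg k)))
    rw [show ((D'.restrictScalars ℂ).restrictScalars ℤ) (j (m k)) = 0 from e, mul_zero, zero_div]
  have z2 : ∀ i, A' i (∑ k, cl _ (j (m' k), j (w' k))) = 0 := fun i => by
    have e := congrArg (A' i) hc
    rw [aj_const _ rfl hA' (fun y => (D'.restrictScalars ℂ).map_algebraMap y), map_sub, map_add,
      map_nsmul, map_zsmul, map_zsmul,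
      aj_iota hI ho (d := (((D'.restrictScalars ℂ).restrictScalars ℤ) : N →+ N)) hA' i, z1] at e
    simpa [hn.ne', hM.ne'] using e
  have hR := red_fin (F := F.map (algebraMap ℂ N)) (mu := fun k => j (m' k))
    (s := fun k => j (w' k)) (hj.comp (sol_inj H' hi')) (sol_on j H')
  have e := vdm hR (fun i => by rw [← aj_sm hA' hR.on, sm_fin]; exact z2 i)
    (p := (j (m' k), j (w' k))) (Multiset.mem_map.2 ⟨k, Finset.mem_univ_val k, rfl⟩)
    (left_ne_zero_of_mul_eq_one (sol_ne j H' hs' k))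
  exact one_ne_zero (hD'.symm.trans e)

end Vale.Agent.P027M.X
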