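import Vale.Agent.P027M.X.Finb
import Vale.Agent.P027M.X.Mona

/-! # P027, route M, row X.MONB : the hypotheses of the monodromy theorems -/

set_option linter.all false

open Polynomial UpperHalfPlane NumberField
open scoped PowerSeries MatrixGroups ComplexConjugate

noncomputable section

namespace Vale.Agent.P027M.X

open Vale.Agent.P022.H218.L3 Vale.Agent.P022.H236.L3 Vale.Agent.P022.H542.L3

namespace Mb

theorem th_C (a : ℂ) (f : ℂ⟦X⟧) : B.th (PowerSeries.C a * f) = PowerSeries.C a * B.th f := by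
  ext n
  rw [B.Uniq.coeff_th, PowerSeries.coeff_C_mul, PowerSeries.coeff_C_mul, B.Uniq.coeff_th]
  ring

theorem rat (a b : ℚ) : ∃ (z : GaussianInt) (n : ℕ), 0 < n ∧
    (a : ℂ) + b * Complex.I = (z : ℂ) / n := by
  refine ⟨⟨a.num * b.den, b.num * a.den⟩, a.den * b.den, Nat.mul_pos a.den_pos b.den_pos, ?_⟩
  have ha : (a.den : ℂ) ≠ 0 := Nat.cast_ne_zero.2 a.den_nz
  have hb : (b.den : ℂ) ≠ 0 := Nat.cast_ne_zero.2 b.den_nz
  rw [GaussianInt.toComplex_def, Rat.cast_def a, Rat.cast_def b]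
  push_cast
  field_simp

theorem ne {a b : ℚ} (h : a ≠ 0 ∨ b ≠ 0) : (a : ℂ) + b * Complex.I ≠ 0 := fun e => by
  have h1 := congrArg Complex.re e
  have h2 := congrArg Complex.im e
  simp at h1 h2
  exact h.elim (fun h => h h1) fun h => h h2

theorem tw_apply (t : ℂ) (z : Fin 3 → ℂ) (j : Fin 3) : tw t z j = tw t 1 j * z j := by
  fin_cases j <;> simp [tw]

end Mb

open Mb

theorem monb : MONB := by
  intro g N e c F0 T0 l0 l1 l2 ν Γ η x γ0 E h a b hab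
  obtain ⟨K, _, _, σ, F, bb, h1, h2, h3, h4, h5, h6, h7, h8⟩ := Fb.pre h
  obtain ⟨M, m0, s, u, m, w, hM, hu, -, hs, -, hS, ha⟩ := leafC K σ F bb x γ0 h1 h2 h3 h4 h5 h6
  obtain ⟨z, n, hn, hz⟩ := rat a b
  have ht := ne hab
  generalize (a : ℂ) + b * Complex.I = t at hz ht ⊢
  have cv : ∀ j, B.Conv 1 (PowerSeries.mk fun n => (B.hb l0 l1 l2 c j n : ℂ) / n) := fun j => by
    rw [Fb.ser]
    exact (B.Hol.mul (B.Hol.const 1 _).1 (Fb.conv h.m1 j)).1
  have cu := fun j => B.Hol.mul (B.Hol.const 1 (tw t 1 j)).1 (cv j)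
  refine ⟨h.m1.T, (sep ℂ _ _ h.rg).1, (sep ℂ _ _ h.rg).2, h.exp, h5.1.conv, fun e0 => ?_, h.m2.mx,
    fun j => (cu j).1, fun j => ?_, ⟨0, fun e0 => ?_⟩, fun j => ?_, fun γ hγ τ j => ?_,
    fun m0' s' m' w' hi' hs' H' => ?_⟩
  · have e1 := congrArg (PowerSeries.coeff 1) e0
    rw [B.Uniq.coeff_th, PowerSeries.coeff_map, h.m2.x1] at e1
    simp at e1
  · rw [uu, map_mul, ← PowerSeries.coeff_zero_eq_constantCoeff_apply (PowerSeries.mk _),
      PowerSeries.coeff_mk]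
    simp
  · have e1 := congrArg (PowerSeries.coeff 1) e0
    rw [uu, PowerSeries.coeff_C_mul, PowerSeries.coeff_mk] at e1
    simp [B.hb, h.dt.form.one, tw, ht, h.dt.hl0] at e1
  · obtain ⟨y, hy, hE⟩ := h.m2.mu (![U1 c, U3 c, U1 c] j) (by fin_cases j <;> simp)
    refine ⟨algebraMap ℂ Mer (tw t 1 j * ![(l0 : ℂ), l1, l2] j) * y,
      mul_mem ((MF Γ).algebraMap_mem _) hy, ?_⟩
    rw [uu, Fb.ser, ← mul_assoc, ← map_mul, th_C, PowerSeries.coe_mul, PowerSeries.coe_C,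
      mul_div_assoc]
    exact (ExM.const 1 _).mul hE
  · rw [uu, (cu j).2 _ (qq_lt_one _), (cu j).2 _ (qq_lt_one _), Fb.per h.m1 l0 l1 l2 hγ,
      (B.Hol.const 1 _).2, (B.Hol.const 1 _).2, PP, tw_apply t ![_, _, _], mul_add]
  · refine mona _ _ (fun j => B.th (PowerSeries.mk fun n => (B.hb l0 l1 l2 c j n : ℂ) / n)) M n z
      m0 s m0' s' m w m' w' (sep ℂ _ _ h.rg).1 (sep ℂ _ _ h.rg).2 (fG_odd _ _) hM hn hs ?_ ha hi'
      hs' ?_
    · simpa only [h7, hu, h8, th_C] using hS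
    · simpa only [uu, th_C, hz] using H'

end Vale.Agent.P027M.X
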