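import Vale.Agent.P027M.X.MonDefs

/-! # P027, route M, block MON : invariant algebraic functions are modular functions -/

open Polynomial Filter UpperHalfPlane Topology
open scoped MatrixGroups ModularForm

noncomputable section

namespace Vale.Agent.P027M.X

open Vale.Agent.P022.H218.L3

namespace FixP

/-- the size of the roots of a monic polynomial -/
theorem root_le {z : ℂ} {d : ℕ} {c : ℕ → ℂ} (h : z ^ d + ∑ i ∈ Finset.range d, c i * z ^ i = 0) :
    ‖z‖ ≤ 1 + ∑ i ∈ Finset.range d, ‖c i‖ := by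
  have h0 : 0 ≤ ∑ i ∈ Finset.range d, ‖c i‖ := Finset.sum_nonneg fun _ _ => norm_nonneg _
  by_cases h1 : ‖z‖ ≤ 1
  · linarith
  have h2 : 1 ≤ ‖z‖ := (not_le.1 h1).le
  cases d with
  | zero => simp at h
  | succ d =>
    have h3 : ‖z‖ * ‖z‖ ^ d ≤ (∑ i ∈ Finset.range (d + 1), ‖c i‖) * ‖z‖ ^ d := by
      rw [← pow_succ', ← norm_pow, eq_neg_of_add_eq_zero_left h, norm_neg, Finset.sum_mul]
      refine (norm_sum_le _ _).trans (Finset.sum_le_sum fun i hi => ?_)
      rw [norm_mul, norm_pow]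
      exact mul_le_mul_of_nonneg_left
        (pow_le_pow_right₀ h2 (Nat.le_of_lt_succ (Finset.mem_range.1 hi))) (norm_nonneg _)
    have := le_of_mul_le_mul_right h3 (by positivity)
    linarith

/-- removable singularities of a quotient -/
theorem quot {a b : ℍ → ℂ} (ha : a ∈ Hol) (hb : b ∈ Hol) {M : ℍ → ℝ} (hM : Continuous M)
    (h1 : ∀ τ, b τ * (a τ / b τ) = a τ) (h2 : ∀ τ, ‖a τ / b τ‖ ≤ M τ) : ∃ f ∈ Hol, b * f = a := by
  have hA := (UpperHalfPlane.mdifferentiable_iff.1 ha).analyticOnNhd isOpen_upperHalfPlaneSet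
  have hB := (UpperHalfPlane.mdifferentiable_iff.1 hb).analyticOnNhd isOpen_upperHalfPlaneSet
  have hq : MeromorphicOn ((a ∘ ofComplex) / (b ∘ ofComplex)) {z : ℂ | 0 < z.im} :=
    hA.meromorphicOn.div hB.meromorphicOn
  set g := toMeromorphicNFOn ((a ∘ ofComplex) / (b ∘ ofComplex)) {z : ℂ | 0 < z.im}
  have he : ∀ τ : ℍ, g =ᶠ[𝓝[≠] (τ : ℂ)] (a ∘ ofComplex) / (b ∘ ofComplex) := fun τ =>
    hq.toMeromorphicNFOn_eq_self_on_nhdsNE τ.2
  have hg : ∀ τ : ℍ, AnalyticAt ℂ g τ := by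
    intro τ
    have hN : MeromorphicNFAt g τ := meromorphicNFOn_toMeromorphicNFOn
      ((a ∘ ofComplex) / (b ∘ ofComplex)) {z : ℂ | 0 < z.im} τ.2
    rw [← hN.meromorphicOrderAt_nonneg_iff_analyticAt]
    by_contra hc
    have h3 := tendsto_norm_cobounded_atTop.comp
      ((tendsto_cobounded_of_meromorphicOrderAt_neg (not_le.1 hc)).congr' (he τ))
    have h4 : Tendsto (fun z => M (ofComplex z)) (𝓝[≠] (τ : ℂ)) (𝓝 (M (ofComplex τ))) :=
      (hM.continuousAt.comp (mdifferentiableAt_ofComplex τ.2).continuousAt).tendsto.mono_left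
        nhdsWithin_le_nhds
    exact not_tendsto_atTop_of_tendsto_nhds h4 (tendsto_atTop_mono (fun z => h2 _) h3)
  refine ⟨fun τ => g τ, fun τ => ((hg τ).differentiableAt.mdifferentiableAt).comp τ
    (mdifferentiable_coe τ), funext fun τ => ?_⟩
  have h5 : (b ∘ ofComplex) * g =ᶠ[𝓝[≠] (τ : ℂ)] a ∘ ofComplex := by
    filter_upwards [he τ] with z hz
    rw [Pi.mul_apply, hz]
    exact h1 _
  have h6 := tendsto_nhds_unique_of_eventuallyEq
    (((hB τ τ.2).mul (hg τ)).continuousAt.tendsto.mono_left nhdsWithin_le_nhds)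
    ((hA τ τ.2).continuousAt.tendsto.mono_left nhdsWithin_le_nhds) h5
  simpa using h6

/-- roots of monic polynomials over `Hol` are in `Hol` -/
theorem hol_root {z : Mer} {d : ℕ} {e : ℕ → Hol}
    (h : z ^ d + ∑ i ∈ Finset.range d, algebraMap Hol Mer (e i) * z ^ i = 0) :
    ∃ f : Hol, algebraMap Hol Mer f = z := by
  obtain ⟨a, b, hb, rfl⟩ := IsFractionRing.div_surjective (A := Hol) z
  have hb0 : algebraMap Hol Mer b ≠ 0 := IsFractionRing.to_map_ne_zero_of_mem_nonZeroDivisors hb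
  have key : ∀ {K : Type} [Field K] (x y : K) (c : ℕ → K), y ≠ 0 →
      ((x / y) ^ d + ∑ i ∈ Finset.range d, c i * (x / y) ^ i) * y ^ d =
        x ^ d + ∑ i ∈ Finset.range d, c i * x ^ i * y ^ (d - i) := by
    intro K _ x y c hy
    rw [add_mul, div_pow, div_mul_cancel₀ _ (pow_ne_zero _ hy), Finset.sum_mul]
    refine congrArg _ (Finset.sum_congr rfl fun i hi => ?_)
    rw [pow_sub₀ _ hy (Finset.mem_range.1 hi).le, div_pow]
    ring
  have h1 : a ^ d + ∑ i ∈ Finset.range d, e i * a ^ i * b ^ (d - i) = 0 := by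
    apply IsFractionRing.injective Hol Mer
    simp only [map_add, map_sum, map_mul, map_pow, map_zero]
    rw [← key _ _ _ hb0, h, zero_mul]
  have h2 : ∀ τ, a.1 τ ^ d + ∑ i ∈ Finset.range d, (e i).1 τ * a.1 τ ^ i * b.1 τ ^ (d - i) = 0 :=
    fun τ => by simpa using congrFun (congrArg Subtype.val h1) τ
  obtain ⟨f, hf, h3⟩ := quot a.2 b.2 (M := fun τ => 1 + ∑ i ∈ Finset.range d, ‖(e i).1 τ‖)
    (continuous_const.add (continuous_finsetSum _ fun i _ => (e i).2.continuous.norm))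
    (fun τ => by
      by_cases h0 : b.1 τ = 0
      · have h4 := h2 τ
        rw [Finset.sum_eq_zero fun i hi => by
          rw [h0, zero_pow (Nat.sub_ne_zero_of_lt (Finset.mem_range.1 hi)), mul_zero],
          add_zero] at h4
        rw [h0, zero_mul, eq_zero_of_pow_eq_zero h4]
      · exact mul_div_cancel₀ _ h0)
    (fun τ => by
      by_cases h0 : b.1 τ = 0
      · rw [h0, div_zero, norm_zero]
        positivity
      · exact root_le ((mul_eq_zero.1 ((key _ _ _ h0).trans (h2 τ))).resolve_right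
          (pow_ne_zero _ h0)))
  refine ⟨⟨f, hf⟩, ?_⟩
  rw [eq_div_iff hb0, ← map_mul, mul_comm]
  exact congrArg _ (Subtype.ext h3)

/-- `Hol` is integrally closed -/
theorem hol_closed : IsIntegrallyClosed Hol := by
  rw [isIntegrallyClosed_iff Mer]
  rintro z ⟨p, hp, h⟩
  rw [hp.as_sum] at h
  simp only [eval₂_add, eval₂_pow, eval₂_X, eval₂_finsetSum, eval₂_mul, eval₂_C] at h
  exact hol_root h

/-- common denominators -/
theorem den {Γ : Subgroup SL(2, ℤ)} (c : ℕ → MF Γ) (n : ℕ) :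
    ∃ (k : ℤ) (g : ℍ → ℂ) (hg : IsMF Γ k g), g ≠ 0 ∧ ∀ i < n, ∃ (G : ℍ → ℂ) (hG : IsMF Γ k G),
      inc G hG.hol = c i * inc g hg.hol := by
  induction n with
  | zero => exact ⟨0, fun _ => 1, IsMF.const 1, one_ne_zero, fun i hi => absurd hi i.not_lt_zero⟩
  | succ n ih =>
    obtain ⟨k, g, hg, g0, H⟩ := ih
    obtain ⟨l, u, v, hu, hv, v0, e⟩ := (c n).2
    refine ⟨k + l, g * v, hg.mul hv, fun h =>
      ((UpperHalfPlane.mul_eq_zero_iff hg.hol hv.hol).1 h).elim g0 v0, fun i hi => ?_⟩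
    rcases Nat.lt_succ_iff_lt_or_eq.1 hi with h | rfl
    · obtain ⟨G, hG, e'⟩ := H i h
      exact ⟨G * v, hG.mul hv, by rw [inc_mul hG.hol hv.hol, inc_mul hg.hol hv.hol, e', mul_assoc]⟩
    · refine ⟨g * u, hg.mul hu, ?_⟩
      have n1 : inc v hv.hol ≠ 0 := fun h => v0 ((inc_eq_zero hv.hol).1 h)
      rw [inc_mul hg.hol hu.hol, inc_mul hg.hol hv.hol, e]
      field_simp

end FixP

open FixP in
theorem fix : FIX := by
  intro Γ y hy hfix
  obtain ⟨p, hp, h⟩ := hy.isIntegral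
  rw [hp.as_sum] at h
  simp only [eval₂_add, eval₂_pow, eval₂_X, eval₂_finsetSum, eval₂_mul, eval₂_C] at h
  generalize p.natDegree = d at h
  obtain ⟨k, g, hg, g0, H⟩ := den p.coeff d
  have n1 : inc g hg.hol ≠ 0 := fun h => g0 ((inc_eq_zero hg.hol).1 h)
  have H' : ∀ i, ∃ e : Hol, i < d → IsMF Γ (((d - i : ℕ) : ℤ) * k) e ∧
      algebraMap Hol Mer e = p.coeff i * inc g hg.hol ^ (d - i) := by
    intro i
    by_cases hi : i < d
    · obtain ⟨G, hG, e⟩ := H i hi
      obtain ⟨m, hm⟩ : ∃ m, d - i = m + 1 := ⟨d - i - 1, by omega⟩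
      refine ⟨⟨G, hG.hol⟩ * ⟨g, hg.hol⟩ ^ m, fun _ => ⟨?_, ?_⟩⟩
      · have := hG.mul (hg.pow m)
        rw [hm, Nat.cast_succ, add_mul, one_mul, add_comm]
        exact this
      · rw [hm, map_mul, map_pow, pow_succ', ← mul_assoc, ← e]
        rfl
    · exact ⟨0, fun h => absurd h hi⟩
  choose e he using H'
  have h1 : (inc g hg.hol * y) ^ d +
      ∑ i ∈ Finset.range d, algebraMap Hol Mer (e i) * (inc g hg.hol * y) ^ i = 0 := by
    rw [← mul_zero (inc g hg.hol ^ d), ← h, mul_add, mul_pow, Finset.mul_sum]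
    refine congrArg _ (Finset.sum_congr rfl fun i hi => ?_)
    have hi' := Finset.mem_range.1 hi
    rw [(he i hi').2, ← pow_mul_pow_sub (inc g hg.hol) hi'.le, mul_pow]
    change _ = _ * ((p.coeff i : Mer) * _)
    ring
  obtain ⟨f, hf⟩ := hol_root h1
  have hy' : y = inc f f.2 / inc g hg.hol := by
    rw [eq_div_iff n1, mul_comm, ← hf]
    rfl
  have h2 : f ^ d + ∑ i ∈ Finset.range d, e i * f ^ i = 0 := by
    apply IsFractionRing.injective Hol Mer
    simp only [map_add, map_sum, map_mul, map_pow, map_zero]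
    rwa [hf]
  have h3 : ∀ τ, f.1 τ ^ d + ∑ i ∈ Finset.range d, (e i).1 τ * f.1 τ ^ i = 0 :=
    fun τ => by simpa using congrFun (congrArg Subtype.val h2) τ
  refine ⟨k, f, g, ⟨f.2, fun γ hγ => ?_, fun γ => ?_⟩, hg, g0, hy'⟩
  · have h4 := hfix γ⁻¹ (Γ.inv_mem hγ)
    rw [hy', act_div γ⁻¹ k f.2 hg.hol g0] at h4
    have e2 : inc (g ∣[k] γ⁻¹⁻¹) (slash_mem hg.hol k _) = inc g hg.hol :=
      (inc_congr hg.hol (by rw [inv_inv, hg.slash _ hγ])).symm
    rw [e2, div_left_inj' n1] at h4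
    have := inc_injective _ _ h4
    rwa [inv_inv] at this
  · have h5 : ∀ τ, ‖(f.1 ∣[k] γ) τ‖ ≤
        1 + ∑ i ∈ Finset.range d, ‖((e i).1 ∣[((d - i : ℕ) : ℤ) * k] γ) τ‖ := fun τ => by
      refine root_le ?_
      rw [← zero_mul ((denom γ τ ^ (-k)) ^ d), ← h3 (γ • τ), add_mul, Finset.sum_mul,
        ModularForm.SL_slash_apply, mul_pow]
      refine congrArg _ (Finset.sum_congr rfl fun i hi => ?_)
      rw [ModularForm.SL_slash_apply, ← mul_neg, mul_comm _ (-k), zpow_mul, zpow_natCast,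
        ← pow_mul_pow_sub (denom γ τ ^ (-k)) (Finset.mem_range.1 hi).le]
      ring
    exact (Asymptotics.IsBigO.of_norm_le h5).trans ((Asymptotics.isBigO_refl _ _).add
      (Asymptotics.IsBigO.fun_sum fun i hi => ((he i (Finset.mem_range.1 hi)).1.bdd γ).norm_left))

end Vale.Agent.P027M.X
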