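import Vale.Agent.P027M.X.MonDefs

/-! # P027, route M, row X.GERM : evaluation at a generic point -/

open Polynomial Filter UpperHalfPlane Topology
open scoped MatrixGroups

noncomputable section

namespace Vale.Agent.P027M.X

open Vale.Agent.P027M.B Vale.Agent.P022.H218.L3

namespace GermP

theorem closed {α : Type} (U : Ultrafilter α) : IsAlgClosed (Germ (U : Filter α) ℂ) := by
  refine IsAlgClosed.of_exists_root _ fun p hp hi => ?_
  have hs : Function.Surjective (Germ.coeRingHom (R := ℂ) (U : Filter α)) :=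
    fun x => Germ.inductionOn x fun f => ⟨f, rfl⟩
  obtain ⟨P, rfl, hd, hm⟩ := lifts_and_natDegree_eq_and_monic (p := p)
    (f := Germ.coeRingHom (U : Filter α)) ((mem_lifts _).2 (map_surjective _ hs p)) hp
  have h0 : 0 < P.natDegree := by
    rw [hd]
    exact hi.natDegree_pos
  have ex : ∀ y, ∃ z, (P.map (Pi.evalRingHom (fun _ => ℂ) y)).IsRoot z := fun y =>
    IsAlgClosed.exists_root _ (natDegree_pos_iff_degree_pos.1 (by rwa [hm.natDegree_map])).ne'
  choose z hz using ex
  refine ⟨Germ.coeRingHom (U : Filter α) z, ?_⟩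
  have e : P.eval z = 0 := funext fun y => by
    have h := hz y
    rwa [IsRoot, eval_map, show z y = Pi.evalRingHom (fun _ => ℂ) y z from rfl,
      eval₂_at_apply] at h
  rw [eval_map, eval₂_at_apply, e, map_zero]

theorem neBot : (cocountable : Filter ℍ).NeBot := by
  refine ⟨fun h => ?_⟩
  have h1 : (Set.univ : Set ℍ).Countable := by
    have h2 : (∅ : Set ℍ) ∈ (cocountable : Filter ℍ) := by
      rw [h]
      exact mem_bot
    simpa using mem_cocountable.1 h2
  have h3 : Function.Injective fun x : ℝ => (x +ᵥ I : ℍ) := fun x y k => by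
    simpa using congrArg UpperHalfPlane.re k
  exact Cardinal.not_countable_real (h1.preimage_of_injOn h3.injOn)

theorem zeros {f : ℍ → ℂ} (hf : f ∈ Hol) (h0 : f ≠ 0) :
    ∀ᶠ τ in (cocountable : Filter ℍ), f τ ≠ 0 := by
  have h1 : ∀ τ : ℍ, {z | z ∈ ({τ}ᶜ : Set ℍ) → f z ≠ 0} ∈ 𝓝 τ := fun τ => by
    have h2 : ∀ᶠ z in 𝓝[≠] τ, ¬ f z = 0 :=
      not_frequently.1 fun k => h0 (eq_zero_of_frequently (mem_Hol.1 hf) k)
    exact eventually_nhdsWithin_iff.1 h2
  obtain ⟨s, hs, hu⟩ := TopologicalSpace.countable_cover_nhds h1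
  refine mem_cocountable.2 (hs.mono fun z hz => ?_)
  obtain ⟨x, hx, k⟩ := Set.mem_iUnion₂.1 (hu.symm ▸ Set.mem_univ z)
  by_cases e : z = x
  · exact e ▸ hx
  · exact absurd (k e) hz

theorem tend (γ : SL(2, ℤ)) :
    Tendsto (fun τ : ℍ => qq (γ • τ : ℍ)) (cocountable : Filter ℍ) cc := by
  refine tendsto_inf.2 ⟨fun s hs => ?_, tendsto_principal.2 (Eventually.of_forall fun τ => ?_)⟩
  · have h1 := (mem_cocountable.1 hs).preimage_cexp
    have h2 : Function.Injective fun τ : ℍ =>
        2 * (Real.pi : ℂ) * Complex.I * ((γ • τ : ℍ) : ℂ) := fun x y k =>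
      MulAction.injective γ (UpperHalfPlane.ext (mul_left_cancel₀ Complex.two_pi_I_ne_zero k))
    exact mem_cocountable.2 (h1.preimage_of_injOn h2.injOn)
  · rw [mem_ball_zero_iff]
    exact norm_exp_two_pi_I_lt_one _

end GermP

open GermP in
/-- [X.GERM] -/
theorem germ : GERM := by
  have := neBot
  have hU : ((Ultrafilter.of (cocountable : Filter ℍ) : Ultrafilter ℍ) : Filter ℍ) ≤ cocountable :=
    Ultrafilter.of_le _
  generalize (Ultrafilter.of (cocountable : Filter ℍ) : Ultrafilter ℍ) = U at hU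
  have hz : ∀ f ∈ Hol, f ≠ 0 → ∀ᶠ τ in (U : Filter ℍ), f τ ≠ 0 :=
    fun f hf h0 => (zeros hf h0).filter_mono hU
  have hi : Function.Injective
      ((Germ.coeRingHom (R := ℂ) (U : Filter ℍ)).comp (Hol.val : Hol →+* (ℍ → ℂ))) := by
    rw [injective_iff_map_eq_zero]
    intro f hf
    by_contra h0
    have h1 : (f : ℍ → ℂ) =ᶠ[(U : Filter ℍ)] 0 := Germ.coe_eq.1 hf
    obtain ⟨τ, k1, k2⟩ := ((hz f f.2 fun k => h0 (Subtype.ext k)).and h1).exists
    exact k1 k2
  exact ⟨U, IsFractionRing.lift hi, closed U, fun f hf => IsFractionRing.lift_algebraMap hi _,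
    fun γ => (tend γ).mono_left hU, hz⟩

end Vale.Agent.P027M.X
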