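import Vale.Agent.P027M.X.MerDefs
import Vale.Agent.P027M.B.Hol

/-! # P027, route M, block MON : the tool box for values of meromorphic series (row X.VAL) -/

open Filter Topology Metric
open scoped PowerSeries

noncomputable section

namespace Vale.Agent.P027M.X

open Vale.Agent.P027M.B PowerSeries

namespace Vals

variable {r : ℝ} {f g y z : ℂ⟦X⟧} {q c d : ℂ}

theorem sub (hf : Conv r f) (hg : Conv r g) :
    Conv r (f - g) ∧ ∀ q : ℂ, ‖q‖ < r → ev (f - g) q = ev f q - ev g q :=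
  Hol.of_hasSum fun q hq => by
    simpa only [map_sub, sub_mul] using (Hol.hasSum hf hq).sub (Hol.hasSum hg hq)

theorem conv_one (r : ℝ) : Conv r 1 ∧ ∀ q, ev 1 q = 1 := by
  simpa only [map_one] using Hol.const r 1

/-- two values have witnesses with the same radius -/
theorem two (h : Val y q c) (h' : Val z q d) : ∃ (r : ℝ) (α β α' β' : ℂ⟦X⟧), ‖q‖ < r ∧
    (Conv r α ∧ Conv r β ∧ ev β q ≠ 0 ∧ β * y = α ∧ ev β q * c = ev α q) ∧
    Conv r α' ∧ Conv r β' ∧ ev β' q ≠ 0 ∧ β' * z = α' ∧ ev β' q * d = ev α' q := by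
  obtain ⟨r, α, β, h1, h2, h3, h4⟩ := h
  obtain ⟨r', α', β', h1', h2', h3', h4'⟩ := h'
  exact ⟨min r r', α, β, α', β', lt_min h1 h1',
    ⟨Hol.mono h2 (min_le_left _ _), Hol.mono h3 (min_le_left _ _), h4⟩,
    Hol.mono h2' (min_le_right _ _), Hol.mono h3' (min_le_right _ _), h4'⟩

theorem uniq' (h : Val y q c) (h' : Val y q d) : c = d := by
  obtain ⟨r, α, β, α', β', hq, ⟨h1, h2, h3, h4, h5⟩, h1', h2', h3', h4', h5'⟩ := two h h'
  have e : β' * α = β * α' := by rw [← h4, ← h4']; ring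
  have e2 := (Hol.mul h2' h1).2 q hq
  rw [e, (Hol.mul h2 h1').2 q hq, ← h5, ← h5'] at e2
  exact mul_left_cancel₀ (mul_ne_zero h3 h3') (by linear_combination -e2)

theorem uniq (h : Val y q c) : val y q = c := by
  have h1 : ∃ c, Val y q c := ⟨c, h⟩
  rw [val, dif_pos h1]
  exact uniq' h1.choose_spec h

theorem reg_of (h : Val y q c) : Reg y q := by
  rw [Reg, uniq h]
  exact h

theorem quo {α β : ℂ⟦X⟧} (h1 : Conv r α) (h2 : Conv r β) (h : β * y = α) (hq : ‖q‖ < r)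
    (h0 : ev β q ≠ 0) : Val y q (ev α q / ev β q) :=
  ⟨r, α, β, hq, h1, h2, h0, h, mul_div_cancel₀ _ h0⟩

theorem add (h : Val y q c) (h' : Val z q d) : Val (y + z) q (c + d) := by
  obtain ⟨r, α, β, α', β', hq, ⟨h1, h2, h3, h4, h5⟩, h1', h2', h3', h4', h5'⟩ := two h h'
  have a := Hol.mul h1 h2'
  have b := Hol.mul h1' h2
  have e := Hol.mul h2 h2'
  refine ⟨r, α * β' + α' * β, β * β', hq, (Hol.add a.1 b.1).1, e.1, ?_, ?_, ?_⟩
  · rw [e.2 q hq]
    exact mul_ne_zero h3 h3'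
  · rw [← h4, ← h4']; ring
  · rw [(Hol.add a.1 b.1).2 q hq, a.2 q hq, b.2 q hq, e.2 q hq, ← h5, ← h5']; ring

theorem mul (h : Val y q c) (h' : Val z q d) : Val (y * z) q (c * d) := by
  obtain ⟨r, α, β, α', β', hq, ⟨h1, h2, h3, h4, h5⟩, h1', h2', h3', h4', h5'⟩ := two h h'
  have a := Hol.mul h1 h1'
  have e := Hol.mul h2 h2'
  refine ⟨r, α * α', β * β', hq, a.1, e.1, ?_, ?_, ?_⟩
  · rw [e.2 q hq]
    exact mul_ne_zero h3 h3'
  · rw [← h4, ← h4']; ring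
  · rw [a.2 q hq, e.2 q hq, ← h5, ← h5']; ring

theorem der_eq {α β : ℂ⟦X⟧} (h : β * y = α) :
    β * β * derivative ℂ y = derivative ℂ α * β - α * derivative ℂ β := by
  rw [← h, Derivation.leibniz, smul_eq_mul, smul_eq_mul]
  ring

theorem der (h : Reg y q) : Reg (derivative ℂ y) q ∧ (∀ᶠ z in 𝓝 q, Reg y z) ∧
    HasDerivAt (val y) (val (derivative ℂ y) q) q := by
  obtain ⟨r, α, β, hq, h1, h2, h3, h4, -⟩ := h
  have d1 := Hol.diff h1
  have d2 := Hol.diff h2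
  have hn : ∀ᶠ z in 𝓝 q, Val y z (ev α z / ev β z) := by
    filter_upwards [(d2.2 q hq).continuousAt.eventually_ne h3,
      isOpen_ball.mem_nhds (mem_ball_zero_iff.2 hq)] with z a b
    exact quo h1 h2 h4 (mem_ball_zero_iff.1 b) a
  have a := Hol.mul d1.1 h2
  have b := Hol.mul h1 d2.1
  have e := Hol.mul h2 h2
  have hv := quo (sub a.1 b.1).1 e.1 (der_eq h4) hq (by rw [e.2 q hq]; exact mul_ne_zero h3 h3)
  refine ⟨reg_of hv, hn.mono fun z => reg_of, ?_⟩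
  rw [uniq hv, (sub a.1 b.1).2 q hq, a.2 q hq, b.2 q hq, e.2 q hq, ← sq]
  exact ((d1.2 q hq).div (d2.2 q hq) h3).congr_of_eventuallyEq (hn.mono fun z => uniq)

theorem mrc (h : Conv 1 f) : Mr f :=
  fun r hr => ⟨f, 1, Hol.mono h hr.le, (conv_one r).1, one_ne_zero, one_mul f⟩

theorem mr_add (h : Mr y) (h' : Mr z) : Mr (y + z) := fun r hr => by
  obtain ⟨α, β, h1, h2, h3, h4⟩ := h r hr
  obtain ⟨α', β', h1', h2', h3', h4'⟩ := h' r hr
  exact ⟨α * β' + α' * β, β * β', (Hol.add (Hol.mul h1 h2').1 (Hol.mul h1' h2).1).1,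
    (Hol.mul h2 h2').1, mul_ne_zero h3 h3', by rw [← h4, ← h4']; ring⟩

theorem mr_mul (h : Mr y) (h' : Mr z) : Mr (y * z) := fun r hr => by
  obtain ⟨α, β, h1, h2, h3, h4⟩ := h r hr
  obtain ⟨α', β', h1', h2', h3', h4'⟩ := h' r hr
  exact ⟨α * α', β * β', (Hol.mul h1 h1').1, (Hol.mul h2 h2').1, mul_ne_zero h3 h3',
    by rw [← h4, ← h4']; ring⟩

theorem mr_C (c : ℂ) : Mr (C c) := mrc (Hol.const 1 c).1

theorem mrd (h : Mr y) : Mr (derivative ℂ y) := fun r hr => by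
  obtain ⟨α, β, h1, h2, h3, h4⟩ := h r hr
  exact ⟨_, β * β, (sub (Hol.mul (Hol.diff h1).1 h2).1 (Hol.mul h1 (Hol.diff h2).1).1).1,
    (Hol.mul h2 h2).1, mul_ne_zero h3 h3, der_eq h4⟩

theorem div (h : Mr z) (h0 : z ≠ 0) (h' : Mr (z * y)) : Mr y := fun r hr => by
  obtain ⟨α, β, h1, h2, h3, h4⟩ := h r hr
  obtain ⟨α', β', h1', h2', h3', h4'⟩ := h' r hr
  refine ⟨β * α', β' * α, (Hol.mul h2 h1').1, (Hol.mul h2' h1).1, mul_ne_zero h3' ?_, ?_⟩
  · rw [← h4]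
    exact mul_ne_zero h3 h0
  · rw [← h4, ← h4']; ring

/-- the zeros of a non-zero convergent series are countable -/
theorem zeros (hr : 0 < r) (hf : Conv r f) (h0 : f ≠ 0) :
    {q : ℂ | ‖q‖ < r ∧ ev f q = 0}.Countable := by
  have h1 := ((Hol.differentiableOn hf).analyticOnNhd isOpen_ball
    ).eqOn_zero_or_eventually_ne_zero_of_preconnected (convex_ball (0 : ℂ) r).isPreconnected
  have h2 := h1.resolve_left fun e => h0 (Hol.inj hr hf fun q hq => e (mem_ball_zero_iff.2 hq))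
  have h3 := (HereditarilyLindelofSpace.isLindelof _).countable_of_isDiscrete
    (isDiscrete_of_codiscreteWithin (s := {q : ℂ | ev f q = 0}) h2)
  exact h3.mono fun q hq => Set.mem_inter hq.2 (mem_ball_zero_iff.2 hq.1)

theorem ev_cc {p : ℂ → Prop}
    (h : ∀ r : ℝ, 0 < r → r < 1 → {q : ℂ | ‖q‖ < r ∧ ¬ p q}.Countable) : ∀ᶠ q in cc, p q := by
  rw [cc, eventually_inf_principal, Filter.Eventually, mem_cocountable]
  have h1 : {r : ℚ | 0 < (r : ℝ) ∧ (r : ℝ) < 1}.Countable := Set.to_countable _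
  refine (h1.biUnion fun r hr => h r hr.1 hr.2).mono fun q hq => ?_
  have h2 : q ∈ ball (0 : ℂ) 1 ∧ ¬ p q := Classical.not_imp.1 hq
  obtain ⟨r, h3, h4⟩ := exists_rat_btwn (mem_ball_zero_iff.1 h2.1)
  exact Set.mem_biUnion (x := r) ⟨(norm_nonneg q).trans_lt h3, h4⟩ ⟨h3, h2.2⟩

theorem reg (h : Mr y) : ∀ᶠ q in cc, Reg y q := ev_cc fun r r0 hr => by
  obtain ⟨α, β, h1, h2, h3, h4⟩ := h r hr
  refine (zeros r0 h2 h3).mono fun q hq => And.intro hq.1 ?_
  by_contra e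
  exact hq.2 (reg_of (quo h1 h2 h4 hq.1 e))

theorem nz (h : Mr y) (h0 : y ≠ 0) : ∀ᶠ q in cc, val y q ≠ 0 := ev_cc fun r r0 hr => by
  obtain ⟨α, β, h1, h2, h3, h4⟩ := h r hr
  refine ((zeros r0 h2 h3).union (zeros r0 h1 (h4 ▸ mul_ne_zero h3 h0))).mono fun q hq => ?_
  by_cases e : ev β q = 0
  · exact Or.inl ⟨hq.1, e⟩
  · have h5 := not_not.1 hq.2
    rw [uniq (quo h1 h2 h4 hq.1 e), div_eq_zero_iff] at h5
    exact Or.inr ⟨hq.1, h5.resolve_right e⟩

theorem ne : cc.NeBot := by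
  rw [cc, inf_principal_neBot_iff]
  intro U hU
  have h1 := (mem_cocountable.1 hU).dense_compl ℂ
  rw [compl_compl] at h1
  obtain ⟨q, h2, h3⟩ := h1.inter_open_nonempty _ isOpen_ball ⟨(0 : ℂ), mem_ball_self one_pos⟩
  exact ⟨q, h3, h2⟩

end Vals

open Vals in
/-- [X.VAL] -/
theorem vals : VALS where
  uniq _ _ _ := uniq
  conv r f q hf hq := ⟨r, f, 1, hq, hf, (conv_one r).1, by rw [(conv_one r).2]; exact one_ne_zero,
    one_mul f, by rw [(conv_one r).2, one_mul]⟩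
  add _ _ _ _ _ := add
  mul _ _ _ _ _ := mul
  der _ _ := der
  sub := ⟨{ carrier := {y | Mr y}
            mul_mem' := mr_mul
            one_mem' := mrc (conv_one 1).1
            add_mem' := mr_add
            zero_mem' := by simpa using mr_C 0
            neg_mem' := fun {y} hy => by simpa using mr_mul (mr_C (-1)) hy }, fun _ => Iff.rfl⟩
  mrc _ := mrc
  mrd _ := mrd
  div _ _ := div
  reg _ := reg
  nz _ := nz
  ne := ne

end Vale.Agent.P027M.X
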