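import Vale.Agent.P027M.X.MonDefs
import Vale.Agent.P027M.X.Vals

/-! # P027, route M, block MON : algebraic meromorphic series are global quotients (row X.GLOB) -/

set_option linter.all false

open Filter Topology Metric UpperHalfPlane
open scoped PowerSeries

noncomputable section

namespace Vale.Agent.P027M.X

open Vale.Agent.P027M.B Vale.Agent.P022.H218.L3 Vale.Agent.P022.H236.L3 Vale.Agent.P022.H542.L3

namespace GlobP

/-- the ring of series which converge on the disc of radius `r` -/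
def CR (r : ℝ) : Subring ℂ⟦X⟧ where
  carrier := {f | Conv r f}
  mul_mem' hf hg := (Hol.mul hf hg).1
  one_mem' := (Vals.conv_one r).1
  add_mem' hf hg := (Hol.add hf hg).1
  zero_mem' := by simpa using (Hol.const r 0).1
  neg_mem' {f} hf := by simpa using (Hol.mul (Hol.const r (-1)).1 hf).1

/-- evaluation -/
def evh {r : ℝ} {q : ℂ} (hq : ‖q‖ < r) : CR r →+* ℂ where
  toFun f := ev f.1 q
  map_one' := (Vals.conv_one r).2 q
  map_mul' f g := (Hol.mul f.2 g.2).2 q hq
  map_zero' := by simpa using (Hol.const r 0).2 q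
  map_add' f g := (Hol.add f.2 g.2).2 q hq

theorem root_le {n : ℕ} {A : ℕ → ℂ} {h : ℂ} (e : h ^ n + ∑ i ∈ Finset.range n, A i * h ^ i = 0) :
    ‖h‖ ≤ 1 + ∑ i ∈ Finset.range n, ‖A i‖ := by
  have s0 : 0 ≤ ∑ i ∈ Finset.range n, ‖A i‖ := Finset.sum_nonneg fun _ _ => norm_nonneg _
  by_contra hc
  rw [not_le] at hc
  have h1 : 1 ≤ ‖h‖ := by linarith
  have h2 : ‖h‖ * ‖h‖ ^ n ≤ (∑ i ∈ Finset.range n, ‖A i‖) * ‖h‖ ^ n := by
    rw [Finset.sum_mul]
    conv_lhs => rw [← norm_pow, eq_neg_of_add_eq_zero_left e, norm_neg]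
    refine (mul_le_mul_of_nonneg_left (norm_sum_le _ _) (norm_nonneg h)).trans ?_
    rw [Finset.mul_sum]
    refine Finset.sum_le_sum fun i hi => ?_
    rw [norm_mul, norm_pow, mul_left_comm, ← pow_succ']
    exact mul_le_mul_of_nonneg_left (pow_le_pow_right₀ h1 (Finset.mem_range.1 hi)) (norm_nonneg _)
  have h3 := le_of_mul_le_mul_right h2 (by positivity)
  linarith

/-- removable singularities -/
theorem icl {r : ℝ} (hr : 0 < r) (α β : CR r) (a : ℕ → CR r) {z : ℂ⟦X⟧} {n : ℕ} (b0 : β.1 ≠ 0)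
    (hz : β.1 * z = α.1) (he : z ^ n + ∑ i ∈ Finset.range n, (a i).1 * z ^ i = 0) : Conv r z := by
  classical
  have e0 : α ^ n + ∑ i ∈ Finset.range n, a i * α ^ i * β ^ (n - i) = 0 := by
    apply Subtype.ext
    push_cast
    rw [← hz, ← mul_zero (β.1 ^ n), ← he, mul_add, mul_pow, Finset.mul_sum]
    congr 1
    refine Finset.sum_congr rfl fun i hi => ?_
    conv_rhs => rw [← Nat.add_sub_cancel' (Finset.mem_range.1 hi).le, pow_add]
    rw [mul_pow]
    ring
  have E : ∀ q : ℂ, ‖q‖ < r → ev α.1 q ^ n +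
      ∑ i ∈ Finset.range n, ev (a i).1 q * ev α.1 q ^ i * ev β.1 q ^ (n - i) = 0 := by
    intro q hq
    have := congrArg (evh hq) e0
    simp only [map_add, map_sum, map_mul, map_pow, map_zero] at this
    exact this
  have bd : ∀ q : ℂ, ‖q‖ < r → ev β.1 q ≠ 0 →
      ‖ev α.1 q / ev β.1 q‖ ≤ 1 + ∑ i ∈ Finset.range n, ‖ev (a i).1 q‖ := by
    intro q hq h0
    refine root_le (mul_left_cancel₀ (pow_ne_zero n h0) ?_)
    rw [mul_zero, ← E q hq, mul_add, ← mul_pow, mul_div_cancel₀ _ h0, Finset.mul_sum]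
    congr 1
    refine Finset.sum_congr rfl fun i hi => ?_
    conv_lhs => rw [← Nat.add_sub_cancel' (Finset.mem_range.1 hi).le, pow_add, div_pow]
    field_simp
  have dA : ∀ (f : CR r) (q : ℂ), ‖q‖ < r → DifferentiableAt ℂ (ev f.1) q := fun f q hq =>
    (Hol.diff_aux f.2 hq).1
  obtain ⟨φ, hφ⟩ : ∃ φ : ℂ → ℂ, ∀ q, φ q = if ev β.1 q = 0 then
    limUnder (𝓝[≠] q) (fun w => ev α.1 w / ev β.1 w) else ev α.1 q / ev β.1 q := ⟨_, fun _ => rfl⟩
  have an := (Hol.differentiableOn β.2).analyticOnNhd isOpen_ball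
  have dφ : DifferentiableOn ℂ φ (ball 0 r) := by
    intro c hc
    have hc' := mem_ball_zero_iff.1 hc
    have iso : ∀ᶠ w in 𝓝 c, w ≠ c → ev β.1 w ≠ 0 := by
      refine eventually_nhdsWithin_iff.1 ((an c hc).eventually_eq_zero_or_eventually_ne_zero.resolve_left
        fun h => b0 (Hol.inj hr β.2 fun q hq => ?_))
      exact an.eqOn_zero_of_preconnected_of_eventuallyEq_zero (convex_ball (0 : ℂ) r).isPreconnected
        hc h (mem_ball_zero_iff.2 hq)
    refine DifferentiableAt.differentiableWithinAt ?_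
    by_cases h0 : ev β.1 c = 0
    · have ct : ContinuousAt (fun w => ∑ i ∈ Finset.range n, ‖ev (a i).1 w‖) c :=
        tendsto_finset_sum _ fun i _ => (dA (a i) c hc').continuousAt.norm
      have hs : {w : ℂ | ‖w‖ < r ∧ (w ≠ c → ev β.1 w ≠ 0) ∧ ∑ i ∈ Finset.range n, ‖ev (a i).1 w‖ <
          ∑ i ∈ Finset.range n, ‖ev (a i).1 c‖ + 1} ∈ 𝓝 c := by
        filter_upwards [isOpen_ball.mem_nhds hc, iso, ct.eventually (gt_mem_nhds (lt_add_one _))]
          with w h1 h2 h3
        exact ⟨mem_ball_zero_iff.1 h1, h2, h3⟩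
      have h1 := Complex.differentiableOn_update_limUnder_of_bddAbove
        (f := fun w => ev α.1 w / ev β.1 w) hs
        (fun w hw => ((dA α w hw.1.1).div (dA β w hw.1.1) (hw.1.2.1 hw.2)).differentiableWithinAt)
        ⟨1 + (∑ i ∈ Finset.range n, ‖ev (a i).1 c‖ + 1), by
          rintro _ ⟨w, hw, rfl⟩
          exact (bd w hw.1.1 (hw.1.2.1 hw.2)).trans (by linarith [hw.1.2.2])⟩
      refine (h1.differentiableAt hs).congr_of_eventuallyEq ?_
      filter_upwards [iso] with w hw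
      by_cases e : w = c
      · rw [e, Function.update_self, hφ, if_pos h0]
      · rw [Function.update_of_ne e, hφ, if_neg (hw e)]
    · refine ((dA α c hc').div (dA β c hc') h0).congr_of_eventuallyEq ?_
      filter_upwards [(dA β c hc').continuousAt.eventually_ne h0] with w hw
      rw [hφ, if_neg hw]
      rfl
  obtain ⟨z', h1, h2⟩ := Hol.ofFun r φ dφ
  have h3 : β.1 * z' = α.1 := by
    refine Hol.ext hr (Hol.mul β.2 h1).1 α.2 fun q hq => ?_
    rw [(Hol.mul β.2 h1).2 q hq, h2 q hq, hφ]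
    split_ifs with h0
    · have := E q hq
      rw [Finset.sum_eq_zero fun i hi => by
        rw [h0, zero_pow (Nat.sub_ne_zero_of_lt (Finset.mem_range.1 hi)), mul_zero], add_zero] at this
      rw [h0, zero_mul, (pow_eq_zero_iff'.1 this).1]
    · exact mul_div_cancel₀ _ h0
  rwa [mul_left_cancel₀ b0 (hz.trans h3.symm)]

theorem qq_eq (z : ℂ) : Function.Periodic.qParam ((1 : ℕ) : ℝ) z = qq z := by
  simp [Function.Periodic.qParam, qq]

theorem qq_lt {z : ℂ} (hz : 0 < z.im) : ‖qq z‖ < 1 := by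
  rw [← qq_eq]
  exact Function.Periodic.norm_qParam_lt_one (by simp) hz

theorem hol_ev {f : ℂ⟦X⟧} (hf : Conv 1 f) : (fun τ : ℍ => ev f (qq τ)) ∈ Hol := by
  refine mdifferentiable_iff.2 fun z hz => ?_
  have h1 : DifferentiableAt ℂ (fun w => ev f (qq w)) z :=
    (Hol.diff_aux hf (qq_lt hz)).1.comp z (by unfold qq; fun_prop)
  refine h1.differentiableWithinAt.congr (fun w hw => ?_) ?_
  · rw [Function.comp_apply, ofComplex_apply_of_im_pos hw]
  · rw [Function.comp_apply, ofComplex_apply_of_im_pos hz]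

theorem exL_ev {f : ℂ⟦X⟧} (hf : Conv 1 f) : ExL 1 (f : LS) fun τ : ℍ => ev f (qq τ) := by
  refine ⟨0, f, (one_mul _).symm, Eventually.of_forall fun τ => ?_⟩
  rw [qq_eq, neg_zero, zpow_zero, mul_one]
  exact Hol.hasSum hf (qq_lt τ.im_pos)

end GlobP

open GlobP in
theorem glob : GLOB := by
  intro x y hx hy ha
  have cv : ∀ s : Algebra.adjoin ℂ {x}, Conv 1 s.1 := by
    rintro ⟨s, hs⟩
    induction hs using Algebra.adjoin_induction with
    | mem w hw => obtain rfl := Set.mem_singleton_iff.1 hw; exact hx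
    | algebraMap c => exact (Hol.const 1 c).1
    | add u w _ _ hu hw => exact (Hol.add hu hw).1
    | mul u w _ _ hu hw => exact (Hol.mul hu hw).1
  obtain ⟨p, p0, P, hP, he⟩ := ha.exists_integral_multiple
  have p1 : p.1 ≠ 0 := fun h => p0 (Subtype.ext h)
  have he' : (p.1 * y) ^ P.natDegree +
      ∑ i ∈ Finset.range P.natDegree, (P.coeff i).1 * (p.1 * y) ^ i = 0 := by
    rw [Polynomial.eval₂_eq_sum_range, Finset.sum_range_succ, hP.coeff_natDegree, map_one, one_mul,
      add_comm] at he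
    exact he
  have hz : Conv 1 (p.1 * y) := by
    intro ρ h0 h1
    obtain ⟨r, h2, h3⟩ := exists_between h1
    obtain ⟨α, β, c1, c2, b0, e⟩ := Vals.mr_mul (Vals.mrc (cv p)) hy r h3
    exact icl (h0.trans_lt h2) ⟨α, c1⟩ ⟨β, c2⟩ (fun i => ⟨(P.coeff i).1, Hol.mono (cv _) h3.le⟩)
      b0 e he' ρ h0 h2
  have pL : ((p.1 : ℂ⟦X⟧) : LS) ≠ 0 := fun h =>
    p1 (HahnSeries.ofPowerSeries_injective (h.trans PowerSeries.coe_zero.symm))
  have n0 : (fun τ : ℍ => ev p.1 (qq τ)) ≠ 0 := fun h =>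
    pL ((h ▸ exL_ev (cv p)).unique one_ne_zero (ExL.zero 1))
  refine ⟨_, _, hol_ev hz, hol_ev (cv p), n0, ?_, fun τ h => ?_⟩
  · have h := (exL_ev hz).exM (hol_ev hz) (hol_ev (cv p)) n0 (exL_ev (cv p))
    rwa [PowerSeries.coe_mul, mul_div_cancel_left₀ _ pL] at h
  · exact Vals.uniq (Vals.quo hz (cv p) rfl (qq_lt τ.im_pos) h)

end Vale.Agent.P027M.X
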