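import Vale.Agent.P027M.X.MerA
import Vale.Agent.P027M.X.Vals

/-! # P027, route M, row X.MER : the formal solution is meromorphic and represents the exponential -/

set_option linter.all false

open Polynomial Metric Filter Topology
open scoped PowerSeries

noncomputable section

namespace Vale.Agent.P027M.X

namespace Mer

open Vale.Agent.P027M.B

theorem reg_of {y : ℂ⟦X⟧} {q c : ℂ} (h : Val y q c) : Reg y q := by
  unfold Reg
  rwa [vals.uniq _ _ _ h]

theorem val_C (c q : ℂ) : Val (PowerSeries.C c) q c := by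
  simpa [(Hol.const (‖q‖ + 1) c).2] using
    vals.conv (‖q‖ + 1) (PowerSeries.C c) q (Hol.const _ c).1 (by linarith)

/-- the ring of series regular at `q` -/
def Oq (q : ℂ) : Subring ℂ⟦X⟧ where
  carrier := {y | Reg y q}
  mul_mem' := fun a b => reg_of (vals.mul _ _ _ _ _ a b)
  one_mem' := by simpa using reg_of (val_C 1 q)
  add_mem' := fun a b => reg_of (vals.add _ _ _ _ _ a b)
  zero_mem' := by simpa using reg_of (val_C 0 q)
  neg_mem' := fun a => by simpa using reg_of (vals.mul _ _ _ _ _ (val_C (-1) q) a)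

/-- the value at `q` -/
def evq (q : ℂ) : Oq q →+* ℂ where
  toFun y := val y q
  map_one' := by simpa using vals.uniq _ _ _ (val_C 1 q)
  map_mul' x y := vals.uniq _ _ _ (vals.mul _ _ _ _ _ x.2 y.2)
  map_zero' := by simpa using vals.uniq _ _ _ (val_C 0 q)
  map_add' x y := vals.uniq _ _ _ (vals.add _ _ _ _ _ x.2 y.2)

theorem evq_apply (q : ℂ) (y : Oq q) : evq q y = val y q := rfl

/-- the constants -/
def cq (q : ℂ) : ℂ →+* Oq q :=
  (PowerSeries.C (R := ℂ)).codRestrict (Oq q) fun c => reg_of (val_C c q)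

theorem evq_cq (q : ℂ) : (evq q).comp (cq q) = RingHom.id ℂ :=
  RingHom.ext fun c => vals.uniq _ _ _ (val_C c q)

theorem sub_cq (q : ℂ) : (Oq q).subtype.comp (cq q) = PowerSeries.C := RingHom.ext fun _ => rfl

theorem val_conv {r : ℝ} {f : ℂ⟦X⟧} {q : ℂ} (h : Conv r f) (hq : ‖q‖ < r) : val f q = ev f q :=
  vals.uniq _ _ _ (vals.conv r f q h hq)

theorem ev_cc {p : ℂ → Prop} : (∀ᶠ q in cc, p q) ↔ {q | ‖q‖ < 1 ∧ ¬ p q}.Countable := by
  rw [cc, eventually_inf_principal, Filter.Eventually, mem_cocountable]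
  simp only [Set.compl_setOf, mem_ball_zero_iff, Classical.not_imp]

/-- the disc minus a countable set is connected -/
theorem preconn {p : ℂ → Prop} (h : ∀ᶠ q in cc, p q) : IsPreconnected {q | ‖q‖ < 1 ∧ p q} := by
  let e := (Homeomorph.unitBall : ℂ ≃ₜ ball (0 : ℂ) 1)
  let f : ℂ → ℂ := fun z => e z
  have hf : Function.Injective f := Subtype.val_injective.comp e.injective
  have c := ((ev_cc.1 h).preimage_of_injOn hf.injOn).isConnected_compl_of_one_lt_rank
    (by simp : 1 < Module.rank ℝ ℂ)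
  have i := c.isPreconnected.image f (continuous_subtype_val.comp e.continuous).continuousOn
  convert i using 1
  ext q
  constructor
  · rintro ⟨h1, h2⟩
    refine ⟨e.symm ⟨q, mem_ball_zero_iff.2 h1⟩, ?_, by simp [f]⟩
    simp [f, h2]
  · rintro ⟨z, hz, rfl⟩
    have h1 : ‖f z‖ < 1 := mem_ball_zero_iff.1 (e z).2
    exact ⟨h1, by simpa [h1] using hz⟩

/-- `d/dq` -/
abbrev dq (f : ℂ⟦X⟧) : ℂ⟦X⟧ := PowerSeries.derivative ℂ f

theorem dq_es (m : Fin 3 → ℂ⟦X⟧) : (fun i => dq (es m i)) = es' m fun k => dq (m k) := by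
  funext i
  fin_cases i <;> simp [es, es', Derivation.leibniz] <;> ring

variable {F : ℂ[X]} {m0 s : Fin 3 → ℂ} {u m w : Fin 3 → ℂ⟦X⟧}

theorem ode' (H : Sol F m0 s (fun j => th (u j)) m w) (j : Fin 3) :
    ∑ k, m k ^ (j : ℕ) * (dq (m k) * (w k)⁻¹) = dq (u j) := by
  have e := H.ode j
  apply mul_left_cancel₀ PowerSeries.X_ne_zero
  simp only [th, Fin.sum_univ_three] at e ⊢
  linear_combination e

theorem unit_sub (hm : Function.Injective m0) {h : Fin 3 → ℂ⟦X⟧} (H : Sol F m0 s h m w) (k l : Fin 3)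
    (hkl : k ≠ l) : IsUnit (m k - m l) := by
  rw [PowerSeries.isUnit_iff_constantCoeff, map_sub, H.m_zero, H.m_zero]
  exact (sub_ne_zero.2 fun e => hkl (hm e)).isUnit

theorem rel (hs : ∀ k, s k ≠ 0) (H : Sol F m0 s (fun j => th (u j)) m w) (k : Fin 3) :
    w k * (pp (es m) fun j => dq (u j)).eval (m k) = dq (m k) * dd m k := by
  have e := PowerSeries.inv_mul_cancel (w k) (by rw [H.w_zero]; exact hs k)
  rw [pp_eval m _ _ (ode' H)]
  linear_combination dq (m k) * dd m k * e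

/-- the polynomial `V` -/
theorem exists_V (hm : Function.Injective m0) (hs : ∀ k, s k ≠ 0) (hu : ∀ j, Conv 1 (u j))
    (hg : Gen m0 fun j => th (u j)) (H : Sol F m0 s (fun j => th (u j)) m w)
    (ha : ∀ i, Mr (es m i)) : ∃ V : Fin 3 → ℂ⟦X⟧, (∀ i, Mr (V i)) ∧ ∀ k, (q2 V).eval (m k) = w k := by
  have un := unit_sub hm H
  have U0 : ∀ k, (cub (es m)).eval (m k) = 0 := fun k => by
    rw [← prod_eq, eval_prod]
    exact Finset.prod_eq_zero (Finset.mem_univ k) (by simp)
  obtain ⟨V', hV'⟩ := Cont.interp m w un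
  have hd : ∀ {A : Type} [CommRing A] [Nontrivial A] (a : Fin 3 → A) (W : A[X]),
      (W %ₘ cub a).degree < 3 := fun a W => cub_degree a ▸ degree_modByMonic_lt W (cub_monic a)
  have hV : ∀ k, (q2 fun i => (V' %ₘ cub (es m)).coeff i).eval (m k) = w k := fun k => by
    rw [← eq_q2 (hd _ _), ← hV' k]
    conv_rhs => rw [← modByMonic_add_div V' (cub (es m))]
    rw [eval_add, eval_mul, U0, zero_mul, add_zero]
  generalize (fun i : Fin 3 => (V' %ₘ cub (es m)).coeff i) = V at hV
  refine ⟨V, ?_, hV⟩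
  obtain ⟨S, hS⟩ := vals.sub
  let aS : Fin 3 → S := fun i => ⟨es m i, (hS _).2 (ha i)⟩
  let bS : Fin 3 → S := fun i => ⟨dq (es m i), (hS _).2 (vals.mrd _ (ha i))⟩
  let uS : Fin 3 → S := fun i => ⟨dq (u i), (hS _).2 (vals.mrd _ (vals.mrc _ (hu i)))⟩
  have e1 : (cub aS).map S.subtype = cub (es m) := cub_map _ _
  have e2 : (pp aS uS).map S.subtype = pp (es m) fun j => dq (u j) := pp_map _ _ _
  have e3 : (q2 bS).map S.subtype = q2 (es' m fun k => dq (m k)) := by
    rw [q2_map, ← dq_es]; rfl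
  obtain ⟨p, q, -, -, hpq⟩ := exists_mul_add_mul_eq_C_resultant (m := 3) (n := (pp aS uS).natDegree)
    (cub aS) (pp aS uS) (cub_deg _) le_rfl (Or.inl (by norm_num))
  have hρ := res_eq S.subtype aS (pp aS uS) m rfl
  generalize resultant (cub aS) (pp aS uS) 3 (pp aS uS).natDegree = ρ at hpq hρ
  have ρ0 : (ρ : ℂ⟦X⟧) ≠ 0 := by
    show S.subtype ρ ≠ 0
    rw [hρ, e2]
    refine Finset.prod_ne_zero_iff.2 fun k _ h0 => ?_
    have e := rel hs H k
    rw [h0, mul_zero] at e
    refine mul_ne_zero (fun h1 => ?_) (dd_ne (fun a b h => ?_) k) e.symm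
    · refine nonconst (F := F) (s := s) (w := w) one_ne_zero hg (by simpa using H) k
        (PowerSeries.derivative.ext ?_ ?_)
      · rw [PowerSeries.derivative_C]; exact h1
      · simp [H.m_zero]
    · exact hm (by rw [← H.m_zero, ← H.m_zero, h])
  set W := (-(q * q2 bS)) %ₘ cub aS with hW
  have hD : C (ρ : ℂ⟦X⟧) * q2 V - W.map S.subtype = 0 := by
    refine eq_zero_of_dvd_of_degree_lt (p := cub (es m)) ?_ ?_
    · rw [← prod_eq]
      refine Cont.prod_dvd_of_eval m un fun k => ?_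
      have a1 := congrArg (fun P => (P.map S.subtype).eval (m k)) hpq
      have a2 := congrArg (fun P => (P.map S.subtype).eval (m k))
        (modByMonic_add_div (-(q * q2 bS)) (cub aS))
      simp only [Polynomial.map_add, Polynomial.map_mul, Polynomial.map_neg, e1, e2, e3, eval_add,
        eval_mul, eval_neg, U0, zero_mul, map_C, eval_C, q2_es', Subring.coe_subtype] at a1 a2
      rw [eval_sub, eval_mul, eval_C, hV, hW]
      linear_combination -w k * a1 - a2 + (q.map S.subtype).eval (m k) * rel hs H k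
    · rw [cub_degree]
      refine (degree_sub_le _ _).trans_lt (max_lt ?_ (degree_map_le.trans_lt (hd _ _)))
      rw [← smul_eq_C_mul]
      exact (degree_smul_le _ _).trans_lt (q2_deg V)
  intro i
  have e := congrArg (fun P => P.coeff i) (sub_eq_zero.1 hD)
  simp only [coeff_C_mul, q2_coeff, coeff_map] at e
  exact vals.div ρ _ ((hS _).1 ρ.2) ρ0 (e ▸ (hS _).1 (W.coeff i).2)

/-- the formal relations hold at a regular point -/
theorem point (hm : Function.Injective m0) (hs : ∀ k, s k ≠ 0) (hu : ∀ j, Conv 1 (u j))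
    (H : Sol F m0 s (fun j => th (u j)) m w) {V : Fin 3 → ℂ⟦X⟧} (hV : ∀ k, (q2 V).eval (m k) = w k)
    {z : ℂ} (hz : ‖z‖ < 1) (ha : ∀ i, Reg (es m i) z) (hv : ∀ i, Reg (V i) z) {μ : Fin 3 → ℂ}
    (hμ : (fun i => val (es m i) z) = es μ) :
    (∀ k, (q2 fun i => val (V i) z).eval (μ k) ^ 2 = F.eval (μ k)) ∧
    (∀ k, (q2 fun i => val (V i) z).eval (μ k) * (pp (es μ) fun j => ev (dq (u j)) z).eval (μ k) +
      (q2 fun i => val (dq (es m i)) z).eval (μ k) = 0) ∧
    val (∏ k, dd m k * w k) z = ∏ k, dd μ k * (q2 fun i => val (V i) z).eval (μ k) := by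
  have un := unit_sub hm H
  have hu' : ∀ j, Conv 1 (dq (u j)) := fun j => (Hol.diff (hu j)).1
  let aS : Fin 3 → Oq z := fun i => ⟨es m i, ha i⟩
  let bS : Fin 3 → Oq z := fun i => ⟨dq (es m i), (vals.der _ _ (ha i)).1⟩
  let uS : Fin 3 → Oq z := fun i => ⟨dq (u i), reg_of (vals.conv 1 _ z (hu' i) hz)⟩
  let vS : Fin 3 → Oq z := fun i => ⟨V i, hv i⟩
  have e1 : (cub aS).map (Oq z).subtype = cub (es m) := cub_map _ _
  have e2 : (pp aS uS).map (Oq z).subtype = pp (es m) fun j => dq (u j) := pp_map _ _ _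
  have e3 : (q2 bS).map (Oq z).subtype = q2 (es' m fun k => dq (m k)) := by
    rw [q2_map, ← dq_es]; rfl
  have e4 : (q2 vS).map (Oq z).subtype = q2 V := q2_map _ _
  have f1 : (cub aS).map (evq z) = cub (es μ) := by rw [cub_map, ← hμ]; rfl
  have f2 : (pp aS uS).map (evq z) = pp (es μ) fun j => ev (dq (u j)) z := by
    rw [pp_map, ← hμ]
    congr 1
    funext j
    exact val_conv (hu' j) hz
  have f3 : (q2 bS).map (evq z) = q2 fun i => val (dq (es m i)) z := q2_map _ _
  have f4 : (q2 vS).map (evq z) = q2 fun i => val (V i) z := q2_map _ _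
  have tr := transfer (Oq z).subtype Subtype.val_injective (evq z) aS m μ rfl hμ un
  refine ⟨fun k => ?_, fun k => ?_, ?_⟩
  · have := tr (q2 vS ^ 2 - F.map (cq z)) (fun k => by
      rw [Polynomial.map_sub, Polynomial.map_pow, e4, Polynomial.map_map, sub_cq, eval_sub, eval_pow,
        hV, H.sq, eval_map]
      exact sub_self _) k
    rwa [Polynomial.map_sub, Polynomial.map_pow, f4, Polynomial.map_map, evq_cq, Polynomial.map_id,
      eval_sub, eval_pow, sub_eq_zero] at this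
  · have := tr (q2 vS * pp aS uS + q2 bS) (fun k => by
      rw [Polynomial.map_add, Polynomial.map_mul, e4, e2, e3, eval_add, eval_mul, hV, rel hs H,
        q2_es', add_neg_cancel]) k
    rwa [Polynomial.map_add, Polynomial.map_mul, f4, f2, f3, eval_add, eval_mul] at this
  · have a1 := res_eq (Oq z).subtype aS (derivative (cub aS) * q2 vS) m rfl
    have a2 := res_eq (evq z) aS (derivative (cub aS) * q2 vS) μ hμ
    simp only [Polynomial.map_mul, ← derivative_map, e1, e4, f1, f4, eval_mul, der_cub, hV] at a1 a2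
    rw [← a1, ← a2]
    rfl

theorem der_es {μ : Fin 3 → ℂ → ℂ} {ν : Fin 3 → ℂ} {z : ℂ} (h : ∀ k, HasDerivAt (μ k) (ν k) z)
    (i : Fin 3) : HasDerivAt (fun y => es (fun k => μ k y) i) (es' (fun k => μ k z) ν i) z := by
  fin_cases i
  · exact (((h 0).mul (h 1)).mul (h 2)).neg.congr_deriv (by simp [es']; ring)
  · exact ((((h 0).mul (h 1)).add ((h 0).mul (h 2))).add ((h 1).mul (h 2))).congr_deriv
      (by simp [es'])
  · exact (((h 0).add (h 1)).add (h 2)).neg.congr_deriv (by simp [es'])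

end Mer

open Mer Vale.Agent.P027M.B in
theorem mer : MER := by
  intro F G _ pt E m0 s u m w hE hF hm hs hu u0 hg H
  have hc := mr_coeff hF hm hs hu u0 hg H
  have ha : ∀ i, Mr (es m i) := fun i => by
    have := hc i
    rwa [Mer.prod_eq, cub_coeff] at this
  obtain ⟨V, hV1, hV⟩ := exists_V hm hs hu hg H ha
  refine ⟨V, hc, hV1, fun k => by rw [← q2_eval, hV], ?_⟩
  have mi : Function.Injective m := fun a b h => hm (by rw [← H.m_zero, ← H.m_zero, h])
  have w0 : ∀ k, w k ≠ 0 := fun k => Cont.ne_of_cc (by rw [H.w_zero]; exact hs k)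
  set ρ := ∏ k, dd m k * w k with hρ
  have ρ0 : ρ ≠ 0 := Finset.prod_ne_zero_iff.2 fun k _ => mul_ne_zero (dd_ne mi k) (w0 k)
  have ρm : Mr ρ := by
    obtain ⟨S, hS⟩ := vals.sub
    let aS : Fin 3 → S := fun i => ⟨es m i, (hS _).2 (ha i)⟩
    let vS : Fin 3 → S := fun i => ⟨V i, (hS _).2 (hV1 i)⟩
    have e1 : (cub aS).map S.subtype = cub (es m) := cub_map _ _
    have e4 : (q2 vS).map S.subtype = q2 V := q2_map _ _
    have a1 := res_eq S.subtype aS (derivative (cub aS) * q2 vS) m rfl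
    simp only [Polynomial.map_mul, ← derivative_map, e1, e4, eval_mul, der_cub, hV] at a1
    rw [hρ, ← a1]
    exact (hS _).1 (Subtype.prop _)
  let good : ℂ → Prop := fun z =>
    (∀ i, Reg (es m i) z) ∧ (∀ i, Reg (V i) z) ∧ Reg ρ z ∧ val ρ z ≠ 0
  have hgood : ∀ᶠ z in cc, good z :=
    (eventually_all.2 fun i => vals.reg _ (ha i)).and ((eventually_all.2 fun i =>
      vals.reg _ (hV1 i)).and ((vals.reg _ ρm).and (vals.nz _ ρm ρ0)))
  have hopen : ∀ z, ‖z‖ < 1 → good z → ∀ᶠ y in 𝓝 z, ‖y‖ < 1 ∧ good y := fun z h0 h =>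
    (continuous_norm.continuousAt.eventually (gt_mem_nhds h0)).and
      ((eventually_all.2 fun i => (vals.der _ _ (h.1 i)).2.1).and
        ((eventually_all.2 fun i => (vals.der _ _ (h.2.1 i)).2.1).and
          ((vals.der _ _ h.2.2.1).2.1.and
            ((vals.der _ _ h.2.2.1).2.2.continuousAt.eventually_ne h.2.2.2))))
  let σ : ℂ → ℂ → ℂ := fun z x => (q2 fun i => val (V i) z).eval x
  let D : ℂ → G := fun z => ((cub fun i => val (es m i) z).roots.map fun x => pt x (σ z x)).sum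
  have hD : ∀ z μ, (fun i => val (es m i) z) = es μ → D z = ∑ k, pt (μ k) (σ z (μ k)) :=
    fun z μ h => by
      simp only [D]
      rw [h, roots_cub, Multiset.map_map]
      rfl
  have nz : ∀ z μ, ‖z‖ < 1 → good z → (fun i => val (es m i) z) = es μ →
      ∀ k, dd μ k ≠ 0 ∧ σ z (μ k) ≠ 0 := fun z μ h0 h hμ k => by
    have e := (point hm hs hu H hV h0 h.1 h.2.1 hμ).2.2
    exact mul_ne_zero_iff.1 (Finset.prod_ne_zero_iff.1 (e ▸ h.2.2.2) k (Finset.mem_univ k))
  let I : ℂ → Fin 3 → ℂ := fun z j => ev (u j) z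
  have hI : ∀ z : ℂ, ‖z‖ < 1 → HasDerivAt I (fun j => ev (dq (u j)) z) z := fun z hz =>
    hasDerivAt_pi.2 fun j => (Hol.diff (hu j)).2 z hz
  have loc : ∀ z0, ‖z0‖ < 1 → good z0 → ∀ᶠ z in 𝓝 z0, D z - E (I z) = D z0 - E (I z0) := by
    intro z0 h0 hz0
    obtain ⟨μ0, hμ0⟩ := exists_roots fun i => val (es m i) z0
    obtain ⟨μ, hμ⟩ := branches (fun i => val (es m i)) z0 μ0
      (inj_of_dd fun k => (nz z0 μ0 h0 hz0 hμ0 k).1) hμ0 ((hopen z0 h0 hz0).mono fun z hz i =>
        (vals.der _ _ (hz.2.1 i)).2.2.differentiableAt)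
    have key := hE.fam (Fin 3) (fun _ => 1) μ (fun k z => σ z (μ k z)) (fun k z => deriv (μ k) z)
      I z0 (fun k => ⟨?_, (nz z0 _ h0 hz0 hμ.self_of_nhds.2 k).2⟩) ?_
    · filter_upwards [key, hμ] with z h1 h2
      rw [hD z _ h2.2, hD z0 _ hμ.self_of_nhds.2]
      simp only [one_smul, map_sub] at h1
      rw [sub_eq_sub_iff_sub_eq_sub, h1]
    · simp only [σ, q2_eval]
      exact tendsto_finsetSum _ fun i _ => (vals.der _ _ (hz0.2.1 i)).2.2.continuousAt.mul
        ((hμ.self_of_nhds.1 k).continuousAt.pow _)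
    · filter_upwards [hopen z0 h0 hz0, hμ.eventually_nhds] with z h1 h2
      obtain ⟨h3, h4⟩ := h2.self_of_nhds
      obtain ⟨p1, p2, -⟩ := point hm hs hu H hV h1.1 h1.2.1 h1.2.2.1 h4
      refine ⟨fun k => ⟨(h3 k).hasDerivAt, p1 k⟩, ?_⟩
      have e : (fun i => val (dq (es m i)) z) = es' (fun k => μ k z) fun k => deriv (μ k) z :=
        funext fun i => (vals.der _ _ (h1.2.1 i)).2.2.unique
          ((der_es (fun k => (h3 k).hasDerivAt) i).congr_of_eventuallyEq
            (h2.mono fun y hy => congrFun hy.2 i))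
      have n := nz z _ h1.1 h1.2 h4
      convert hI z h1.1 using 1
      funext j
      refine Eq.trans ?_ (lag (fun k => μ k z) (fun k => deriv (μ k) z / σ z (μ k z))
        (fun j => ev (dq (u j)) z) (fun k => (n k).1) (fun k => ?_) j)
      · rw [Finset.sum_apply]
        refine Finset.sum_congr rfl fun k _ => ?_
        simp only [om, Pi.smul_apply, smul_eq_mul, Int.cast_one]
        ring
      · have p := p2 k
        rw [e, q2_es' (fun k => μ k z) (fun k => deriv (μ k) z) k] at p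
        have n2 := (n k).2
        rw [div_mul_eq_mul_div, div_eq_iff n2]
        linear_combination -p
  obtain ⟨r, r0, r1, hr⟩ := small hm hs hu u0 H
  obtain ⟨q0, hq0, hq1⟩ : ∃ q0 : ℂ, ‖q0‖ < r ∧ good q0 := by
    obtain ⟨q, h1, h2⟩ := ((ev_cc.1 hgood).dense_compl ℂ).exists_mem_open isOpen_ball
      ⟨0, mem_ball_self r0⟩
    have h3 := mem_ball_zero_iff.1 h2
    exact ⟨q, h3, by_contra fun h => h1 ⟨h3.trans_le r1, h⟩⟩
  have hom : ∀ z : ℂ, ‖z‖ < r → ∃ m' w' d : Fin 3 → Oq z, (∀ k, (m' k : ℂ⟦X⟧) = m k ∧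
      (w' k : ℂ⟦X⟧) = w k ∧ (d k : ℂ⟦X⟧) = dq (m k)) ∧ ∀ k, evq z (m' k) = ev (m k) z ∧
      evq z (w' k) = ev (w k) z ∧ evq z (d k) = ev (dq (m k)) z := fun z hz =>
    ⟨fun k => ⟨m k, reg_of (vals.conv r _ z (hr k).1 hz)⟩,
      fun k => ⟨w k, reg_of (vals.conv r _ z (hr k).2.1 hz)⟩,
      fun k => ⟨dq (m k), reg_of (vals.conv r _ z (Hol.diff (hr k).1).1 hz)⟩,
      fun k => ⟨rfl, rfl, rfl⟩, fun k => ⟨val_conv (hr k).1 hz, val_conv (hr k).2.1 hz,
        val_conv (Hol.diff (hr k).1).1 hz⟩⟩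
  have init : D q0 - E (I q0) = ∑ k, pt (m0 k) (s k) := by
    have key := hE.famU (Fin 3) (fun _ => 1) (fun k => ev (m k)) (fun k => ev (w k))
      (fun k => ev (dq (m k))) I (ball 0 r) isOpen_ball (convex_ball _ _).isPreconnected
      (fun z hz => ?_) 0 (mem_ball_self r0) q0 (mem_ball_zero_iff.2 hq0)
    · obtain ⟨m', w', d, h1, h2⟩ := hom q0 hq0
      have e1 : (fun i => val (es m i) q0) = es fun k => ev (m k) q0 := by
        funext i
        have : es m i = (es m' i : Oq q0) := by fin_cases i <;> simp [es, h1]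
        rw [this, ← evq_apply]
        fin_cases i <;> simp [es, h2]
      have e2 : ∀ k, σ q0 (ev (m k) q0) = ev (w k) q0 := fun k => by
        let vS : Fin 3 → Oq q0 := fun i => ⟨V i, hq1.2.1 i⟩
        have : (q2 vS).eval (m' k) = w' k := Subtype.ext (by
          rw [(h1 k).2.1, ← hV, ← (h1 k).1]
          simp [q2_eval, vS])
        rw [← (h2 k).1, ← (h2 k).2.1, ← this, ← eval_map_apply, q2_map]
        rfl
      have I0 : I 0 = 0 := funext fun j => by simp [I, Hol.zero, u0]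
      simp only [one_smul, Hol.zero, H.m_zero, H.w_zero, I0, sub_zero] at key
      rw [hD q0 _ e1]
      simp only [e2]
      rw [← key, sub_sub_cancel]
    · have hz' := mem_ball_zero_iff.1 hz
      obtain ⟨m', w', d, h1, h2⟩ := hom z hz'
      refine ⟨fun k => ⟨((Hol.diff (hr k).2.1).2 z hz').continuousAt, (hr k).2.2 z hz',
        (Hol.diff (hr k).1).2 z hz', ?_⟩, ?_⟩
      · have a := (An.rpow Hol.hol (r := r) (φ := ev (w k)) ⟨(hr k).2.1, fun _ _ => rfl⟩ 2).2 z hz'
        have b := (An.raeval Hol.hol (r := r) (φ := ev (m k)) ⟨(hr k).1, fun _ _ => rfl⟩ F).2 z hz'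
        exact a.symm.trans ((congrArg (fun f => ev f z) (H.sq k)).trans b)
      · convert hI z (hz'.trans_le r1) using 1
        funext j
        have wi : ∀ k, Val (w k)⁻¹ z (ev (w k) z)⁻¹ := fun k =>
          ⟨r, PowerSeries.C 1, w k, hz', (Hol.const r 1).1, (hr k).2.1, (hr k).2.2 z hz', by
            rw [PowerSeries.mul_inv_cancel _ (by rw [H.w_zero]; exact hs k), map_one], by
            rw [mul_inv_cancel₀ ((hr k).2.2 z hz'), (Hol.const r 1).2]⟩
        let v : Fin 3 → Oq z := fun k => ⟨(w k)⁻¹, reg_of (wi k)⟩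
        have hv : ∀ k, evq z (v k) = (ev (w k) z)⁻¹ := fun k => vals.uniq _ _ _ (wi k)
        have : dq (u j) = (∑ k, m' k ^ (j : ℕ) * (d k * v k) : Oq z) := by
          rw [← ode' H j]
          simp [h1, v]
        rw [← val_conv (Hol.diff (hu j)).1 (hz'.trans_le r1)]
        show _ = val (dq (u j)) z
        rw [this, ← evq_apply, map_sum, Finset.sum_apply]
        refine Finset.sum_congr rfl fun k _ => ?_
        simp only [om, Pi.smul_apply, smul_eq_mul, Int.cast_one, map_mul, map_pow, h2, hv]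
        ring
  have cst : ∀ z, ‖z‖ < 1 → good z → D z - E (I z) = ∑ k, pt (m0 k) (s k) := fun z h0 h => by
    haveI := Subtype.preconnectedSpace (preconn hgood)
    have lc : IsLocallyConstant fun z : {q | ‖q‖ < 1 ∧ good q} => D z - E (I z) :=
      (IsLocallyConstant.iff_eventually_eq _).2 fun z =>
        continuous_subtype_val.continuousAt.eventually (loc z z.2.1 z.2.2)
    rw [← init]
    exact lc.apply_eq_of_preconnectedSpace ⟨z, h0, h⟩ ⟨q0, hq0.trans_le r1, hq1⟩
  have hb : ∀ᶠ z in cc, ‖z‖ < 1 := ev_cc.2 (Set.countable_empty.mono fun q hq => hq.2 hq.1)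
  filter_upwards [hgood, hb] with z h h0
  obtain ⟨μ, hμ⟩ := exists_roots fun i => val (es m i) z
  have n := nz z μ h0 h hμ
  refine ⟨μ, fun k => σ z (μ k), inj_of_dd fun k => (n k).1, fun k => ⟨(n k).2,
    (point hm hs hu H hV h0 h.1 h.2.1 hμ).1 k⟩, fun i => ?_, fun k => (q2_eval _ _).symm, ?_⟩
  · let aS : Fin 3 → Oq z := fun i => ⟨es m i, h.1 i⟩
    have e1 : (cub aS).map (Oq z).subtype = cub (es m) := cub_map _ _
    have f1 : (cub aS).map (evq z) = cub (es μ) := by rw [cub_map, ← hμ]; rfl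
    rw [Mer.prod_eq, Mer.prod_eq, ← e1, ← f1, coeff_map, coeff_map]
    rfl
  · rw [← hD z μ hμ, ← cst z h0 h, sub_sub_cancel]

end Vale.Agent.P027M.X
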