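import Vale.Agent.P027M.X.MonDefs
import Vale.Agent.P027M.X.Unq

/-! # P027, route M, block MON : row MONO -/

set_option linter.all false

open Polynomial Filter UpperHalfPlane
open scoped PowerSeries MatrixGroups IntermediateField

noncomputable section

namespace Vale.Agent.P027M.X

open Vale.Agent.P027M.B Vale.Agent.P022.H218.L3 Vale.Agent.P022.H236.L3 Vale.Agent.P022.H542.L3

namespace Mono

/-- two injective triples, the first inside the second, have the same polynomial -/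
theorem prod_eq {μ μ' : Fin 3 → ℂ} (h : Function.Injective μ) (hk : ∀ k, ∃ l, μ k = μ' l) :
    ∏ k, (X - C (μ k)) = ∏ k, (X - C (μ' k)) := by
  choose π hπ using hk
  have hi : Function.Injective π := fun a b e => h (by rw [hπ, hπ, e])
  have hb := Finite.injective_iff_bijective.1 hi
  rw [← (Equiv.ofBijective π hb).prod_comp fun l => X - C (μ' l)]
  exact Finset.prod_congr rfl fun k _ => by rw [hπ]; rfl

/-- algebraic expansions give algebraic functions -/
theorem alg_of_exM {Γ : Subgroup SL(2, ℤ)} {x a : ℂ⟦X⟧} {x0 : MF Γ} {y : Mer}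
    (hx : ExM 1 (x : LS) (x0 : Mer)) (hy : ExM 1 (a : LS) y)
    (ha : IsAlgebraic (Algebra.adjoin ℂ {x}) a) : IsAlgebraic (MF Γ) y := by
  have h1 : ∀ r ∈ Algebra.adjoin ℂ {x}, ∃ z : MF Γ, ExM 1 ((r : ℂ⟦X⟧) : LS) (z : Mer) := by
    intro r hr
    induction hr using Algebra.adjoin_induction with
    | mem r hr => rw [Set.mem_singleton_iff.1 hr]; exact ⟨x0, hx⟩
    | algebraMap c =>
      refine ⟨algebraMap ℂ (MF Γ) c, ?_⟩
      rw [PowerSeries.algebraMap_apply, PowerSeries.coe_C]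
      exact ExM.const 1 c
    | add r r' _ _ h h' =>
      obtain ⟨z, hz⟩ := h
      obtain ⟨z', hz'⟩ := h'
      exact ⟨z + z', by rw [PowerSeries.coe_add]; exact hz.add hz'⟩
    | mul r r' _ _ h h' =>
      obtain ⟨z, hz⟩ := h
      obtain ⟨z', hz'⟩ := h'
      exact ⟨z * z', by rw [PowerSeries.coe_mul]; exact hz.mul hz'⟩
  choose z hz using fun r : Algebra.adjoin ℂ {x} => h1 r r.2
  have h0 : ExM 1 (0 : LS) (0 : Mer) := by
    have := ExM.const 1 0
    rwa [map_zero, map_zero] at this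
  have hpow : ∀ n : ℕ, ExM 1 ((a : LS) ^ n) (y ^ n) := fun n => by
    have := ExM.prod (Finset.range n) (X := fun _ => (a : LS)) (x := fun _ => y) fun _ _ => hy
    rwa [Finset.prod_const, Finset.prod_const, Finset.card_range] at this
  have hsum : ∀ (s : Finset ℕ) (X : ℕ → LS) (v : ℕ → Mer), (∀ i, ExM 1 (X i) (v i)) →
      ExM 1 (∑ i ∈ s, X i) (∑ i ∈ s, v i) := fun s X v h => by
    induction s using Finset.induction_on with
    | empty => simpa using h0
    | insert i s hi ih => rw [Finset.sum_insert hi, Finset.sum_insert hi]; exact (h i).add ih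
  have hinj : ∀ v : Mer, ExM 1 0 v → v = 0 := fun v hv => by
    by_contra hne
    have h2 := hv.mul (hv.inv one_ne_zero)
    rw [zero_mul, mul_inv_cancel₀ hne] at h2
    have h3 := ExM.const 1 1
    rw [map_one, map_one] at h3
    exact zero_ne_one (h2.unique one_ne_zero h3)
  obtain ⟨P, hP, hPa⟩ := ha
  refine ⟨∑ i ∈ P.support, monomial i (z (P.coeff i)), fun e => ?_, hinj _ ?_⟩
  · have h2 := congrArg (fun Q => Q.coeff P.natDegree) e
    simp only [finsetSum_coeff, coeff_monomial, Finset.sum_ite_eq', coeff_zero] at h2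
    rw [if_pos (natDegree_mem_support_of_nonzero hP)] at h2
    have h3 := hz (P.coeff P.natDegree)
    rw [h2] at h3
    have h4 := h3.unique one_ne_zero h0
    exact leadingCoeff_ne_zero.2 hP (Subtype.ext (HahnSeries.ofPowerSeries_injective
      (h4.trans (map_zero (HahnSeries.ofPowerSeries ℤ ℂ)).symm)))
  · have h2 := hsum P.support _ _ fun i => (hz (P.coeff i)).mul (hpow i)
    have h3 : ∑ i ∈ P.support, ((P.coeff i : ℂ⟦X⟧) : LS) * (a : LS) ^ i = 0 := by
      rw [aeval_def, eval₂_eq_sum, Polynomial.sum_def] at hPa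
      have h4 := congrArg (HahnSeries.ofPowerSeries ℤ ℂ) hPa
      rw [map_sum, map_zero] at h4
      rw [← h4]
      exact Finset.sum_congr rfl fun i _ => by rw [map_mul, map_pow]; rfl
    rw [h3] at h2
    rw [map_sum]
    simp only [aeval_monomial]
    exact h2

/-- invariance at a generic point -/
theorem inv_of (hG : GERM) {α β : ℍ → ℂ} (hα : α ∈ Hol) (hβ : β ∈ Hol) (h0 : β ≠ 0)
    (γ : SL(2, ℤ)) {p : ℂ → Prop} (hp : ∀ᶠ q in cc, p q)
    (h : ∀ τ : ℍ, p (qq τ) → p (qq (γ • τ : ℍ)) → β τ ≠ 0 → β (γ • τ) ≠ 0 →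
      α (γ • τ) / β (γ • τ) = α τ / β τ) :
    act γ⁻¹ (inc α hα / inc β hβ) = inc α hα / inc β hβ := by
  obtain ⟨𝒰, φ, -, hφ, ht, hz⟩ := hG
  have e : ∀ (f : ℍ → ℂ) (hf : f ∈ Hol),
      act γ⁻¹ (inc f hf) = inc (fun τ => f (γ • τ)) (comp_mem γ hf) := fun f hf => by
    unfold inc
    rw [act_algebraMap]
    congr 1
    exact Subtype.ext (funext fun τ => congrArg f (congrArg (· • τ) (inv_inv γ)))
  have h1 : (fun τ => β (γ • τ)) ≠ 0 := fun e0 => h0 (funext fun τ => by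
    have := congrFun e0 (γ⁻¹ • τ)
    simpa using this)
  rw [map_div₀, e, e, div_eq_div_iff (inc_ne_zero _ h1) (inc_ne_zero _ h0)]
  apply φ.injective
  rw [map_mul, map_mul, hφ, hφ, hφ, hφ, ← Germ.coe_mul, ← Germ.coe_mul, Germ.coe_eq]
  have t1 := (ht 1).eventually hp
  simp only [one_smul] at t1
  filter_upwards [t1, (ht γ).eventually hp, hz β hβ h0, hz _ (comp_mem γ hβ) h1] with τ a b c d
  have := h τ a b c d
  rw [div_eq_div_iff d c] at this
  exact this

theorem coeff_alg {x : ℂ⟦X⟧} {m : Fin 3 → ℂ⟦X⟧}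
    (h : ∀ k, IsAlgebraic (Algebra.adjoin ℂ {x}) (m k)) (n : ℕ) :
    IsAlgebraic (Algebra.adjoin ℂ {x}) ((∏ k, (X - C (m k))).coeff n) := by
  let S := Subalgebra.algebraicClosure (Algebra.adjoin ℂ {x}) ℂ⟦X⟧
  revert n
  refine Finset.prod_induction _ (fun Q : ℂ⟦X⟧[X] => ∀ n, Q.coeff n ∈ S) (fun P Q hP hQ n => ?_)
    (fun n => ?_) fun k _ n => ?_
  · rw [coeff_mul]
    exact sum_mem fun c _ => mul_mem (hP _) (hQ _)
  · rw [coeff_one]
    split_ifs
    exacts [one_mem _, zero_mem _]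
  · rw [coeff_sub, coeff_X, coeff_C, sub_eq_add_neg]
    refine add_mem ?_ ?_
    · split_ifs
      exacts [one_mem _, zero_mem _]
    · split_ifs
      · exact (h k).neg
      · rw [neg_zero]; exact zero_mem _

end Mono

theorem mono (hM : MER) (hB : GLOB) (hF : FIX) (hG : GERM) : MONO := by
  intro Γ F E x u Φ H h0 m0 s m w hm hs hg hS n
  obtain ⟨V, hU, -, -, hq⟩ := hM F _ _ E m0 s u m w H.exp H.deg hm hs H.cu H.u0 hg hS
  have ha := Mono.coeff_alg (H.alg m0 s m w hm hs hS) n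
  obtain ⟨α, β, hα, hβ, hβ0, hE, hv⟩ := hB x _ H.cx (hU n) ha
  obtain ⟨x0, hx0, -⟩ := H.mx
  refine ⟨_, hF Γ _ (Mono.alg_of_exM hx0 hE ha) fun γ hγ => ?_, hE⟩
  rw [← inv_inv γ]
  refine Mono.inv_of hG hα hβ hβ0 γ⁻¹ hq fun τ h1 h2 b1 b2 => ?_
  obtain ⟨μ, σ, hμ, hσ, c1, -, e1⟩ := h1
  obtain ⟨μ', σ', hμ', hσ', c2, -, e2⟩ := h2
  have e3 : (fun j => ev (u j) (qq (γ⁻¹ • τ : ℍ))) = (fun j => ev (u j) (qq τ)) + Φ γ⁻¹ :=
    funext fun j => H.per _ (Γ.inv_mem hγ) τ j
  rw [e3, map_add, h0 _ (Γ.inv_mem hγ), add_zero, ← e1, sub_left_inj] at e2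
  rw [← hv _ b1, ← hv _ b2, c1, c2,
    Mono.prod_eq hμ' ((cls H.deg H.sep).unq μ' σ' μ σ hμ' hμ hσ' hσ e2)]

end Vale.Agent.P027M.X
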