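import Vale.Agent.P027M.X.MonDefs

/-! # P027, route M, row X.ORB : the conjugates are the translates -/

set_option linter.all false

open Polynomial
open scoped MatrixGroups

noncomputable section

namespace Vale.Agent.P027M.X

open Vale.Agent.P022.H218.L3

namespace Orb

variable {k K M G : Type} [Field k] [Field K] [Field M] [Algebra k M] [Algebra K M] [Group G]
  (act : G →* (M ≃ₐ[k] M)) (Γ : Subgroup G)
  (h0 : ∀ γ ∈ Γ, ∀ c : K, act γ (algebraMap K M c) = algebraMap K M c)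
  (hF : ∀ y : M, IsAlgebraic K y → (∀ γ ∈ Γ, act γ y = y) → ∃ c : K, algebraMap K M c = y)

include h0

theorem act_aeval {γ : G} (hγ : γ ∈ Γ) (y : M) (p : K[X]) :
    act γ (aeval y p) = aeval (act γ y) p := by
  induction p using Polynomial.induction_on' with
  | add p q hp hq => rw [map_add, map_add, map_add, hp, hq]
  | monomial n c => rw [aeval_monomial, aeval_monomial, map_mul, map_pow, h0 γ hγ]

include hF

/-- the product over the orbit -/
theorem prod_orbit {y : M} (hy : IsIntegral K y) :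
    ∃ (S : Finset M) (Q : K[X]), y ∈ S ∧ (∀ z ∈ S, ∃ γ ∈ Γ, act γ y = z) ∧
      Q.map (algebraMap K M) = ∏ z ∈ S, (X - C z) := by
  classical
  have hroot : ∀ γ ∈ Γ, aeval (act γ y) (minpoly K y) = 0 := fun γ hγ => by
    rw [← act_aeval act Γ h0 hγ, minpoly.aeval, map_zero]
  have hfin : {z | ∃ γ ∈ Γ, act γ y = z}.Finite :=
    ((minpoly K y).rootSet_finite M).subset (by
      rintro _ ⟨γ, hγ, rfl⟩
      exact mem_rootSet.2 ⟨minpoly.ne_zero hy, hroot γ hγ⟩)
  set S := hfin.toFinset with hS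
  have hm : ∀ z, z ∈ S ↔ ∃ γ ∈ Γ, act γ y = z := fun z => hfin.mem_toFinset
  have h1 : (∏ z ∈ S, (X - C z) : M[X]) ∈ liftsRing (algebraMap (integralClosure K M) M) :=
    Subring.prod_mem _ fun z hz => sub_mem (X_mem_lifts _) (C'_mem_lifts (by
      obtain ⟨γ, hγ, rfl⟩ := (hm z).1 hz
      exact ⟨⟨_, minpoly K y, minpoly.monic hy, hroot γ hγ⟩, rfl⟩))
  have h2 : ∀ γ ∈ Γ, (∏ z ∈ S, (X - C z) : M[X]).map (act γ : M →+* M) =
      ∏ z ∈ S, (X - C z) := fun γ hγ => by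
    rw [Polynomial.map_prod]
    refine Finset.prod_equiv (act γ).toEquiv (fun z => ?_) fun z _ => by simp
    rw [hm, hm]
    constructor
    · rintro ⟨g, hg, rfl⟩
      exact ⟨γ * g, mul_mem hγ hg, by rw [map_mul]; rfl⟩
    · rintro ⟨g, hg, e⟩
      refine ⟨γ⁻¹ * g, mul_mem (inv_mem hγ) hg, ?_⟩
      rw [map_mul, AlgEquiv.mul_apply, e, map_inv]
      exact (act γ).symm_apply_apply z
  have h3 : (∏ z ∈ S, (X - C z) : M[X]) ∈ lifts (algebraMap K M) := by
    rw [lifts_iff_coeff_lifts]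
    intro n
    obtain ⟨a, ha⟩ := (lifts_iff_coeff_lifts _).1 h1 n
    refine hF _ (by rw [← ha]; exact IsIntegral.isAlgebraic a.2) fun γ hγ => ?_
    have := congrArg (coeff · n) (h2 γ hγ)
    simpa using this
  obtain ⟨Q, hQ⟩ := (mem_lifts _).1 h3
  exact ⟨S, Q, (hm y).2 ⟨1, one_mem _, by simp⟩, fun z hz => (hm z).1 hz, hQ⟩

theorem main [CharZero K] {E W : Type} [Field E] [Field W] [Algebra K E] [FiniteDimensional K E]
    (ρ : E →ₐ[K] M) (φ : M →+* W) (τ : E →+* W)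
    (h : ∀ y : K, τ (algebraMap K E y) = φ (algebraMap K M y)) :
    ∃ γ ∈ Γ, ∀ z, τ z = φ (act γ (ρ z)) := by
  let pb := Field.powerBasisOfFiniteOfSeparable K E
  obtain ⟨S, Q, h1, h2, h3⟩ := prod_orbit act Γ h0 hF (pb.isIntegral_gen.map ρ)
  have ht : ∀ p : K[X], τ (aeval pb.gen p) = eval₂ φ (τ pb.gen) (p.map (algebraMap K M)) :=
    fun p => by
      rw [aeval_def, hom_eval₂, eval₂_map]
      exact congrArg (eval₂ · _ p) (RingHom.ext h)
  have h4 : aeval pb.gen Q = 0 := (ρ : E →+* M).injective (by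
    show ρ _ = ρ 0
    rw [← aeval_algHom_apply, map_zero, aeval_def, eval₂_eq_eval_map, h3, eval_prod]
    exact Finset.prod_eq_zero h1 (by simp))
  have h5 := ht Q
  rw [h4, map_zero, h3, eval₂_finsetProd] at h5
  obtain ⟨z, hz, h6⟩ := Finset.prod_eq_zero_iff.1 h5.symm
  obtain ⟨γ, hγ, rfl⟩ := h2 z hz
  rw [eval₂_sub, eval₂_X, eval₂_C, sub_eq_zero] at h6
  refine ⟨γ, hγ, fun z => ?_⟩
  obtain ⟨p, rfl⟩ := pb.exists_eq_aeval' z
  rw [ht, ← aeval_algHom_apply, act_aeval act Γ h0 hγ, aeval_def, hom_eval₂, eval₂_map, h6]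

end Orb

theorem orb (hF : FIX) : ORB := by
  intro Γ E W _ _ _ _ ρ φ τ h
  haveI : CharZero (MF Γ) := charZero_of_injective_algebraMap (algebraMap ℂ (MF Γ)).injective
  exact Orb.main act Γ (fun γ hγ c => act_eq_self c.2 hγ)
    (fun y h1 h2 => ⟨⟨y, hF Γ y h1 h2⟩, rfl⟩) ρ φ τ h

end Vale.Agent.P027M.X
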