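import Vale.Agent.P027M.X.HDefs

/-! # P027, route M, row X.SOL : the formal solution exists -/

set_option linter.all false

open Polynomial
open scoped PowerSeries

noncomputable section

namespace Vale.Agent.P027M.X

namespace Sol

variable {L : Type} [Field L]

/-- congruence modulo `X ^ n` -/
def Cg (n : ℕ) (a b : L⟦X⟧) : Prop := PowerSeries.X ^ n ∣ a - b

variable {n : ℕ} {a b c a' b' : L⟦X⟧}

theorem cg_iff : Cg n a b ↔ ∀ i < n, PowerSeries.coeff i a = PowerSeries.coeff i b := by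
  simp only [Cg, PowerSeries.X_pow_dvd_iff, map_sub, sub_eq_zero]

theorem Cg.rfl : Cg n a a := cg_iff.2 fun _ _ => Eq.refl _

theorem Cg.add (h : Cg n a a') (h' : Cg n b b') : Cg n (a + b) (a' + b') := by
  have := dvd_add h h'
  rwa [sub_add_sub_comm] at this

theorem Cg.sub (h : Cg n a a') (h' : Cg n b b') : Cg n (a - b) (a' - b') := by
  have := dvd_sub h h'
  rwa [sub_sub_sub_comm] at this

theorem Cg.mul (h : Cg n a a') (h' : Cg n b b') : Cg n (a * b) (a' * b') := by
  have := dvd_add (h.mul_right b) (h'.mul_left a')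
  rwa [show (a - a') * b + a' * (b - b') = a * b - a' * b' by ring] at this

theorem Cg.inv (h : Cg n a a') (h0 : PowerSeries.constantCoeff a ≠ 0)
    (h0' : PowerSeries.constantCoeff a' ≠ 0) : Cg n a⁻¹ a'⁻¹ := by
  have i1 := PowerSeries.mul_inv_cancel _ h0
  have i2 := PowerSeries.mul_inv_cancel _ h0'
  have := h.mul_right (-(a⁻¹ * a'⁻¹))
  rwa [show (a - a') * -(a⁻¹ * a'⁻¹) = a⁻¹ - a'⁻¹ by
    linear_combination (-a'⁻¹) * i1 + a⁻¹ * i2] at this

theorem Cg.aeval (h : Cg n a a') (F : L[X]) : Cg n (aeval a F) (aeval a' F) := by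
  refine dvd_trans h ?_
  rw [← eval_map_algebraMap, ← eval_map_algebraMap]
  exact sub_dvd_eval_sub _ _ _

/-- the primitive with a given constant term -/
def pr (c : L) (f : L⟦X⟧) : L⟦X⟧ :=
  PowerSeries.mk fun n => Nat.casesOn n c fun k => PowerSeries.coeff k f / (k + 1)

theorem pr_zero (c : L) (f : L⟦X⟧) : PowerSeries.constantCoeff (pr c f) = c := by
  rw [← PowerSeries.coeff_zero_eq_constantCoeff_apply, pr, PowerSeries.coeff_mk]
  rfl

theorem pr_der [CharZero L] (c : L) (f : L⟦X⟧) : PowerSeries.derivative L (pr c f) = f := by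
  ext n
  rw [PowerSeries.coeff_derivative, pr, PowerSeries.coeff_mk]
  exact div_mul_cancel₀ _ (Nat.cast_add_one_ne_zero n)

theorem Cg.pr (h : Cg n a b) (c : L) : Cg (n + 1) (pr c a) (pr c b) := by
  rw [cg_iff] at h ⊢
  intro i hi
  rw [Sol.pr, Sol.pr, PowerSeries.coeff_mk, PowerSeries.coeff_mk]
  cases i with
  | zero => exact Eq.refl _
  | succ k =>
    show _ / _ = _ / _
    rw [h k (by omega)]

/-- formal differential equations have solutions -/
theorem picard [CharZero L] {ι : Type} (y0 : ι → L) (G : (ι → L⟦X⟧) → ι → L⟦X⟧)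
    (hG : ∀ n y y', (∀ i, PowerSeries.constantCoeff (y i) = y0 i) →
      (∀ i, PowerSeries.constantCoeff (y' i) = y0 i) → (∀ i, Cg n (y i) (y' i)) →
      ∀ i, Cg n (G y i) (G y' i)) :
    ∃ y : ι → L⟦X⟧, (∀ i, PowerSeries.constantCoeff (y i) = y0 i) ∧
      ∀ i, PowerSeries.derivative L (y i) = G y i := by
  let T : (ι → L⟦X⟧) → ι → L⟦X⟧ := fun y i => pr (y0 i) (G y i)
  let Y : ℕ → ι → L⟦X⟧ := fun n => T^[n] fun i => PowerSeries.C (y0 i)
  have hY : ∀ n, Y (n + 1) = T (Y n) := fun n => Function.iterate_succ_apply' _ _ _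
  have h0 : ∀ n i, PowerSeries.constantCoeff (Y n i) = y0 i := by
    intro n i
    cases n with
    | zero => exact PowerSeries.constantCoeff_C _
    | succ n => rw [hY]; exact pr_zero _ _
  have h1 : ∀ n i, Cg n (Y (n + 1) i) (Y n i) := by
    intro n
    induction n with
    | zero => exact fun i => cg_iff.2 fun _ h => absurd h (Nat.not_lt_zero _)
    | succ n ih =>
      intro i
      have := (hG n _ _ (h0 _) (h0 _) ih i).pr (y0 i)
      rw [hY (n + 1)]
      nth_rewrite 2 [hY n]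
      exact this
  have h2 : ∀ n k i, PowerSeries.coeff n (Y (n + 1 + k) i) = PowerSeries.coeff n (Y (n + 1) i) := by
    intro n k i
    induction k with
    | zero => rfl
    | succ k ih => rw [← ih, ← add_assoc]; exact cg_iff.1 (h1 _ i) n (by omega)
  let y : ι → L⟦X⟧ := fun i => PowerSeries.mk fun n => PowerSeries.coeff n (Y (n + 1) i)
  have h3 : ∀ n i, Cg n (y i) (Y n i) := fun n i => cg_iff.2 fun l hl => by
    obtain ⟨k, rfl⟩ : ∃ k, n = l + 1 + k := ⟨n - (l + 1), by omega⟩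
    rw [h2, PowerSeries.coeff_mk]
  have h4 : ∀ i, PowerSeries.constantCoeff (y i) = y0 i := fun i => by
    rw [← h0 1 i, ← PowerSeries.coeff_zero_eq_constantCoeff_apply,
      ← PowerSeries.coeff_zero_eq_constantCoeff_apply]
    exact cg_iff.1 (h3 1 i) 0 one_pos
  refine ⟨y, h4, fun i => ?_⟩
  have h5 : y i = T y i := by
    ext n
    rw [PowerSeries.coeff_mk, hY]
    exact (cg_iff.1 ((hG n _ _ h4 (h0 n) (h3 n) i).pr (y0 i)) n (Nat.lt_succ_self n)).symm
  rw [h5]
  exact pr_der _ _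

/-- the discriminant -/
def dV (m : Fin 3 → L⟦X⟧) : L⟦X⟧ := (m 0 - m 1) * (m 0 - m 2) * (m 1 - m 2)

/-- the solution of the Vandermonde system -/
def rr (g m : Fin 3 → L⟦X⟧) (k : Fin 3) : L⟦X⟧ :=
  (g 2 - (m (k + 1) + m (k + 2)) * g 1 + m (k + 1) * m (k + 2) * g 0) * (m (k + 1) - m (k + 2)) *
    (dV m)⁻¹

theorem dV_ne {m0 : Fin 3 → L} (hm : Function.Injective m0) {m : Fin 3 → L⟦X⟧}
    (h : ∀ k, PowerSeries.constantCoeff (m k) = m0 k) : PowerSeries.constantCoeff (dV m) ≠ 0 := by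
  simp only [dV, map_mul, map_sub, h]
  refine mul_ne_zero (mul_ne_zero ?_ ?_) ?_ <;> exact sub_ne_zero.2 (hm.ne (by decide))

theorem rr_sum (g : Fin 3 → L⟦X⟧) {m : Fin 3 → L⟦X⟧} (h : PowerSeries.constantCoeff (dV m) ≠ 0)
    (j : Fin 3) : ∑ k, m k ^ (j : ℕ) * rr g m k = g j := by
  have i1 := PowerSeries.mul_inv_cancel _ h
  have e1 : (1 + 2 : Fin 3) = 0 := rfl
  have e2 : (2 + 1 : Fin 3) = 0 := rfl
  have e3 : (2 + 2 : Fin 3) = 1 := rfl
  have e4 : (1 + 1 : Fin 3) = 2 := rfl
  rw [Fin.sum_univ_three]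
  simp only [rr, zero_add, e1, e2, e3, e4]
  generalize (dV m)⁻¹ = v at i1
  rw [dV] at i1
  fin_cases j
  · simp only [Fin.zero_eta, Fin.val_zero]
    linear_combination g 0 * i1
  · simp only [Fin.mk_one, Fin.val_one]
    linear_combination g 1 * i1
  · simp only [Fin.reduceFinMk, Fin.val_two]
    linear_combination g 2 * i1

theorem rr_cg (g : Fin 3 → L⟦X⟧) {m m' : Fin 3 → L⟦X⟧} (h : PowerSeries.constantCoeff (dV m) ≠ 0)
    (h' : PowerSeries.constantCoeff (dV m') ≠ 0) (c : ∀ k, Cg n (m k) (m' k)) (k : Fin 3) :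
    Cg n (rr g m k) (rr g m' k) :=
  (((Cg.rfl.sub (((c _).add (c _)).mul Cg.rfl)).add (((c _).mul (c _)).mul Cg.rfl)).mul
    ((c _).sub (c _))).mul
    (Cg.inv ((((c _).sub (c _)).mul ((c _).sub (c _))).mul ((c _).sub (c _))) h h')

end Sol

open Sol in
theorem sol : SOL := by
  intro L _ _ F m0 s h hm hs hh
  choose g hg using fun j => PowerSeries.X_dvd_iff.2 (hh j)
  obtain ⟨y, y0, yd⟩ := picard (ι := Fin 3 ⊕ Fin 3) (Sum.elim m0 s)
    (fun y => Sum.elim (fun k => y (.inr k) * rr g (fun l => y (.inl l)) k)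
      fun k => aeval (y (.inl k)) (derivative F) * rr g (fun l => y (.inl l)) k *
        PowerSeries.C (2 : L)⁻¹) (by
      intro n y y' h1 h2 c i
      have r := rr_cg g (dV_ne hm fun k => h1 (.inl k)) (dV_ne hm fun k => h2 (.inl k))
        fun k => c (.inl k)
      rcases i with k | k
      · exact (c _).mul (r k)
      · exact (((c _).aeval _).mul (r k)).mul Cg.rfl)
  have d1 : ∀ k, PowerSeries.derivative L (y (.inl k)) =
      y (.inr k) * rr g (fun l => y (.inl l)) k := fun k => yd (.inl k)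
  have d2 : ∀ k, PowerSeries.derivative L (y (.inr k)) = aeval (y (.inl k)) (derivative F) *
      rr g (fun l => y (.inl l)) k * PowerSeries.C (2 : L)⁻¹ := fun k => yd (.inr k)
  have c1 : ∀ k, PowerSeries.constantCoeff (y (.inl k)) = m0 k := fun k => y0 (.inl k)
  have c2 : ∀ k, PowerSeries.constantCoeff (y (.inr k)) = s k := fun k => y0 (.inr k)
  refine ⟨fun k => y (.inl k), fun k => y (.inr k), c1, c2, fun k => ?_, fun j => ?_⟩
  · have e2 : (PowerSeries.C (2 : L)⁻¹ : L⟦X⟧) * 2 = 1 := by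
      rw [← map_ofNat (PowerSeries.C (R := L)) 2, ← map_mul, inv_mul_cancel₀ two_ne_zero, map_one]
    refine PowerSeries.derivative.ext ?_ ?_
    · rw [Derivation.map_aeval, sq, Derivation.leibniz, d1, d2, smul_eq_mul, smul_eq_mul]
      linear_combination (y (.inr k) * aeval (y (.inl k)) (derivative F) *
        rr g (fun l => y (.inl l)) k) * e2
    · rw [map_pow, c2, (hs k).2, ← c1,
        map_aeval_eq_aeval_map (φ := RingHom.id L) (ψ := PowerSeries.constantCoeff) ?_ F]
      · simp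
      · ext a
        simp [PowerSeries.algebraMap_apply]
  · rw [hg j, ← rr_sum g (dV_ne hm c1) j, Finset.mul_sum]
    refine Finset.sum_congr rfl fun k _ => ?_
    have i1 := PowerSeries.mul_inv_cancel (y (.inr k)) (by rw [c2]; exact (hs k).1)
    rw [B.th, d1]
    linear_combination (PowerSeries.X * y (.inl k) ^ (j : ℕ) * rr g (fun l => y (.inl l)) k) * i1

end Vale.Agent.P027M.X
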