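import Vale.Agent.P027M.X.Mon3
import Vale.Agent.P027M.X.Mono
import Vale.Agent.P027M.X.Sol
import Vale.Agent.P027M.X.Glob
import Vale.Agent.P027M.X.Germ
import Vale.Agent.P027M.X.Orb
import Vale.Agent.P027M.X.Fix
import Vale.Agent.P027M.X.Mer
import Vale.Agent.P027M.B.Top

/-! # P027, route M, row X.MONS : the exponentials of the periods form a Galois stable set -/

open Polynomial Filter UpperHalfPlane
open scoped PowerSeries MatrixGroups IntermediateField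

noncomputable section

namespace Vale.Agent.P027M.X

open Vale.Agent.P027M.B Vale.Agent.P022.H218.L3 Vale.Agent.P022.H236.L3 Vale.Agent.P022.H542.L3

namespace Mo

theorem base {F : ℂ[X]} (hF : F ≠ 0) {u : Fin 3 → ℂ⟦X⟧}
    (u0 : ∀ j, PowerSeries.constantCoeff (u j) = 0) (hu : ∃ j, u j ≠ 0) :
    ∃ m0 s : Fin 3 → ℂ, Function.Injective m0 ∧ (∀ k, s k ≠ 0 ∧ s k ^ 2 = F.eval (m0 k)) ∧
      Gen m0 fun j => th (u j) := by
  classical
  have ex : ∃ n, ∃ j, PowerSeries.coeff n (th (u j)) ≠ 0 := by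
    by_contra h
    push Not at h
    obtain ⟨j, hj⟩ := hu
    refine hj (PowerSeries.ext fun n => ?_)
    have e := h n j
    rw [Corr.coeff_th] at e
    rcases n with _ | n
    · simpa using u0 j
    · simpa [Nat.cast_add_one_ne_zero] using e
  obtain ⟨j, hj⟩ := Nat.find_spec ex
  obtain ⟨m0, h1, h2, h3⟩ := Top.choose hF (b0 := PowerSeries.coeff (Nat.find ex) (th (u 0)))
    (b1 := PowerSeries.coeff (Nat.find ex) (th (u 1)))
    (b2 := PowerSeries.coeff (Nat.find ex) (th (u 2))) (by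
      fin_cases j
      exacts [.inl hj, .inr (.inl hj), .inr (.inr hj)])
  choose s hs using fun k => IsAlgClosed.exists_pow_nat_eq (F.eval (m0 k : ℂ)) two_pos
  refine ⟨fun k => m0 k, s, fun a b e => h1 (Int.cast_injective (α := ℂ) e),
    fun k => ⟨fun e => h2 k (by rw [← hs, e]; simp), hs k⟩, Nat.find ex, fun j n hn => ?_, h3⟩
  by_contra h
  exact Nat.find_min ex hn ⟨j, h⟩

theorem alg_V {A R : Type} [CommRing A] [IsDomain A] [CommRing R] [IsDomain R] [Algebra A R]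
    {m w V : Fin 3 → R} (hi : Function.Injective m) (hm : ∀ k, IsAlgebraic A (m k))
    (hw : ∀ k, IsAlgebraic A (w k)) (h : ∀ k, ∑ i, V i * m k ^ (i : ℕ) = w k) (i : Fin 3) :
    IsAlgebraic A (V i) := by
  have e0 := h 0
  have e1 := h 1
  have e2 := h 2
  simp only [Fin.sum_univ_three, Fin.val_zero, Fin.val_one, Fin.val_two] at e0 e1 e2
  have n : ∀ a b, a ≠ b → m a - m b ≠ 0 := fun a b e => sub_ne_zero.2 (hi.ne e)
  have a2 : IsAlgebraic A (V 2) := by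
    refine IsAlgebraic.of_mul (y := (m 0 - m 1) * ((m 0 - m 2) * (m 1 - m 2)))
      (mem_nonZeroDivisors_of_ne_zero (mul_ne_zero (n _ _ (by decide))
        (mul_ne_zero (n _ _ (by decide)) (n _ _ (by decide)))))
      (((hm 0).sub (hm 1)).mul (((hm 0).sub (hm 2)).mul ((hm 1).sub (hm 2)))) ?_
    convert (((hw 0).mul ((hm 1).sub (hm 2))).sub ((hw 1).mul ((hm 0).sub (hm 2)))).add
      ((hw 2).mul ((hm 0).sub (hm 1))) using 1
    rw [← e0, ← e1, ← e2]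
    ring
  have a1 : IsAlgebraic A (V 1) := by
    refine IsAlgebraic.of_mul (y := m 0 - m 1) (mem_nonZeroDivisors_of_ne_zero (n _ _ (by decide)))
      ((hm 0).sub (hm 1)) ?_
    convert ((hw 0).sub (hw 1)).sub (a2.mul (((hm 0).mul (hm 0)).sub ((hm 1).mul (hm 1)))) using 1
    rw [← e0, ← e1]
    ring
  have a0 : IsAlgebraic A (V 0) := by
    convert ((hw 0).sub (a1.mul (hm 0))).sub (a2.mul ((hm 0).mul (hm 0))) using 1
    rw [← e0]
    ring
  fin_cases i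
  exacts [a0, a1, a2]

theorem germ_val {𝒰 : Ultrafilter ℍ} {φ : Mer →+* Germ (𝒰 : Filter ℍ) ℂ}
    (hφ : ∀ (f : ℍ → ℂ) (hf : f ∈ Hol), φ (inc f hf) = ↑f)
    (hz : ∀ f ∈ Hol, f ≠ 0 → ∀ᶠ τ in (𝒰 : Filter ℍ), f τ ≠ 0) {α β : ℍ → ℂ} (hα : α ∈ Hol)
    (hβ : β ∈ Hol) (h0 : β ≠ 0) {v : ℍ → ℂ} (hv : ∀ τ, β τ ≠ 0 → v τ = α τ / β τ)
    (γ : SL(2, ℤ)) : φ (act γ⁻¹ (inc α hα / inc β hβ)) = ↑(fun τ => v (γ • τ)) := by
  have e : ∀ (f : ℍ → ℂ) (hf : f ∈ Hol),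
      act γ⁻¹ (inc f hf) = inc (fun τ => f (γ • τ)) (comp_mem γ hf) := fun f hf => by
    unfold inc
    rw [act_algebraMap]
    congr 1
    exact Subtype.ext (funext fun τ => congrArg f (congrArg (· • τ) (inv_inv γ)))
  have h1 : (fun τ => β (γ • τ)) ≠ 0 := fun e0 => h0 (funext fun τ => by
    have := congrFun e0 (γ⁻¹ • τ)
    simpa using this)
  rw [map_div₀, e, e, map_div₀, div_eq_iff ((map_ne_zero φ).2 (inc_ne_zero _ h1)), hφ, hφ,
    ← Germ.coe_mul, Germ.coe_eq]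
  filter_upwards [hz _ (comp_mem γ hβ) h1] with τ h
  show α (γ • τ) = v (γ • τ) * β (γ • τ)
  rw [hv _ h, div_mul_cancel₀ _ h]

theorem aut {Y L : Type} [Field Y] [Field L] (e : Y →+* L) (c : L ≃+* L)
    (h1 : ∀ y, ∃ y', e y' = c (e y)) (h2 : ∀ y, ∃ y', e y' = c.symm (e y)) :
    ∃ σY : Y ≃+* Y, ∀ y, e (σY y) = c (e y) := by
  choose f hf using h1
  choose f' hf' using h2
  exact ⟨⟨⟨f, f', fun y => e.injective (by rw [hf', hf, c.symm_apply_apply]),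
    fun y => e.injective (by rw [hf, hf', c.apply_symm_apply])⟩,
    fun a b => e.injective (by simp only [hf, map_mul]),
    fun a b => e.injective (by simp only [hf, map_add])⟩, hf⟩

theorem cm_coe (σ : ℂ ≃+* ℂ) (f : ℂ⟦X⟧) :
    cm σ (f : LS) = ((f.map (σ : ℂ →+* ℂ) : ℂ⟦X⟧) : LS) := by
  ext n
  rw [coeff_cm, PowerSeries.coeff_coe, PowerSeries.coeff_coe]
  split_ifs
  · exact map_zero σ
  · rw [PowerSeries.coeff_map]; rfl

/-- the formal half -/
theorem formal {Y E : Type} [Field Y] [Field E] [Algebra ℂ Y] [Algebra Y E]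
    [Algebra.IsAlgebraic Y E] (a : E →+* LS)
    (hC : ∀ c, a (algebraMap Y E (algebraMap ℂ Y c)) = HahnSeries.C c) {x : ℂ⟦X⟧} {x0 : Y}
    (hx : a (algebraMap Y E x0) = x) (x1 : th x ≠ 0) (ha : Algebra.IsAlgebraic ℂ⟮x0⟯ Y)
    {η : Fin 3 → Y} {h m w : Fin 3 → ℂ⟦X⟧}
    (hη : ∀ i, a (algebraMap Y E (η i)) = (h i : LS) / (th x : ℂ⟦X⟧)) {F : ℂ[X]}
    {m0 s0 : Fin 3 → ℂ} (hi : Function.Injective m0) (hs : ∀ k, s0 k ≠ 0)
    (sol : Sol F m0 s0 h m w) (alg : ∀ k, IsAlgebraic (Algebra.adjoin ℂ {x}) (m k))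
    {yU : Fin 4 → E} {yV : Fin 3 → E} {V : Fin 3 → ℂ⟦X⟧}
    (hU : ∀ i, a (yU i) = ((∏ k, (X - C (m k))).coeff i : ℂ⟦X⟧)) (hV : ∀ i, a (yV i) = V i)
    (hw : ∀ k, ∑ i, V i * m k ^ (i : ℕ) = w k) :
    ∃ (Om : Type) (_ : Field Om) (_ : Algebra E Om) (_ : Algebra Y Om) (_ : Algebra ℂ Om)
      (_ : IsScalarTower Y E Om) (_ : IsScalarTower ℂ Y Om) (_ : IsAlgClosure Y Om)
      (D : Derivation ℂ Om Om) (μ s : Fin 3 → Om),
      (∀ y : Om, IsAlgebraic (Algebra.adjoin ℂ {algebraMap Y Om x0}) y) ∧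
      D (algebraMap Y Om x0) = 1 ∧ (∀ k, s k ^ 2 = (F.map (algebraMap ℂ Om)).eval (μ k)) ∧
      (∀ i : Fin 3, ∑ k, μ k ^ (i : ℕ) * D (μ k) / s k = algebraMap Y Om (η i)) ∧
      Function.Injective μ ∧ (∀ k, ∑ i, algebraMap E Om (yU i) * μ k ^ (i : ℕ) = 0) ∧
      ∀ k, ∑ i, algebraMap E Om (yV i) * μ k ^ (i : ℕ) = s k := by
  obtain ⟨Om, _, _, _⟩ : ∃ (Om : Type) (_ : Field Om) (_ : Algebra E Om), IsAlgClosure E Om :=
    ⟨AlgebraicClosure E, inferInstance, inferInstance, inferInstance⟩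
  obtain ⟨L, _, _, ι⟩ : ∃ (L : Type) (_ : Field L) (_ : IsAlgClosed L), Nonempty (LS →+* L) :=
    ⟨AlgebraicClosure LS, inferInstance, inferInstance, ⟨algebraMap _ _⟩⟩
  obtain ⟨ι⟩ := ι
  have t0 := IsAlgClosure.isAlgClosed E (K := Om)
  let : Algebra Y Om := ((algebraMap E Om).comp (algebraMap Y E)).toAlgebra
  have t1 : IsScalarTower Y E Om := IsScalarTower.of_algebraMap_eq fun _ => rfl
  let : Algebra ℂ Om := ((algebraMap Y Om).comp (algebraMap ℂ Y)).toAlgebra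
  have t2 : IsScalarTower ℂ Y Om := IsScalarTower.of_algebraMap_eq fun _ => rfl
  have t3 : Algebra.IsAlgebraic Y Om := Algebra.IsAlgebraic.trans Y E Om
  obtain ⟨ψ, hψ⟩ := lift_ex (Om := Om) (ι.comp a)
  replace hψ : ∀ z, ψ (algebraMap E Om z) = ι (a z) := hψ
  let j : ℂ⟦X⟧ →+* L := ι.comp (HahnSeries.ofPowerSeries ℤ ℂ)
  have hj : Function.Injective j := ι.injective.comp HahnSeries.ofPowerSeries_injective
  have jC : ∀ c, ψ (algebraMap ℂ Om c) = j (PowerSeries.C c) := fun c =>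
    (hψ _).trans (by rw [hC, ← PowerSeries.coe_C]; rfl)
  have jx : ψ (algebraMap Y Om x0) = j x := (hψ _).trans (by rw [hx]; rfl)
  obtain ⟨D, hD⟩ := P297.H927.exists_derivation (F := ℂ) (y := algebraMap Y Om x0) fun H => by
    obtain ⟨c, hc⟩ := mem_range H
    rw [← hc, jC] at jx
    exact x1 (by rw [← hj jx]; simp [th])
  obtain ⟨μ, s, a1, a2, on, hH⟩ := pts hj jC jx hD x1 (H := fun i => algebraMap Y Om (η i))
    (fun i => by
      have e : ψ (algebraMap Y Om (η i)) = j (h i) / j (th x) :=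
        (hψ _).trans (by rw [hη, map_div₀]; rfl)
      rw [e, div_mul_cancel₀ _ fun e => x1 (hj (e.trans (map_zero j).symm))]) hs sol alg
  refine ⟨Om, inferInstance, inferInstance, inferInstance, inferInstance, t1, t2, ⟨t0, t3⟩, D, μ,
    s, fun y => ?_, hD, on, hH, fun k l e => sol_inj sol hi (hj (by rw [← a1, ← a1, e])),
    fun k => ψ.injective ?_, fun k => ψ.injective ?_⟩
  · have := Algebra.IsAlgebraic.trans ℂ⟮x0⟯ Y Om
    have h1 : IsAlgebraic (Algebra.adjoin ℂ {x0}) y := by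
      open scoped IntermediateField.algebraAdjoinAdjoin in
      exact (IsFractionRing.isAlgebraic_iff (Algebra.adjoin ℂ {x0}) ℂ⟮x0⟯ Om).2
        (Algebra.IsAlgebraic.isAlgebraic y)
    let g := IsScalarTower.toAlgHom ℂ Y Om
    let e : Algebra.adjoin ℂ {x0} ≃ₐ[ℂ] Algebra.adjoin ℂ {g x0} :=
      (Subalgebra.equivMapOfInjective _ g (algebraMap Y Om).injective).trans
        (Subalgebra.equivOfEq _ _ (AlgHom.map_adjoin_singleton g x0))
    have h2 : (algebraMap (Algebra.adjoin ℂ {g x0}) Om).comp e.toRingEquiv.toRingHom =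
        (RingHom.id Om).comp (algebraMap (Algebra.adjoin ℂ {x0}) Om) := RingHom.ext fun _ => rfl
    exact h1.ringHom_of_comp_eq e.toRingEquiv.toRingHom (RingHom.id Om) e.injective h2
  · have d : (∏ k, (X - C (m k))).natDegree < 4 := by
      rw [natDegree_prod_of_monic _ _ fun i _ => monic_X_sub_C _]
      simp
    have e := eval_eq_sum_range' d (m k)
    rw [Finset.sum_range, eval_prod, Finset.prod_eq_zero (Finset.mem_univ k) (by simp)] at e
    have e1 := congrArg j e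
    rw [map_zero, map_sum] at e1
    rw [map_zero, e1, map_sum]
    exact Finset.sum_congr rfl fun i _ => by
      rw [map_mul, map_mul, map_pow, map_pow, a1, hψ, hU]; rfl
  · rw [a2, ← hw, map_sum, map_sum]
    exact Finset.sum_congr rfl fun i _ => by
      rw [map_mul, map_mul, map_pow, map_pow, a1, hψ, hV]; rfl

end Mo

open Mo

theorem mons : MONS := by
  intro Γ F E x u Φ H σ hF hσx hσu hA γ hγ
  obtain ⟨m0, s0, hi, hs, hg⟩ := base (F := F) (fun h => by simpa [h] using H.deg) H.u0 H.ne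
  obtain ⟨m, w, hS⟩ := sol ℂ F m0 s0 (fun j => th (u j)) hi hs fun j => by simp [th]
  have hs' : ∀ k, s0 k ≠ 0 := fun k => (hs k).1
  obtain ⟨V, mU, mV, hw, hq⟩ := mer F _ _ E m0 s0 u m w H.exp H.deg hi hs' H.cu H.u0 hg hS
  have am := H.alg m0 s0 m w hi hs' hS
  have aw : ∀ k, IsAlgebraic (Algebra.adjoin ℂ {x}) (w k) := fun k => by
    refine IsAlgebraic.of_pow two_pos ?_
    rw [hS.sq, aeval_eq_sum_range]
    refine sum_mem (S := Subalgebra.algebraicClosure (Algebra.adjoin ℂ {x}) ℂ⟦X⟧) fun n _ => ?_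
    rw [Algebra.smul_def, IsScalarTower.algebraMap_apply ℂ (Algebra.adjoin ℂ {x})]
    exact (isAlgebraic_algebraMap _).mul ((am k).pow n)
  obtain ⟨𝒰, φ, hcl, hφ, ht, hz⟩ := germ
  obtain ⟨x0, hx0, ha⟩ := H.mx
  have gl : ∀ y : ℂ⟦X⟧, Mr y → IsAlgebraic (Algebra.adjoin ℂ {x}) y → ∃ z : Mer,
      ExM 1 (y : LS) z ∧ IsAlgebraic (MF Γ) z ∧
        ∀ γ : SL(2, ℤ), φ (act γ⁻¹ z) = ↑(fun τ : ℍ => val y (qq (γ • τ : ℍ))) := fun y h1 h2 => by
    obtain ⟨α, β, hα, hβ, h0, hE, hv⟩ := glob x y H.cx h1 h2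
    exact ⟨_, hE, Mono.alg_of_exM hx0 hE h2, germ_val hφ hz hα hβ h0 hv⟩
  choose zU u1 u2 u3 using fun i : Fin 4 => gl _ (mU i) (Mono.coeff_alg am i)
  choose zV v1 v2 v3 using fun i : Fin 3 => gl _ (mV i) (alg_V (sol_inj hS hi) am aw hw i)
  choose η η1 η2 using H.mu
  have hT : ModularGroup.T ^ 1 ∈ Γ := by rw [pow_one]; exact H.T
  let E0 := IntermediateField.adjoin (MF Γ) (Set.range zU ∪ Set.range zV)
  have fd : FiniteDimensional (MF Γ) E0 := IntermediateField.finiteDimensional_adjoin (by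
    rintro _ (⟨i, rfl⟩ | ⟨i, rfl⟩)
    exacts [(u2 i).isIntegral, (v2 i).isIntegral])
  have al : Algebra.IsAlgebraic (MF Γ) E0 := Algebra.IsAlgebraic.of_finite _ _
  have le : ∀ z ∈ E0, z ∈ EF 1 := fun z hz => by
    induction hz using IntermediateField.adjoin_induction with
    | mem z hz =>
      rcases hz with ⟨i, rfl⟩ | ⟨i, rfl⟩
      exacts [⟨_, u1 i⟩, ⟨_, v1 i⟩]
    | algebraMap y => exact MF_le_EF hT y.2
    | add y z _ _ hy hz => exact add_mem hy hz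
    | inv y _ hy => exact inv_mem hy
    | mul y z _ _ hy hz => exact mul_mem hy hz
  obtain ⟨a, ha'⟩ : ∃ a : E0 →+* LS, ∀ (z : E0) (s : LS), ExM 1 s (z : Mer) → a z = s :=
    ⟨(tex 1 : EF 1 →+* LS).comp (RingHom.codRestrict (E0.val : E0 →+* Mer) (EF 1)
      fun z => le z z.2), fun z s h => tex_eq h⟩
  let yU : Fin 4 → E0 := fun i => ⟨zU i, IntermediateField.subset_adjoin _ _ (.inl ⟨i, rfl⟩)⟩
  let yV : Fin 3 → E0 := fun i => ⟨zV i, IntermediateField.subset_adjoin _ _ (.inr ⟨i, rfl⟩)⟩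
  obtain ⟨Om, _, _, _, _, _, _, _, D, μ, s, c1, c2, c3, c4, c5, c6, c7⟩ :=
    formal (Y := MF Γ) (E := E0) a (fun c => ha' _ _ (ExM.const 1 c)) (ha' _ _ hx0) H.x1 ha
      (η := fun i => ⟨η i, η1 i⟩) (fun i => ha' _ _ (η2 i)) hi hs' hS am (yU := yU) (yV := yV)
      (fun i => ha' _ _ (u1 i)) (fun i => ha' _ _ (v1 i)) hw
  let e : MF Γ →+* LS := texM hT
  have he : ∀ (y : MF Γ) (s : LS), ExM 1 s (y : Mer) → e y = s := fun y s h => texM_eq hT h
  obtain ⟨σY, hσY⟩ := aut e (cm σ) (fun y => by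
    obtain ⟨y', h1, h2⟩ := (hA y y.2 _ (texM_spec hT y)).1
    exact ⟨⟨y', h1⟩, he _ _ h2⟩) fun y => by
    obtain ⟨y', h1, h2⟩ := (hA y y.2 _ (texM_spec hT y)).2
    exact ⟨⟨y', h1⟩, he _ _ h2⟩
  let ρ : Γ → E0 →+* Germ (𝒰 : Filter ℍ) ℂ := fun γ =>
    φ.comp ((act (γ : SL(2, ℤ))⁻¹ : Mer →+* Mer).comp (E0.val : E0 →+* Mer))
  have hρ : ∀ (γ : Γ) (y : MF Γ), ρ γ (algebraMap (MF Γ) E0 y) = φ y := fun γ y =>
    congrArg φ (act_eq_self y.2 (Γ.inv_mem γ.2))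
  obtain ⟨γ', h⟩ := stab ρ 1 (fun γ y => by rw [hρ, hρ])
    (fun c => by rw [hρ]; exact (congrArg φ (inc_const c).symm).trans (hφ _ _))
    (fun τ hτ => by
      obtain ⟨γ, h1, h2⟩ := orb fix Γ E0 _ E0.val φ τ fun y => (hτ y).trans (hρ _ _)
      exact ⟨⟨γ⁻¹, Γ.inv_mem h1⟩, fun z => (h2 z).trans (by
        show _ = φ (act γ⁻¹⁻¹ _)
        rw [inv_inv]
        rfl)⟩)
    H.deg H.sep c1 c2 c3 c4 c5 c6 c7 (fun γ i => u3 i γ) (fun γ i => v3 i γ)
    (f := fun τ => ∑ k, cl F (m0 k, s0 k) + E fun j => ev (u j) (qq τ))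
    (P := fun γ => E (Φ γ)) (by
      have : Φ 1 = 0 := funext fun j => by simpa using H.per 1 Γ.one_mem UpperHalfPlane.I j
      show E (Φ 1) = 0
      rw [this, map_zero])
    (fun γ => by
      filter_upwards [(ht γ).eventually hq] with τ h
      obtain ⟨μ', σ', -, -, h1, h2, h3⟩ := h
      refine ⟨μ', σ', fun i => h1 i, h2, ?_⟩
      have e3 : (fun j => ev (u j) (qq ((γ : SL(2, ℤ)) • τ : ℍ))) =
          (fun j => ev (u j) (qq τ)) + Φ γ := funext fun j => H.per _ γ.2 τ j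
      rw [e3, map_add, sub_eq_iff_eq_add'] at h3
      rw [h3, add_assoc])
    hF σY (fun c => e.injective (by
      rw [hσY, he _ _ (ExM.const 1 c), he _ _ (ExM.const 1 (σ c)), cm_C]))
    (e.injective (by rw [hσY, he _ _ hx0, cm_coe, hσx]))
    (fun i => e.injective (by
      rw [hσY, he ⟨η i, η1 i⟩ _ (η2 i), map_div₀, cm_coe, cm_coe, Corr.map_th, Corr.map_th, hσx,
        hσu])) ⟨γ, hγ⟩
  exact ⟨γ', γ'.2, h⟩

theorem monoc : MONO := mono mer glob fix germ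

end Vale.Agent.P027M.X
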