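import Vale.Agent.P027M.X.Top2
import Vale.Agent.P027M.X.Mono
import Vale.Agent.P027M.X.Mer
import Vale.Agent.P027M.X.Glob
import Vale.Agent.P027M.X.Fix
import Vale.Agent.P027M.X.Germ
import Vale.Agent.P027M.X.Sol
import Vale.Agent.P027M.X.Sep

/-! # P027, route M, row X.PRIMO : the primitive parametrisation over the algebraic numbers -/

set_option linter.all false

open Polynomial Filter
open scoped PowerSeries ComplexConjugate

noncomputable section

namespace Vale.Agent.P027M.X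

open Vale.Agent.P022

namespace Primo

theorem ev_ne {k : Type} [Field k] [CharZero k] {F : k[X]} (hF : F ≠ 0) :
    ∀ᶠ n : ℕ in atTop, F.eval (n : k) ≠ 0 := by
  rw [← Nat.cofinite_eq_atTop]
  filter_upwards [((finite_setOf_isRoot hF).preimage
    (Nat.cast_injective (R := k)).injOn).eventually_cofinite_notMem] with n hn
  exact hn

theorem exists_i : ∃ i : Qb, M.io i = Complex.I := by
  obtain ⟨i, hi⟩ := IsAlgClosed.exists_pow_nat_eq (-1 : Qb) (n := 2) two_pos
  have h : M.io i ^ 2 = Complex.I ^ 2 := by rw [← map_pow, hi, Complex.I_sq, map_neg, map_one]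
  rcases sq_eq_sq_iff_eq_or_eq_neg.1 h with e | e
  · exact ⟨i, e⟩
  · exact ⟨-i, by rw [map_neg, e, neg_neg]⟩

theorem cth (f : ℂ⟦X⟧) (n : ℕ) : PowerSeries.coeff n (B.th f) = n * PowerSeries.coeff n f := by
  unfold B.th
  cases n with
  | zero => simp
  | succ n =>
    rw [PowerSeries.coeff_succ_X_mul, PowerSeries.coeff_derivative]
    push_cast
    ring

theorem cuu (l0 l1 l2 : GaussianInt) (c : ℕ → GaussianInt) (t : ℂ) (j : Fin 3) (n : ℕ) :
    PowerSeries.coeff n (B.th (uu l0 l1 l2 c t j)) = tw t 1 j * B.hb l0 l1 l2 c j n := by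
  rw [cth, uu, PowerSeries.coeff_C_mul, PowerSeries.coeff_mk]
  rcases eq_or_ne n 0 with rfl | h
  · simp [B.hb]
  · have : (n : ℂ) ≠ 0 := by exact_mod_cast h
    field_simp

end Primo

open Primo in
theorem primo : PRIMO := by
  intro g N0 e c F1 T0 l0 l1 l2 ν Γ η x γ0 E S a b t ht t0 hM h0 A hA
  obtain ⟨i, hi⟩ := exists_i
  obtain ⟨φ, hφ⟩ : ∃ φ : Qb →+* ℂ, φ = M.io := ⟨_, rfl⟩
  replace hi : φ i = Complex.I := hφ ▸ hi
  have hg : ∀ z, φ (gi i z) = z := fun z => by simp [gi, hi, GaussianInt.toComplex_def]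
  have hF : (N.fT g (gi i T0)).map φ = fG (g : ℂ) T0 := by
    simp [N.fT, N.fE, fG, hg, c3, d2, map_ofNat]
  have F0 : N.fT g (gi i T0) ≠ 0 := fun h => by
    have := hM.deg
    rw [← hF, h] at this
    simp at this
  have l0n : (l0 : ℂ) ≠ 0 := by simpa using S.dt.hl0
  obtain ⟨K, hK⟩ := eventually_atTop.1 ((ev_ne F0).and
    (ev_ne (F := C (l0 : ℂ) * X + C (l2 : ℂ)) fun h => l0n (by simpa using congrArg (coeff · 1) h)))
  have hm : Function.Injective fun k : Fin 3 => ((K + 1 + k : ℕ) : Qb) := fun k k' h =>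
    Fin.ext (by simpa using h)
  choose s hs using fun k : Fin 3 =>
    IsAlgClosed.exists_pow_nat_eq ((N.fT g (gi i T0)).eval ((K + 1 + k : ℕ) : Qb)) two_pos
  have s0 : ∀ k, s k ≠ 0 := fun k h => (hK (K + 1 + k) (by lia)).1 (by rw [← hs, h]; simp)
  obtain ⟨h, hh⟩ : ∃ h : Fin 3 → Qb⟦X⟧, ∀ j n, PowerSeries.coeff n (h j) =
      ![a + b * i, a - b * i, a + b * i] j * gi i (B.hb l0 l1 l2 c j n) :=
    ⟨fun j => PowerSeries.mk _, fun j n => PowerSeries.coeff_mk _ _⟩
  have hc : ∀ j n, φ (PowerSeries.coeff n (h j)) = tw t 1 j * B.hb l0 l1 l2 c j n := fun j n => by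
    rw [hh, map_mul, hg]
    congr 1
    fin_cases j <;> simp [tw, ht, hi, sub_eq_add_neg]
  obtain ⟨m, w, H⟩ := sol Qb _ _ s h hm (fun k => ⟨s0 k, hs k⟩) fun j => φ.injective (by
    rw [← PowerSeries.coeff_zero_eq_constantCoeff_apply, hc]; simp [B.hb])
  have H' := solm Qb ℂ φ _ _ s h m w s0 H
  rw [hF, show (fun j => PowerSeries.map φ (h j)) = fun j => B.th (uu l0 l1 l2 c t j) from
    funext fun j => PowerSeries.ext fun n => by rw [PowerSeries.coeff_map, hc, cuu]] at H'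
  have key := mono mer glob fix germ Γ _ E _ _ _ hM h0 _ _ _ _ (φ.injective.comp hm)
    (fun k => (map_ne_zero φ).2 (s0 k)) ⟨1, fun j n hn => by
      rw [cuu, Nat.lt_one_iff.1 hn]; simp [B.hb], fun p q _ e => by
      refine (hK ((K + 1 + p) * (K + 1 + q)) (by nlinarith)).2 (mul_left_cancel₀ t0 ?_)
      simp only [cuu, Function.comp_apply, map_natCast] at e
      simp only [eval_add, eval_mul, eval_C, eval_X, mul_zero]
      simp [tw, B.hb, S.dt.form.one] at e
      push_cast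
      linear_combination e⟩ H'
  obtain ⟨z, hz⟩ : ∃ z, z = l0 * (l1 * star (c 11)) * T0 ^ 2 := ⟨_, rfl⟩
  have e1 : (((a ^ 2 + b ^ 2) * z.re : ℚ) : ℂ) + ((a ^ 2 + b ^ 2) * z.im : ℚ) * Complex.I =
      t * l0 * (conj t * (l1 * conj (c 11 : ℂ))) * (T0 : ℂ) ^ 2 := by
    have k1 : (z : ℂ) = l0 * (l1 * conj (c 11 : ℂ)) * (T0 : ℂ) ^ 2 := by simp [hz]
    have k2 : t * conj t = a ^ 2 + b ^ 2 := by
      simp only [ht, map_add, map_mul, map_ratCast, Complex.conj_I]
      linear_combination (-(b : ℂ) ^ 2) * Complex.I_sq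
    rw [GaussianInt.toComplex_def] at k1
    push_cast
    linear_combination ((a : ℂ) ^ 2 + b ^ 2) * k1 - l0 * (l1 * conj (c 11 : ℂ)) * (T0 : ℂ) ^ 2 * k2
  refine ⟨gi i T0, i, _, s, h, m, w, 1, 11, (a ^ 2 + b ^ 2) * z.re, (a ^ 2 + b ^ 2) * z.im,
    fun k => S.rg.hT (by rw [← hg, k, map_zero]), φ.injective (by simp [hi]), hm, s0, H,
    fun j => ?_, fun n => S.m3.frb _ ?_, PowerSeries.ext fun n => φ.injective ?_,
    φ.injective ?_, ?_, ?_⟩
  · generalize ![a + b * i, a - b * i, a + b * i] = τ at hh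
    refine ⟨Submodule.span ℤ {τ j, τ j * i}, Submodule.fg_span (Set.toFinite _),
      fun n => Submodule.mem_span_pair.2 ⟨(B.hb l0 l1 l2 c j n).re, (B.hb l0 l1 l2 c j n).im, ?_⟩⟩
    rw [hh, gi, zsmul_eq_mul, zsmul_eq_mul]
    ring
  · rw [← hφ, ← coeff_map, Polynomial.map_prod]
    simpa only [Polynomial.map_sub, map_X, map_C] using key n
  · rw [PowerSeries.coeff_C_mul, map_mul, hc, hc]
    simp only [B.hb]
    split_ifs <;> simp [tw, hg, S.dt.hl2, map_ofNat]
    ring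
  · rw [map_mul, map_mul, hc, hc, map_pow, hg, map_add, map_mul, map_ratCast, map_ratCast, hi, e1]
    simp [tw, B.hb, S.dt.form.one]
  · by_contra! k
    rw [k.1, k.2] at e1
    simp [t0, S.dt.hl0, S.hl1, S.dt.c11, S.dt.hT] at e1
  · refine le_of_eq_of_le ?_ hA
    have k := congrArg (fun u => ‖u‖ ^ 2) e1
    simp only [norm_mul, norm_pow, Complex.norm_conj] at k ⊢
    rw [Complex.sq_norm, ← Complex.ofReal_ratCast, ← Complex.ofReal_ratCast,
      Complex.normSq_add_mul_I] at k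
    push_cast at k ⊢
    linear_combination k

end Vale.Agent.P027M.X
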