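import Vale.Agent.P027M.X.ExpDefs
import Vale.Agent.P027M.Defs

/-! # P027, route M, block PER : a bounded period which is killed by the elliptic differential -/

open Polynomial Filter Topology Set Real

noncomputable section

namespace Vale.Agent.P027M.X

/-- [X.PER] the cycle around the branch points `0` and `√(c T)` -/
def PER : Prop := ∃ C0 : ℝ, ∀ (g : ℚ) (T : ℂ) (F : ℂ[X]) (G : Type) [AddCommGroup G]
  (pt : ℂ → ℂ → G) (E : (Fin 3 → ℂ) →+ G), |g - g0| < 1 / 1000 → T ≠ 0 →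
  F = X * (X ^ 2 - C T) * (X ^ 2 - C (((c3 g : ℚ) : ℂ) * T)) * (X ^ 2 - C (((d2 g : ℚ) : ℂ) * T)) →
  IsExp F pt E → ∃ lam : Fin 3 → ℂ, E lam = 0 ∧
    lam 2 = (((3 - g) / (g + 1) : ℚ) : ℂ) * T * lam 0 ∧ lam 1 ≠ 0 ∧
    ‖lam 0‖ ^ 4 * ‖T‖ ^ 5 ≤ C0 ∧ ‖lam 1‖ ^ 4 * ‖T‖ ^ 3 ≤ C0

namespace Per

/-- the real cycle -/
def xr (a θ : ℝ) : ℝ := a / 2 * (1 - cos θ)

/-- the remaining factors -/
def Qr {R : Type} [CommRing R] (a d x : R) : R := (x + a) * (1 - x ^ 2) * (d - x ^ 2)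

/-- the real periods -/
def J (a d : ℝ) (j : ℕ) : ℝ := ∫ θ in (0 : ℝ)..2 * π, xr a θ ^ j / √(Qr a d (xr a θ))

theorem xr_mem {a : ℝ} (ha : 0 < a) (θ : ℝ) : 0 ≤ xr a θ ∧ xr a θ ≤ a := by
  have h1 := cos_le_one θ
  have h2 := neg_one_le_cos θ
  unfold xr
  constructor <;> nlinarith

theorem q_ge {a d x : ℝ} (ha : 0 < a) (h1 : a ^ 2 < d) (h2 : d < 1) (hx : 0 ≤ x ∧ x ≤ a) :
    a * (1 - a ^ 2) * (d - a ^ 2) ≤ Qr a d x := by
  have h3 : x ^ 2 ≤ a ^ 2 := by nlinarith [hx.1, hx.2]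
  unfold Qr
  have := hx.1
  exact mul_le_mul (mul_le_mul (by linarith) (by linarith) (by linarith) (by linarith))
    (by linarith) (by linarith) (mul_nonneg (by linarith) (by linarith))

theorem q_pos {a d x : ℝ} (ha : 0 < a) (h1 : a ^ 2 < d) (h2 : d < 1) (hx : 0 ≤ x ∧ x ≤ a) :
    0 < Qr a d x :=
  lt_of_lt_of_le (mul_pos (mul_pos ha (by linarith)) (by linarith)) (q_ge ha h1 h2 hx)

theorem xr_cont (a : ℝ) : Continuous (xr a) := by unfold xr; fun_prop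

theorem j_cont {a d : ℝ} (ha : 0 < a) (h1 : a ^ 2 < d) (h2 : d < 1) (j : ℕ) :
    Continuous fun θ => xr a θ ^ j / √(Qr a d (xr a θ)) := by
  have := xr_cont a
  refine Continuous.div (by fun_prop) (by unfold Qr; fun_prop) fun θ => ?_
  exact (sqrt_pos.2 (q_pos ha h1 h2 (xr_mem ha θ))).ne'

theorem j_pos {a d : ℝ} (ha : 0 < a) (h1 : a ^ 2 < d) (h2 : d < 1) : 0 < J a d 1 := by
  refine intervalIntegral.integral_pos two_pi_pos (j_cont ha h1 h2 1).continuousOn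
    (fun θ _ => div_nonneg (pow_nonneg (xr_mem ha θ).1 _) (sqrt_nonneg _))
    ⟨π, ⟨pi_pos.le, by linarith [pi_pos]⟩, div_pos ?_ (sqrt_pos.2 (q_pos ha h1 h2 (xr_mem ha _)))⟩
  simp only [xr, cos_pi, pow_one]
  linarith

theorem j_le {a d : ℝ} (ha : 0 < a) (h1 : a ^ 2 < d) (h2 : d < 1)
    (h3 : (1 / 10000) ^ 2 ≤ a * (1 - a ^ 2) * (d - a ^ 2)) (j : ℕ) : |J a d j| ≤ 100000 := by
  have h := intervalIntegral.norm_integral_le_of_norm_le_const (a := 0) (b := 2 * π) (C := 10000)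
    (f := fun θ => xr a θ ^ j / √(Qr a d (xr a θ))) fun θ _ => by
      have m := xr_mem ha θ
      have h4 : 1 / 10000 ≤ √(Qr a d (xr a θ)) := le_sqrt_of_sq_le (h3.trans (q_ge ha h1 h2 m))
      have h5 : xr a θ ^ j ≤ 1 := pow_le_one₀ m.1 (by nlinarith [m.2])
      rw [Real.norm_of_nonneg (div_nonneg (pow_nonneg m.1 _) (sqrt_nonneg _)),
        div_le_iff₀ (by linarith)]
      linarith
  rw [sub_zero, abs_of_pos two_pi_pos] at h
  refine h.trans ?_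
  linarith [pi_le_four]

theorem j_E {a d g g' b : ℝ} (ha : 0 < a) (h1 : a ^ 2 < d) (h2 : d < 1) (h3 : 1 < g)
    (hg : ∀ U, (U - g) * (U - g') = U ^ 2 + (a ^ 2 - 3) * U + a ^ 2)
    (hb : ∀ U, b * (1 - U) ^ 2 - U * (a ^ 2 - U) ^ 2 = (d - U) * (g - U) ^ 2) :
    J a d 2 = g' * J a d 0 := by
  let ρ : ℝ → ℝ := fun θ => √((a + xr a θ) / (1 - xr a θ ^ 2))
  let s : ℝ → ℝ := fun θ => a / 2 * sin θ * ρ θ
  let s' : ℝ → ℝ := fun θ => (xr a θ ^ 2 - g) * (xr a θ ^ 2 - g') / (2 * ρ θ * (1 - xr a θ ^ 2) ^ 2)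
  have x2 : ∀ θ, xr a θ ^ 2 ≤ a ^ 2 := fun θ => by nlinarith [(xr_mem ha θ).1, (xr_mem ha θ).2]
  have p1 : ∀ θ, 0 < 1 - xr a θ ^ 2 := fun θ => by linarith [x2 θ]
  have p2 : ∀ θ, 0 < (a + xr a θ) / (1 - xr a θ ^ 2) := fun θ =>
    div_pos (by linarith [(xr_mem ha θ).1]) (p1 θ)
  have p3 : ∀ θ, 0 < ρ θ := fun θ => sqrt_pos.2 (p2 θ)
  have p4 : ∀ θ, ρ θ ^ 2 * (1 - xr a θ ^ 2) = a + xr a θ := fun θ => by
    rw [sq_sqrt (p2 θ).le, div_mul_cancel₀ _ (p1 θ).ne']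
  have p5 : ∀ θ, (a / 2 * sin θ) ^ 2 = xr a θ * (a - xr a θ) := fun θ => by
    unfold xr
    linear_combination (a / 2) ^ 2 * sin_sq_add_cos_sq θ
  have dx : ∀ θ, HasDerivAt (xr a) (a / 2 * sin θ) θ := fun θ => by
    have := ((hasDerivAt_cos θ).const_sub 1).const_mul (a / 2)
    rwa [neg_neg] at this
  have ds : ∀ θ, HasDerivAt s (s' θ) θ := fun θ => by
    have d1 := (((dx θ).const_add a).div (((dx θ).pow 2).const_sub 1) (p1 θ).ne').sqrt (p2 θ).ne'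
    refine (((hasDerivAt_sin θ).const_mul (a / 2)).mul d1).congr_deriv ?_
    have e1 : a / 2 * cos θ = a / 2 - xr a θ := by unfold xr; ring
    have e2 := p4 θ
    have e3 := p5 θ
    have n1 := (p1 θ).ne'
    have n2 := (p3 θ).ne'
    simp only [Pi.pow_apply, Pi.div_apply, s', hg, e1]
    change (a / 2 - xr a θ) * ρ θ + a / 2 * sin θ * (_ / _ / (2 * ρ θ)) = _
    generalize a / 2 * sin θ = S at e3 ⊢
    generalize ρ θ = r at e2 n2 ⊢
    generalize xr a θ = x at e2 e3 n1 ⊢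
    field_simp
    simp only [Nat.cast_ofNat, Nat.add_one_sub_one, pow_one]
    linear_combination (a - 2 * x) * (1 - x ^ 2) * e2 + (1 + 2 * a * x + x ^ 2) * e3
  have q1 : ∀ θ, b - s θ ^ 4 =
      (√(d - xr a θ ^ 2) * (g - xr a θ ^ 2) / (1 - xr a θ ^ 2)) ^ 2 := fun θ => by
    have n1 := (p1 θ).ne'
    have e1 : s θ ^ 2 * (1 - xr a θ ^ 2) = xr a θ * (a ^ 2 - xr a θ ^ 2) := by
      simp only [s, mul_pow _ (ρ θ), p5]
      linear_combination xr a θ * (a - xr a θ) * p4 θ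
    rw [div_pow, mul_pow (√_), sq_sqrt (by linarith [x2 θ]), eq_div_iff (pow_ne_zero _ n1), ← hb]
    linear_combination (-(s θ ^ 2 * (1 - xr a θ ^ 2)) - xr a θ * (a ^ 2 - xr a θ ^ 2)) * e1
  have r0 : ∀ θ, 0 < √(d - xr a θ ^ 2) := fun θ => sqrt_pos.2 (by linarith [x2 θ])
  have q0 : ∀ θ, 0 < √(d - xr a θ ^ 2) * (g - xr a θ ^ 2) / (1 - xr a θ ^ 2) := fun θ =>
    div_pos (mul_pos (r0 θ) (by linarith [x2 θ])) (p1 θ)
  have q2 : ∀ θ, √(Qr a d (xr a θ)) = ρ θ * (1 - xr a θ ^ 2) * √(d - xr a θ ^ 2) := fun θ => by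
    rw [← sqrt_sq (mul_pos (mul_pos (p3 θ) (p1 θ)) (r0 θ)).le]
    congr 1
    rw [mul_pow, sq_sqrt (by linarith [x2 θ])]
    unfold Qr
    linear_combination -(1 - xr a θ ^ 2) * (d - xr a θ ^ 2) * p4 θ
  have cx := xr_cont a
  have cρ : Continuous ρ :=
    Continuous.sqrt (Continuous.div (by fun_prop) (by fun_prop) fun θ => (p1 θ).ne')
  have key := intervalIntegral.integral_comp_mul_deriv' (a := 0) (b := 2 * π) (f := s) (f' := s')
    (g := fun u => 1 / √(b - u ^ 4)) (fun θ _ => ds θ)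
    (Continuous.div (by fun_prop) (by fun_prop) fun θ =>
      mul_ne_zero (mul_ne_zero two_ne_zero (p3 θ).ne') (pow_ne_zero _ (p1 θ).ne')).continuousOn
    (by
      refine ContinuousOn.div continuousOn_const (by fun_prop) ?_
      rintro _ ⟨θ, -, rfl⟩
      rw [q1, sqrt_sq (q0 θ).le]
      exact (q0 θ).ne')
  have e0 : s 0 = s (2 * π) := by simp only [s, sin_zero, sin_two_pi, mul_zero, zero_mul]
  rw [e0, intervalIntegral.integral_same] at key
  have e1 : ∀ θ, ((fun u => 1 / √(b - u ^ 4)) ∘ s) θ * s' θ = -(1 / 2) *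
      (xr a θ ^ 2 / √(Qr a d (xr a θ)) - g' * (xr a θ ^ 0 / √(Qr a d (xr a θ)))) := fun θ => by
    have n1 := (p1 θ).ne'
    have n2 := (p3 θ).ne'
    have n3 := (r0 θ).ne'
    have n4 : g - xr a θ ^ 2 ≠ 0 := by linarith [x2 θ]
    simp only [Function.comp, s', q1, sqrt_sq (q0 θ).le, q2]
    field_simp
    ring
  simp only [e1] at key
  rw [intervalIntegral.integral_const_mul, intervalIntegral.integral_sub
    ((j_cont ha h1 h2 2).intervalIntegrable _ _)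
    (((j_cont ha h1 h2 0).intervalIntegrable _ _).const_mul _),
    intervalIntegral.integral_const_mul] at key
  unfold J
  linarith

/-- the complex cycle -/
def xc (a : ℝ) (ζ : ℂ) : ℂ := a / 2 * (1 - Complex.cos ζ)

/-- the root of the remaining factors -/
def qc (a d : ℝ) (ζ : ℂ) : ℂ := Qr (a : ℂ) d (xc a ζ) ^ (2⁻¹ : ℂ)

theorem xc_re (a θ : ℝ) : xc a θ = xr a θ := by simp [xc, xr]

theorem qc_re {a d : ℝ} (ha : 0 < a) (h1 : a ^ 2 < d) (h2 : d < 1) (θ : ℝ) :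
    qc a d θ = √(Qr a d (xr a θ)) := by
  rw [sqrt_eq_rpow, Complex.ofReal_cpow (q_pos ha h1 h2 (xr_mem ha θ)).le, qc, xc_re]
  congr 1
  · simp [Qr]
  · simp

theorem strip {a d : ℝ} (ha : 0 < a) (h1 : a ^ 2 < d) (h2 : d < 1) : ∃ η > 0, ∀ ζ : ℂ,
    |ζ.im| ≤ η → Qr (a : ℂ) d (xc a ζ) ∈ Complex.slitPlane := by
  let f : ℝ × ℝ × ℝ → ℂ := fun z => Qr (a : ℂ) d (a / 2 *
    (1 - (z.2.1 * Complex.cosh z.1 - z.2.2 * Complex.sinh z.1 * Complex.I)))
  have cf : Continuous f := by unfold f Qr; fun_prop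
  have h := (isCompact_Icc.prod isCompact_Icc :
      IsCompact (Icc (-1 : ℝ) 1 ×ˢ Icc (-1 : ℝ) 1)).eventually_forall_of_forall_eventually
    (x₀ := (0 : ℝ)) (P := fun y u => f (y, u) ∈ Complex.slitPlane) fun u hu => by
      refine cf.continuousAt.eventually (Complex.isOpen_slitPlane.mem_nhds ?_)
      have e : f (0, u) = (Qr a d (a / 2 * (1 - u.1)) : ℝ) := by simp [f, Qr]
      rw [e]
      refine Complex.ofReal_mem_slitPlane.2 (q_pos ha h1 h2 ?_)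
      have := hu.1.1
      have := hu.1.2
      constructor <;> nlinarith
  obtain ⟨ε, ε0, hε⟩ := Metric.eventually_nhds_iff.1 h
  refine ⟨ε / 2, half_pos ε0, fun ζ hζ => ?_⟩
  have := hε (y := ζ.im) (by rw [Real.dist_eq, sub_zero]; linarith) (cos ζ.re, sin ζ.re)
    ⟨⟨neg_one_le_cos _, cos_le_one _⟩, ⟨neg_one_le_sin _, sin_le_one _⟩⟩
  simpa only [f, xc, Complex.cos_eq ζ, Complex.ofReal_cos, Complex.ofReal_sin] using this

theorem cyc {a d : ℝ} (ha : 0 < a) (h1 : a ^ 2 < d) (h2 : d < 1) {τ : ℂ} (τ0 : τ ≠ 0) {F : ℂ[X]}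
    (hF : ∀ z, F.eval z = z * (z ^ 2 - τ ^ 4) * (z ^ 2 - a ^ 2 * τ ^ 4) * (z ^ 2 - d * τ ^ 4))
    {G : Type} [AddCommGroup G] {pt : ℂ → ℂ → G} {E : (Fin 3 → ℂ) →+ G} (hE : IsExp F pt E) :
    E (fun j => -Complex.I * τ ^ (2 * (j : ℕ)) / τ ^ 5 * J a d j) = 0 := by
  obtain ⟨η, η0, hη⟩ := strip ha h1 h2
  have dx : Differentiable ℂ (xc a) := by unfold xc; fun_prop
  have dq : ∀ ζ : ℂ, |ζ.im| ≤ η → DifferentiableAt ℂ (qc a d) ζ := fun ζ h =>
    DifferentiableAt.cpow_const (by unfold Qr; fun_prop) (hη ζ h)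
  have q2 : ∀ ζ, qc a d ζ ^ 2 = Qr (a : ℂ) d (xc a ζ) := fun ζ => Complex.cpow_ofNat_inv_pow _ 2
  have q0 : ∀ ζ : ℂ, |ζ.im| ≤ η → qc a d ζ ≠ 0 := fun ζ h e =>
    Complex.slitPlane_ne_zero (hη ζ h) (by rw [← q2, e]; ring)
  let f : ℕ → ℂ → ℂ := fun j ζ => xc a ζ ^ j / qc a d ζ
  have df : ∀ j (ζ : ℂ), |ζ.im| ≤ η → DifferentiableAt ℂ (f j) ζ := fun j ζ h =>
    ((dx ζ).pow j).div (dq ζ h) (q0 ζ h)
  have xp : ∀ ζ : ℂ, xc a (2 * π + ζ) = xc a ζ := fun ζ => by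
    rw [xc, xc, add_comm, Complex.cos_add_two_pi]
  have qp : ∀ ζ : ℂ, qc a d (2 * π + ζ) = qc a d ζ := fun ζ => by rw [qc, qc, xp]
  have him : ∀ θ : ℝ, |((θ : ℂ) + η * Complex.I).im| ≤ η := fun θ => by simp [abs_of_pos η0]
  have sh : ∀ j, ∫ θ in (0 : ℝ)..2 * π, f j (θ + η * Complex.I) = J a d j := fun j => by
    have h := Complex.integral_boundary_rect_eq_zero_of_differentiableOn (f j) 0
      ⟨2 * π, η⟩ fun ζ hζ => (df j ζ (by
        have := hζ.2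
        simp only [Complex.zero_im, uIcc_of_le η0.le, mem_preimage, mem_Icc] at this
        rw [abs_of_nonneg this.1]; exact this.2)).differentiableWithinAt
    simp only [Complex.zero_re, Complex.zero_im, Complex.ofReal_zero, zero_mul, add_zero, zero_add,
      Complex.ofReal_mul, Complex.ofReal_ofNat, f, xp, qp, add_sub_cancel_right, xc_re,
      qc_re ha h1 h2] at h
    rw [J, ← intervalIntegral.integral_ofReal, ← sub_eq_zero.1 h]
    simp
  have ζd : ∀ θ : ℝ, HasDerivAt (fun θ : ℝ => (θ : ℂ) + η * Complex.I) 1 θ := fun θ =>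
    (Complex.ofRealCLM.hasDerivAt (x := θ)).add_const _
  have ζc : Continuous fun θ : ℝ => (θ : ℂ) + η * Complex.I := by fun_prop
  have fc : ∀ j, Continuous fun θ : ℝ => f j (θ + η * Complex.I) := fun j =>
    continuous_iff_continuousAt.2 fun θ =>
      (df j _ (him θ)).continuousAt.comp (f := fun θ : ℝ => (θ : ℂ) + η * Complex.I) ζc.continuousAt
  have s0 : ∀ θ : ℝ, Complex.sin (θ + η * Complex.I) ≠ 0 := fun θ e => by
    obtain ⟨k, hk⟩ := Complex.sin_eq_zero_iff.1 e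
    have := congrArg Complex.im hk
    simp at this
    exact η0.ne' this
  have a0 : (a : ℂ) ≠ 0 := by exact_mod_cast ha.ne'
  have key := hE.path Unit (fun _ => 1) (fun _ θ => τ ^ 2 * xc a (θ + η * Complex.I))
    (fun _ θ => τ ^ 7 * Complex.I * (a / 2) * Complex.sin (θ + η * Complex.I) *
      qc a d (θ + η * Complex.I))
    (fun _ θ => τ ^ 2 * (a / 2 * Complex.sin (θ + η * Complex.I)))
    (fun θ j => -Complex.I * τ ^ (2 * (j : ℕ)) / τ ^ 5 *
      ∫ u in (0 : ℝ)..θ, f j (u + η * Complex.I)) univ isOpen_univ isPreconnected_univ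
    (fun θ _ => ⟨fun _ => ⟨?_, ?_, ?_, ?_⟩, ?_⟩) 0 (mem_univ _) (2 * π) (mem_univ _)
  · have e : (((2 * π : ℝ) : ℂ) + η * Complex.I) = 2 * π + (((0 : ℝ) : ℂ) + η * Complex.I) := by
      simp
    rw [e, xp, qp, add_comm (2 * π : ℂ), Complex.sin_add_two_pi, sub_self] at key
    rw [key]
    congr 1
    funext j
    simp only [Pi.sub_apply, intervalIntegral.integral_same, mul_zero, sub_zero, sh]
  · exact ContinuousAt.mul (by fun_prop) ((dq _ (him θ)).continuousAt.comp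
      (f := fun θ : ℝ => (θ : ℂ) + η * Complex.I) ζc.continuousAt)
  · exact mul_ne_zero (mul_ne_zero (mul_ne_zero (mul_ne_zero (pow_ne_zero _ τ0) Complex.I_ne_zero)
      (div_ne_zero a0 two_ne_zero)) (s0 θ)) (q0 _ (him θ))
  · have d1 : HasDerivAt (xc a) (a / 2 * Complex.sin (θ + η * Complex.I))
        (θ + η * Complex.I) := by
      have := ((Complex.hasDerivAt_cos (θ + η * Complex.I)).const_sub 1).const_mul (a / 2 : ℂ)
      rwa [neg_neg] at this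
    exact ((d1.comp θ (ζd θ)).const_mul (τ ^ 2)).congr_deriv (by rw [mul_one])
  · have e := Complex.sin_sq_add_cos_sq (θ + η * Complex.I)
    simp only [mul_pow, q2, hF, Complex.I_sq, Qr, xc]
    generalize Complex.sin (θ + η * Complex.I) = S at e ⊢
    generalize Complex.cos (θ + η * Complex.I) = Co at e ⊢
    linear_combination -τ ^ 14 * (a / 2) ^ 2 * ((a / 2 * (1 - Co) + a) *
      (1 - (a / 2 * (1 - Co)) ^ 2) * (d - (a / 2 * (1 - Co)) ^ 2)) * e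
  · refine hasDerivAt_pi.2 fun j => ?_
    refine ((intervalIntegral.integral_hasDerivAt_right ((fc j).intervalIntegrable _ _)
      ((fc j).stronglyMeasurableAtFilter _ _) (fc j).continuousAt).const_mul _).congr_deriv ?_
    have n1 := s0 θ
    have n2 := q0 _ (him θ)
    simp only [Finset.univ_unique, Finset.sum_singleton, Pi.smul_apply, om, smul_eq_mul, f,
      Int.cast_one, one_mul, mul_pow, ← pow_mul]
    generalize Complex.sin (θ + η * Complex.I) = S at n1 ⊢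
    generalize qc a d (θ + η * Complex.I) = Q at n2 ⊢
    generalize xc a (θ + η * Complex.I) = Y
    field_simp
    simp only [Complex.I_sq]
    ring

end Per

open Per

theorem per : PER := by
  refine ⟨100000 ^ 4, fun g T F G _ pt E hg T0 hF hE => ?_⟩
  obtain ⟨τ, rfl⟩ := IsAlgClosed.exists_pow_nat_eq T (n := 4) (by norm_num)
  have τ0 : τ ≠ 0 := fun h => T0 (by rw [h]; ring)
  have g1 : (105 / 100 : ℝ) < g ∧ (g : ℝ) < 106 / 100 := by
    rw [abs_lt, g0] at hg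
    constructor
    · have : (105 / 100 : ℚ) < g := by linarith [hg.1]
      simpa using (Rat.cast_lt (K := ℝ)).2 this
    · have : g < (106 / 100 : ℚ) := by linarith [hg.2]
      simpa using (Rat.cast_lt (K := ℝ)).2 this
  obtain ⟨x, hx⟩ : ∃ x : ℝ, x = (g : ℝ) := ⟨_, rfl⟩
  rw [← hx] at g1
  have xp : 0 < x + 1 := by linarith [g1.1]
  have c0 : 1 / 4 ≤ c3 x := by
    rw [c3, le_div_iff₀ xp]; nlinarith [g1.1, g1.2]
  have c1 : 1 - c3 x = (x - 1) ^ 2 / (x + 1) := by rw [c3]; field_simp; ring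
  have c2 : d2 x - c3 x = x * (x - 1) ^ 2 / (x + 1) ^ 2 := by rw [c3, d2]; field_simp; ring
  have c4 : 1 - d2 x = (x - 1) ^ 2 / (x + 1) ^ 2 := by rw [d2]; field_simp; ring
  have s1 : 1 / 400 ≤ (x - 1) ^ 2 := by nlinarith [g1.1]
  have c5 : 1 / 1000 ≤ 1 - c3 x := by rw [c1, le_div_iff₀ xp]; linarith [g1.2]
  have c6 : 1 / 2000 ≤ d2 x - c3 x := by
    rw [c2, le_div_iff₀ (by positivity)]; nlinarith [g1.1, g1.2]
  have c7 : 0 < 1 - d2 x := by rw [c4]; exact div_pos (by linarith) (by positivity)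
  have a2 : √(c3 x) ^ 2 = c3 x := sq_sqrt (by linarith)
  have a1 : 1 / 2 ≤ √(c3 x) := le_sqrt_of_sq_le (by linarith)
  have ha : 0 < √(c3 x) := by linarith
  have h1 : √(c3 x) ^ 2 < d2 x := by linarith
  have h2 : d2 x < 1 := by linarith
  have e1 : ((c3 g : ℚ) : ℂ) = ((√(c3 x) : ℝ) : ℂ) ^ 2 := by
    rw [← Complex.ofReal_pow, a2, hx]; simp [c3]
  have e2 : ((d2 g : ℚ) : ℂ) = ((d2 x : ℝ) : ℂ) := by rw [hx]; simp [d2]
  have jl := j_le ha h1 h2 (by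
    rw [a2]
    calc (1 / 10000 : ℝ) ^ 2 ≤ 1 / 2 * (1 / 1000) * (1 / 2000) := by norm_num
      _ ≤ _ := by gcongr)
  have je := j_E (g := x) (g' := (3 - x) / (x + 1)) (b := b2 x) ha h1 h2 (by linarith [g1.1])
    (fun U => by rw [a2, c3]; field_simp; ring) (fun U => by rw [a2, c3, d2, b2]; field_simp; ring)
  have nτ : 0 < ‖τ‖ := norm_pos_iff.2 τ0
  refine ⟨_, cyc ha h1 h2 τ0 (fun z => by
    rw [hF, e1, e2]; simp only [eval_mul, eval_sub, eval_pow, eval_X, eval_C]) hE, ?_, ?_, ?_, ?_⟩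
  · have e3 : (((3 - g) / (g + 1) : ℚ) : ℂ) = (((3 - x) / (x + 1) : ℝ) : ℂ) := by rw [hx]; simp
    simp only [Fin.val_two, Fin.val_zero, je, e3, Complex.ofReal_mul]
    ring
  · exact mul_ne_zero (div_ne_zero (mul_ne_zero (neg_ne_zero.2 Complex.I_ne_zero)
      (pow_ne_zero _ τ0)) (pow_ne_zero _ τ0)) (by exact_mod_cast (j_pos ha h1 h2).ne')
  · simp only [Fin.val_zero, norm_mul, norm_div, norm_neg, Complex.norm_I, norm_pow,
      Complex.norm_real, Real.norm_eq_abs]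
    calc _ = |J (√(c3 x)) (d2 x) 0| ^ 4 := by field_simp; ring
      _ ≤ _ := pow_le_pow_left₀ (abs_nonneg _) (jl 0) 4
  · simp only [Fin.val_one, norm_mul, norm_div, norm_neg, Complex.norm_I, norm_pow,
      Complex.norm_real, Real.norm_eq_abs]
    calc _ = |J (√(c3 x)) (d2 x) 1| ^ 4 := by field_simp; ring
      _ ≤ _ := pow_le_pow_left₀ (abs_nonneg _) (jl 1) 4

end Vale.Agent.P027M.X
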