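import Vale.Agent.P027M.X.Latt
import Vale.Agent.P027M.X.Per
import Vale.Agent.P027M.X.Exp
import Vale.Agent.P027M.X.Unq
import Vale.Agent.P027M.X.Sep

/-! # P027, route M, blocks B2, B3 : the final glue -/

set_option linter.all false

open Polynomial UpperHalfPlane
open scoped PowerSeries MatrixGroups ComplexConjugate

noncomputable section

namespace Vale.Agent.P027M.X

open Vale.Agent.P022

namespace Top23

theorem le_of_sq_le_sq₀ {a b : ℝ} (h : a ^ 2 ≤ b ^ 2) (hb : 0 ≤ b) : a ≤ b :=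
  (abs_le_of_sq_le_sq' h hb).2

theorem std_bd {g : ℚ} (h : Std g) : 1 < g ∧ g < 11 / 10 := by
  have := abs_lt.1 h.real
  simp only [g0] at this
  constructor <;> linarith [this.1, this.2]

theorem rg_std {k : Type*} [Field k] [CharZero k] {g : ℚ} (h : Std g) {T : k} (hT : T ≠ 0) :
    Rg (g : k) T := by
  obtain ⟨h1, h2⟩ := std_bd h
  refine ⟨hT, ?_, ?_, ?_, ?_, ?_⟩
  · exact_mod_cast (by linarith : 0 < g).ne'
  · exact_mod_cast (by linarith : 0 < g + 1).ne'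
  · exact_mod_cast (by linarith : 0 < 3 - g).ne'
  · exact_mod_cast (by linarith : 0 < g - 1).ne'
  · exact_mod_cast (by linarith : 0 < g + 3).ne'

theorem size {g ν A B τ η K a b L0 L1 C0 : ℝ} (g1 : 1 < g) (g2 : g < 11 / 10) (hν : 0 < ν)
    (hτ : 0 < τ) (hη : 0 < η) (hA : 0 ≤ A) (hB : 0 ≤ B) (r1 : g * B ^ 2 = 9 * ν * A ^ 2)
    (r2 : ν ^ 2 = g * (3 - g) / (g + 1) * τ ^ 2) (e0 : K * L0 = A * a) (e1 : K * L1 = B * b)
    (low : η ≤ max a b) (b0 : L0 ^ 4 * τ ^ 5 ≤ C0) (b1 : L1 ^ 4 * τ ^ 3 ≤ C0) :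
    η ^ 4 * (A * B * τ ^ 2) ^ 2 ≤ 18 * K ^ 4 * C0 := by
  have c1 : g * (3 - g) / (g + 1) ≤ 4 := by
    rw [div_le_iff₀ (by linarith)]; nlinarith
  have c2 : 1 / 4 ≤ g * (3 - g) / (g + 1) := by
    rw [le_div_iff₀ (by linarith)]; nlinarith
  have t2 : 0 < τ ^ 2 := by positivity
  have n1 : ν ≤ 2 * τ := by
    refine le_of_sq_le_sq₀ ?_ (by positivity)
    rw [r2]; nlinarith
  have n2 : τ ≤ 2 * ν := by
    refine le_of_sq_le_sq₀ ?_ (by positivity)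
    rw [mul_pow, r2]; nlinarith
  have K4 : 0 ≤ K ^ 4 := by positivity
  have C00 : 0 ≤ C0 := le_trans (by positivity) b1
  have A2 : 0 ≤ A ^ 2 := by positivity
  have B2 : 0 ≤ B ^ 2 := by positivity
  rcases le_max_iff.1 low with h | h
  · have h1 : η * A ≤ K * L0 := by rw [e0]; nlinarith
    have h2 : (η * A) ^ 4 ≤ (K * L0) ^ 4 := pow_le_pow_left₀ (by positivity) h1 4
    have h3 : B ^ 2 ≤ 18 * τ * A ^ 2 := by nlinarith
    calc η ^ 4 * (A * B * τ ^ 2) ^ 2 = η ^ 4 * A ^ 2 * τ ^ 4 * B ^ 2 := by ring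
      _ ≤ η ^ 4 * A ^ 2 * τ ^ 4 * (18 * τ * A ^ 2) := by gcongr
      _ = 18 * τ ^ 5 * (η * A) ^ 4 := by ring
      _ ≤ 18 * τ ^ 5 * (K * L0) ^ 4 := by gcongr
      _ = 18 * K ^ 4 * (L0 ^ 4 * τ ^ 5) := by ring
      _ ≤ _ := by gcongr
  · have h1 : η * B ≤ K * L1 := by rw [e1]; nlinarith
    have h2 : (η * B) ^ 4 ≤ (K * L1) ^ 4 := pow_le_pow_left₀ (by positivity) h1 4
    have h3 : τ * A ^ 2 ≤ 18 * B ^ 2 := by nlinarith
    calc η ^ 4 * (A * B * τ ^ 2) ^ 2 = η ^ 4 * B ^ 2 * τ ^ 3 * (τ * A ^ 2) := by ring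
      _ ≤ η ^ 4 * B ^ 2 * τ ^ 3 * (18 * B ^ 2) := by gcongr
      _ = 18 * τ ^ 3 * (η * B) ^ 4 := by ring
      _ ≤ 18 * τ ^ 3 * (K * L1) ^ 4 := by gcongr
      _ = 18 * K ^ 4 * (L1 ^ 4 * τ ^ 3) := by ring
      _ ≤ _ := by gcongr

theorem norm_sq (z : GaussianInt) : ‖(z : ℂ)‖ ^ 2 = (z.norm : ℝ) := by
  rw [Complex.sq_norm, GaussianInt.intCast_real_norm]

theorem exists_j {i : Qb} (hi : i ^ 2 = -1) : ∃ j : Qb →+* ℂ, j i = Complex.I := by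
  have h : (M.io i) ^ 2 = Complex.I ^ 2 := by rw [← map_pow, hi, Complex.I_sq]; simp
  rcases sq_eq_sq_iff_eq_or_eq_neg.1 h with h | h
  · exact ⟨M.io, h⟩
  · exact ⟨(starRingEnd ℂ).comp M.io, by simp [h]⟩

end Top23

open Top23 in
theorem top23 (md1 : MD1) (md2 : MD2) (md3 : MD3) (cyc : CYC) (monb : MONB) (latt : LATT)
    (primo : PRIMO) : TOP23 := by
  rintro ⟨C1, h23⟩
  obtain ⟨C, κ, md1⟩ := md1
  obtain ⟨C0, hper⟩ := per
  refine ⟨κ, 484 * (18 * C1 ^ 4 * |C0|) + 4 * (|C| * C1 ^ κ), fun g hg => ?_⟩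
  obtain ⟨i, hi, N, e, c, F0, T0, l0, l1, l2, ν, K0, D, hN, hK, hK1, cq⟩ := h23 g hg
  obtain ⟨g1, g2⟩ := std_bd hg
  have T0' : (T0 : ℂ) ≠ 0 := fun h => D.hT (GaussianInt.toComplex_eq_zero.1 h)
  have rg : Rg (g : ℂ) (T0 : ℂ) := rg_std hg T0'
  have hl1 : l1 ≠ 0 := by
    rintro rfl
    have h := D.rat
    have h2 : (0 : ℚ) < l0.norm := by exact_mod_cast GaussianInt.norm_pos.2 D.hl0
    have h3 := mul_pos D.pos h2
    simp only [Zsqrtd.norm_zero, Int.cast_zero, mul_zero] at h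
    linarith
  obtain ⟨H, hH1, hH2, m1⟩ := md1 N e c D.lv D.chr D.form D.c11
  have lv3 : M.Lv (N ^ 3) := ⟨pow_pos D.lv.pos 3, D.lv.four.trans (dvd_pow_self N (by norm_num))⟩
  obtain ⟨x, γ0, m2⟩ := md2 _ e c H lv3 (D.chr.up (dvd_pow_self N (by norm_num))) D.form hH1 hH2
  obtain ⟨hd, hs⟩ := sep ℂ _ _ rg
  obtain ⟨E, hE⟩ := exp_ex _ _ _ (cls hd hs)
  have S : St g N e c F0 T0 l0 l1 l2 ν _ _ x γ0 E := ⟨rg, hl1, D, m1, m2, md3 _ H lv3 hH1, hE⟩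
  obtain ⟨j, hj⟩ := exists_j hi
  have jT : j (gi i T0) = T0 := by
    rw [gi, map_add, map_mul, map_intCast, map_intCast, hj, GaussianInt.toComplex_def]
  have cC := cyc i hi j g (gi i T0) K0 hj
    (rg_std hg fun h => T0' (by rw [← jT, h, map_zero])) cq
  rw [map_ratCast, jT] at cC
  obtain ⟨a, b, hab, k1, k2⟩ := latt _ _ _ _ _ _ _ _ _ _ _ _ _ _ _ K0 S cC
  obtain ⟨t, ht⟩ : ∃ t : ℂ, t = a + b * Complex.I := ⟨_, rfl⟩
  have t0 : t ≠ 0 := by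
    intro h
    rw [h] at ht
    have e1 := congrArg Complex.re ht
    have e2 := congrArg Complex.im ht
    simp at e1 e2
    rcases hab with h | h
    · exact h (by exact_mod_cast e1.symm)
    · exact h (by exact_mod_cast e2.symm)
  have hmon := monb _ _ _ _ _ _ _ _ _ _ _ _ _ _ _ S a b hab
  rw [← ht] at hmon k1 k2
  refine primo _ _ _ _ _ _ _ _ _ _ _ _ _ _ _ S a b t ht t0 hmon k1 _ ?_
  obtain ⟨lam, z0, z2, z1, b0, b1⟩ := hper g T0 _ _ _ E hg.real T0'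
    (by simp [fG, c3, d2]) hE
  obtain ⟨γ, hγ, e0⟩ := k2 lam z0 (by rw [z2]; push_cast; ring)
  have e1 : (K0 : ℂ) * lam 0 = t * (l0 * p1 c γ) := congrFun e0 0
  have e2 : (K0 : ℂ) * lam 1 = conj t * (l1 * p3 c γ) := congrFun e0 1
  have hp : p3 c γ ≠ 0 := by
    intro h
    rw [h, mul_zero, mul_zero] at e2
    exact mul_ne_zero (Nat.cast_ne_zero.2 hK) z1 e2
  have τ0 : 0 < ‖(T0 : ℂ)‖ := norm_pos_iff.2 T0'
  have sz := size (g := g) (ν := ν) (A := ‖t * l0‖) (B := ‖t * l1‖) (K := K0)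
    (by exact_mod_cast g1) (by simpa using (Rat.cast_lt (K := ℝ)).2 g2) (by exact_mod_cast D.pos) τ0 (Real.exp_pos _)
    (norm_nonneg _) (norm_nonneg _)
    (by
      have h : (g : ℝ) * l1.norm = 9 * ν * l0.norm := by exact_mod_cast D.rat
      rw [norm_mul, norm_mul, mul_pow, mul_pow, norm_sq, norm_sq]
      linear_combination ‖t‖ ^ 2 * h)
    (by
      have h := D.hν
      rw [c3] at h
      rw [norm_sq]
      exact_mod_cast h)
    (by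
      have h := congrArg norm e1
      rw [norm_mul, Complex.norm_natCast, ← mul_assoc, norm_mul] at h
      exact h)
    (by
      have h := congrArg norm e2
      rw [norm_mul, Complex.norm_natCast, ← mul_assoc, norm_mul, norm_mul, Complex.norm_conj,
        ← norm_mul] at h
      exact h)
    (m1.low γ hγ (Or.inr hp)) b0 b1
  have V1 : (1 : ℝ) ≤ Vis g := by
    have : 0 < Vis g := Finset.prod_pos fun p hp => by
      have := (Finset.mem_filter.1 hp).2.1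
      omega
    exact_mod_cast this
  have V2 : (1 : ℝ) ≤ (Vis g : ℝ) ^ κ := one_le_pow₀ V1
  have c11 : ‖(c 11 : ℂ)‖ ^ 2 ≤ 484 := by
    rw [norm_sq]
    have := D.form.bd 11 (by norm_num)
    exact_mod_cast this
  have hK2 : (K0 : ℝ) ≤ C1 := by exact_mod_cast hK1
  have hN2 : (N : ℝ) ≤ C1 * Vis g := by exact_mod_cast hN
  have s1 : 18 * (K0 : ℝ) ^ 4 * C0 ≤ 18 * C1 ^ 4 * |C0| := by
    calc 18 * (K0 : ℝ) ^ 4 * C0 ≤ 18 * (K0 : ℝ) ^ 4 * |C0| := by gcongr; exact le_abs_self _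
      _ ≤ _ := by gcongr
  obtain ⟨R, hR⟩ : ∃ R : ℝ, R = 484 * (18 * C1 ^ 4 * |C0|) := ⟨_, rfl⟩
  have R0 : 0 ≤ R := by rw [hR]; positivity
  have s2 : C * (N : ℝ) ^ κ ≤ |C| * C1 ^ κ * (Vis g : ℝ) ^ κ := by
    calc C * (N : ℝ) ^ κ ≤ |C| * (N : ℝ) ^ κ := by gcongr; exact le_abs_self _
      _ ≤ |C| * (C1 * Vis g) ^ κ := by gcongr
      _ = _ := by ring
  have s3 : R ≤ Real.exp (R * (Vis g : ℝ) ^ κ) := by
    have := Real.add_one_le_exp (R * (Vis g : ℝ) ^ κ)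
    nlinarith
  have s4 : Real.exp (-(C * (N : ℝ) ^ κ)) ^ 4 * Real.exp (4 * (C * (N : ℝ) ^ κ)) = 1 := by
    rw [← Real.exp_nat_mul, ← Real.exp_add, ← Real.exp_zero]
    congr 1; push_cast; ring
  obtain ⟨Q, hQ⟩ : ∃ Q : ℝ, Q = (‖t * l0‖ * ‖t * l1‖ * ‖(T0 : ℂ)‖ ^ 2) ^ 2 := ⟨_, rfl⟩
  have Q0 : 0 ≤ Q := by rw [hQ]; positivity
  rw [← hQ] at sz
  calc (‖t * l0‖ * ‖t * l1‖ * ‖(c 11 : ℂ)‖ * ‖(T0 : ℂ)‖ ^ 2) ^ 2
      = ‖(c 11 : ℂ)‖ ^ 2 * (Real.exp (-(C * (N : ℝ) ^ κ)) ^ 4 * Q) *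
        Real.exp (4 * (C * (N : ℝ) ^ κ)) := by
        rw [hQ]; linear_combination (-(‖t * l0‖ * ‖t * l1‖ * ‖(c 11 : ℂ)‖ * ‖(T0 : ℂ)‖ ^ 2) ^ 2) * s4
    _ ≤ 484 * (18 * C1 ^ 4 * |C0|) * Real.exp (4 * (|C| * C1 ^ κ * (Vis g : ℝ) ^ κ)) := by
        have s5 := sz.trans s1
        exact mul_le_mul (mul_le_mul c11 s5 (by positivity) (by norm_num))
          (Real.exp_le_exp.2 (by linarith)) (by positivity) (by positivity)
    _ ≤ Real.exp (R * (Vis g : ℝ) ^ κ) * Real.exp (4 * (|C| * C1 ^ κ * (Vis g : ℝ) ^ κ)) := by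
        rw [← hR]; gcongr
    _ = _ := by rw [← Real.exp_add, ← hR]; congr 1; ring

end Vale.Agent.P027M.X
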