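import Vale.Agent.P027M.X.Top
import Vale.Agent.P027M.F.Mate2

/-! # P027, route M : rows HYPS, HOP, HEX -/

namespace Vale.Agent.P027M.X

theorem hyps0 : HYPS := fun _ _ _ P _ hr => F.Mate.hyps P hr

theorem hop0 : HOP := fun _ _ _ _ P _ h hr => F.Mate.hop P hr h

theorem hex0 : HEX := hex hyps0 hop0

end Vale.Agent.P027M.X
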