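import Vale.Agent.P027M.X.Top23
import Vale.Agent.P027M.X.Md1
import Vale.Agent.P027M.X.Md2b
import Vale.Agent.P027M.X.Md3
import Vale.Agent.P027M.X.Cyc
import Vale.Agent.P027M.X.Monb
import Vale.Agent.P027M.X.Mons
import Vale.Agent.P027M.X.Hop
import Vale.Agent.P027M.X.Eqh
import Vale.Agent.P027M.X.Primo
import Vale.Agent.P027M.B3.All
import Vale.Agent.P027M.ES.All

/-! # P027, route M, blocks B2, B3 : the closed term -/

namespace Vale.Agent.P027M.X

theorem md1c : MD1 := md1 M.grp ES.esc.1 B3.lowb B3.span0 B3.rst0 B3.idx B3.refl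

/-- **B2 + B3** -/
theorem top23c : TOP23 :=
  top23 md1c Md.md2 md3 (cyc hex0) monb (latt monb finb mons hex0 eqh eqi) primo

end Vale.Agent.P027M.X
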