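import Vale.Agent.P027M.B.Defs

/-! # P027, route M, blocks B2, B3 : the class group of `w ^ 2 = F m` by generators and relations -/

open Polynomial

noncomputable section

namespace Vale.Agent.P027M.X

variable {L L' : Type*} [Field L] [Field L']

/-- the relations: pairs off the curve are `0`, conjugate points cancel, the zeros of `A + B w`
add up to `0` -/
inductive Rel (F : L[X]) : FreeAbelianGroup (L × L) → Prop
  | off (p : L × L) : p.2 ^ 2 ≠ F.eval p.1 → Rel F (.of p)
  | pair (μ s : L) : Rel F (.of (μ, s) + .of (μ, -s))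
  | div (Z : Multiset (L × L)) (A B : L[X]) (c : L) : c ≠ 0 → IsCoprime A B →
      A ^ 2 - B ^ 2 * F = C c * (Z.map fun p => X - C p.1).prod →
      (∀ p ∈ Z, A.eval p.1 + B.eval p.1 * p.2 = 0) → Rel F (Z.map .of).sum

/-- the class group (classes of degree `0`; a point `P` stands for `P - ∞`) -/
def PicP (F : L[X]) : Type _ := FreeAbelianGroup (L × L) ⧸ AddSubgroup.closure {x | Rel F x}

instance (F : L[X]) : AddCommGroup (PicP F) :=
  inferInstanceAs (AddCommGroup (FreeAbelianGroup (L × L) ⧸ AddSubgroup.closure {x | Rel F x}))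

/-- the projection -/
def mkP (F : L[X]) : FreeAbelianGroup (L × L) →+ PicP F := QuotientAddGroup.mk' _

/-- the class of a point -/
def cl (F : L[X]) (p : L × L) : PicP F := mkP F (.of p)

/-- the class of an effective divisor -/
def sm (F : L[X]) (Z : Multiset (L × L)) : PicP F := (Z.map (cl F)).sum

/-- the class of a pair `(U, V)` : the points `(μ, V μ)`, `μ` a root of `U` -/
def mum (F U V : L[X]) : PicP F := sm F (U.roots.map fun μ => (μ, V.eval μ))

theorem mkP_rel {F : L[X]} {x : FreeAbelianGroup (L × L)} (h : Rel F x) : mkP F x = 0 :=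
  (QuotientAddGroup.eq_zero_iff x).2 (AddSubgroup.subset_closure h)

theorem mkP_surj (F : L[X]) : Function.Surjective (mkP F) := QuotientAddGroup.mk'_surjective _

theorem cl_off {F : L[X]} {p : L × L} (h : p.2 ^ 2 ≠ F.eval p.1) : cl F p = 0 :=
  mkP_rel (.off p h)

theorem cl_neg (F : L[X]) (μ s : L) : cl F (μ, -s) = -cl F (μ, s) := by
  have h := mkP_rel (Rel.pair (F := F) μ s)
  rw [map_add] at h
  exact eq_neg_of_add_eq_zero_right h

theorem mkP_sum (F : L[X]) (Z : Multiset (L × L)) : mkP F (Z.map .of).sum = sm F Z := by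
  rw [map_multiset_sum, Multiset.map_map]; rfl

theorem sm_div {F : L[X]} {Z : Multiset (L × L)} {A B : L[X]} {c : L} (hc : c ≠ 0)
    (hAB : IsCoprime A B) (hN : A ^ 2 - B ^ 2 * F = C c * (Z.map fun p => X - C p.1).prod)
    (hZ : ∀ p ∈ Z, A.eval p.1 + B.eval p.1 * p.2 = 0) : sm F Z = 0 := by
  rw [← mkP_sum]; exact mkP_rel (.div Z A B c hc hAB hN hZ)

@[simp] theorem sm_zero (F : L[X]) : sm F 0 = 0 := by simp [sm]

@[simp] theorem sm_add (F : L[X]) (Z Z' : Multiset (L × L)) : sm F (Z + Z') = sm F Z + sm F Z' := by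
  simp [sm]

@[simp] theorem sm_cons (F : L[X]) (p : L × L) (Z : Multiset (L × L)) :
    sm F (p ::ₘ Z) = cl F p + sm F Z := by simp [sm]

@[simp] theorem sm_singleton (F : L[X]) (p : L × L) : sm F {p} = cl F p := by simp [sm]

theorem sm_fin (F : L[X]) {ι : Type*} [Fintype ι] (p : ι → L × L) :
    sm F (Finset.univ.val.map p) = ∑ i, cl F (p i) := by
  rw [sm, Multiset.map_map]; rfl

theorem sm_neg (F : L[X]) (Z : Multiset (L × L)) :
    sm F (Z.map fun p => (p.1, -p.2)) = -sm F Z := by
  induction Z using Multiset.induction_on with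
  | empty => simp
  | cons p Z ih => rw [Multiset.map_cons, sm_cons, sm_cons, ih, cl_neg, neg_add]

theorem PicP.hom_ext {F : L[X]} {G : Type*} [AddCommGroup G] {φ ψ : PicP F →+ G}
    (h : ∀ p : L × L, p.2 ^ 2 = F.eval p.1 → φ (cl F p) = ψ (cl F p)) : φ = ψ := by
  refine AddMonoidHom.ext fun x => ?_
  obtain ⟨y, rfl⟩ := mkP_surj F x
  refine DFunLike.congr_fun (f := φ.comp (mkP F)) (g := ψ.comp (mkP F)) ?_ y
  refine FreeAbelianGroup.lift_ext _ _ fun p => ?_
  show φ (cl F p) = ψ (cl F p)
  by_cases hp : p.2 ^ 2 = F.eval p.1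
  · exact h p hp
  · rw [cl_off hp, map_zero, map_zero]

/-- the universal property -/
def PicP.lift {F : L[X]} {G : Type*} [AddCommGroup G] (f : L × L → G)
    (h0 : ∀ p : L × L, p.2 ^ 2 ≠ F.eval p.1 → f p = 0) (h1 : ∀ μ s, f (μ, s) + f (μ, -s) = 0)
    (h2 : ∀ (Z : Multiset (L × L)) (A B : L[X]) (c : L), c ≠ 0 → IsCoprime A B →
      A ^ 2 - B ^ 2 * F = C c * (Z.map fun p => X - C p.1).prod →
      (∀ p ∈ Z, A.eval p.1 + B.eval p.1 * p.2 = 0) → (Z.map f).sum = 0) : PicP F →+ G :=
  QuotientAddGroup.lift _ (FreeAbelianGroup.lift f) (by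
    refine (AddSubgroup.closure_le (FreeAbelianGroup.lift f).ker).2 ?_
    intro x hx
    show FreeAbelianGroup.lift f x = 0
    cases hx with
    | off p h => simpa using h0 p h
    | pair μ s => simpa using h1 μ s
    | div Z A B c a b d e =>
      rw [map_multiset_sum, Multiset.map_map]
      simpa using h2 Z A B c a b d e)

theorem PicP.lift_cl {F : L[X]} {G : Type*} [AddCommGroup G] (f : L × L → G) (h0 h1 h2)
    (p : L × L) : PicP.lift (F := F) f h0 h1 h2 (cl F p) = f p :=
  FreeAbelianGroup.lift_apply_of f p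

/-- change of the field -/
def pmap (φ : L →+* L') {F : L[X]} {F' : L'[X]} (h : F.map φ = F') : PicP F →+ PicP F' :=
  PicP.lift (fun p => cl F' (φ p.1, φ p.2))
    (fun p hp => cl_off fun e => hp (φ.injective (by
      rw [map_pow, ← eval₂_at_apply, eval₂_eq_eval_map, h]; exact e)))
    (fun μ s => by simp only [map_neg, cl_neg, add_neg_cancel])
    (fun Z A B c hc hAB hN hZ => by
      have e := sm_div (F := F') (Z := Z.map fun p => (φ p.1, φ p.2)) (A := A.map φ)
        (B := B.map φ) (c := φ c) ((map_ne_zero φ).2 hc) (hAB.map (mapRingHom φ)) (by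
          have e := congrArg (Polynomial.map φ) hN
          simpa [h, Polynomial.map_multiset_prod, Multiset.map_map] using e) (by
          intro p hp
          obtain ⟨q, hq, rfl⟩ := Multiset.mem_map.1 hp
          have e := congrArg φ (hZ q hq)
          simpa [eval_map, eval₂_at_apply] using e)
      rwa [sm, Multiset.map_map] at e)

theorem pmap_cl (φ : L →+* L') {F : L[X]} {F' : L'[X]} (h : F.map φ = F') (p : L × L) :
    pmap φ h (cl F p) = cl F' (φ p.1, φ p.2) := PicP.lift_cl _ _ _ _ p

theorem pmap_sm (φ : L →+* L') {F : L[X]} {F' : L'[X]} (h : F.map φ = F')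
    (Z : Multiset (L × L)) : pmap φ h (sm F Z) = sm F' (Z.map fun p => (φ p.1, φ p.2)) := by
  rw [sm, sm, map_multiset_sum, Multiset.map_map, Multiset.map_map]
  exact congrArg _ (Multiset.map_congr rfl fun p _ => pmap_cl φ h p)

/-- the automorphism `(m, w) ↦ (-m, i w)` of an odd curve -/
def piota {F : L[X]} (i : L) (hi : i ^ 2 = -1) (hF : F.comp (-X) = -F) : PicP F →+ PicP F :=
  have hev : ∀ μ : L, F.eval (-μ) = -F.eval μ := fun μ => by
    simpa [eval_comp] using congrArg (eval μ) hF
  PicP.lift (fun p => cl F (-p.1, i * p.2))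
    (fun p hp => cl_off fun e => hp (by
      simp only [hev, mul_pow, hi] at e
      linear_combination -e))
    (fun μ s => by simp only [mul_neg, cl_neg, add_neg_cancel])
    (fun Z A B c hc hAB hN hZ => by
      have e := sm_div (F := F) (Z := Z.map fun p => (-p.1, i * p.2)) (A := A.comp (-X))
        (B := C (-i) * B.comp (-X)) (c := c * (-1) ^ Z.card)
        (mul_ne_zero hc (pow_ne_zero _ (neg_ne_zero.2 one_ne_zero))) (by
          obtain ⟨a, b, e⟩ := hAB
          refine ⟨a.comp (-X), C i * b.comp (-X), ?_⟩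
          have e1 := congrArg (fun r => r.comp (-X)) e
          have e2 : (C i : L[X]) ^ 2 = -1 := by rw [← map_pow, hi, map_neg, map_one]
          simp only [add_comp, mul_comp, one_comp] at e1
          rw [map_neg]
          linear_combination e1 - (b.comp (-X) * B.comp (-X)) * e2) (by
          have e1 := congrArg (fun r => r.comp (-X)) hN
          have e2 : (C i : L[X]) ^ 2 = -1 := by rw [← map_pow, hi, map_neg, map_one]
          have e3 : ∀ Z : Multiset (L × L), (Z.map fun p => (X - C p.1 : L[X])).prod.comp (-X) =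
              (-1) ^ Z.card * ((Z.map fun p => (-p.1, i * p.2)).map fun p => X - C p.1).prod := by
            intro Z
            induction Z using Multiset.induction_on with
            | empty => simp
            | cons p Z ih =>
              simp only [Multiset.map_cons, Multiset.prod_cons, mul_comp, ih, Multiset.card_cons,
                sub_comp, X_comp, C_comp, map_neg]
              ring
          simp only [sub_comp, mul_comp, pow_comp, hF, C_comp, e3] at e1
          simp only [map_mul, map_neg, map_pow, map_one]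
          linear_combination e1 - (B.comp (-X) ^ 2 * F) * e2) (by
          intro p hp
          obtain ⟨q, hq, rfl⟩ := Multiset.mem_map.1 hp
          have e := hZ q hq
          simp only [eval_comp, eval_neg, eval_X, neg_neg, eval_mul, eval_C]
          linear_combination e - (B.eval q.1 * q.2) * hi)
      rwa [sm, Multiset.map_map] at e)

theorem piota_cl {F : L[X]} (i : L) (hi : i ^ 2 = -1) (hF : F.comp (-X) = -F) (p : L × L) :
    piota i hi hF (cl F p) = cl F (-p.1, i * p.2) :=
  FreeAbelianGroup.lift_apply_of (fun p : L × L => cl F (-p.1, i * p.2)) p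

/-- a reduced divisor: at most three points of the curve, no two of them conjugate -/
structure Red (F : L[X]) (Z : Multiset (L × L)) : Prop where
  on : ∀ p ∈ Z, p.2 ^ 2 = F.eval p.1
  card : Z.card ≤ 3
  nopair : ∀ μ s, ¬ {(μ, s), (μ, -s)} ≤ Z

/-- [X.RED] -/
def RED : Prop := ∀ (L : Type) [Field L] [IsAlgClosed L] [CharZero L] (F : L[X]),
  F.natDegree = 7 → ∀ x : PicP F, ∃ Z, Red F Z ∧ sm F Z = x

/-- [X.UNQ] -/
def UNQ : Prop := ∀ (L : Type) [Field L] [IsAlgClosed L] [CharZero L] (F : L[X]),
  F.natDegree = 7 → F.Separable → ∀ Z Z', Red F Z → Red F Z' → sm F Z = sm F Z' → Z = Z'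

/-- [X.DER] Abel's theorem: a derivation which kills `F` gives additive maps on the class group -/
def DER : Prop := ∀ (L : Type) [Field L] [IsAlgClosed L] [CharZero L] (F : L[X])
  (d : Derivation ℤ L L), F.natDegree = 7 → F.Separable → (∀ i, d (F.coeff i) = 0) → ∀ j < 3,
  ∃ a : PicP F →+ L, ∀ μ s, s ^ 2 = F.eval μ → a (cl F (μ, s)) = μ ^ j * d μ / s

/-- [X.SP] transfer along an ultrafilter -/
def SP : Prop := ∀ (Y : Type) (𝒰 : Ultrafilter Y) (Om : Type) [Field Om] [IsAlgClosed Om]
  [Algebra ℂ Om] (φ : Om →+* Filter.Germ (𝒰 : Filter Y) ℂ) (F : ℂ[X]),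
  (∀ c : ℂ, φ (algebraMap ℂ Om c) = (↑(fun _ : Y => c) : Filter.Germ (𝒰 : Filter Y) ℂ)) →
  F.natDegree = 7 → F.Separable →
  ∀ (ι : Type) [Fintype ι] (p : ι → Om × Om) (n : ι → ℤ) (a b : ι → Y → ℂ),
  (∀ i, φ (p i).1 = ↑(a i) ∧ φ (p i).2 = ↑(b i)) →
  (∑ i, n i • cl (F.map (algebraMap ℂ Om)) (p i) = 0 ↔
    ∀ᶠ y in (𝒰 : Filter Y), ∑ i, n i • cl F (a i y, b i y) = 0)

end Vale.Agent.P027M.X
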