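import Vale.Agent.P027M.X.Defs
import Vale.Agent.P027M.B.Pts

/-! # P027, route M, block X : points, places and divisors of `w ^ 2 = F m` -/

set_option linter.all false

open Polynomial Vale.Agent.P019P P025H492

noncomputable section

namespace Vale.Agent.P027M.X

open B B.PtsAux

variable {k L : Type*} [Field k] [Field L] [Algebra k L] [CFF k L] {F : k[X]} {m w : L}

/-- the place at infinity -/
def oo (h : Hyp F m w) : Plk k L := h.pts.inf.choose

theorem oo_m (h : Hyp F m w) : ord (oo h) m = -2 := h.pts.inf.choose_spec.1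

theorem oo_w (h : Hyp F m w) : ord (oo h) w = -7 := h.pts.inf.choose_spec.2.1

theorem eq_oo (h : Hyp F m w) {Q : Plk k L} (hQ : ¬ 0 ≤ ord Q m) : Q = oo h :=
  h.pts.inf.choose_spec.2.2 Q (not_le.1 hQ)

theorem oo_not (h : Hyp F m w) : ¬ 0 ≤ ord (oo h) m := by rw [oo_m]; omega

open Classical in
/-- the place of a point (the place at infinity for a pair off the curve) -/
def plc (h : Hyp F m w) (p : k × k) : Plk k L :=
  if hp : p.2 ^ 2 = F.eval p.1 then (h.pts.surj _ _ hp).choose else oo h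

theorem plc_spec (h : Hyp F m w) {p : k × k} (hp : p.2 ^ 2 = F.eval p.1) :
    0 ≤ ord (plc h p) m ∧ vl (plc h p) m = p.1 ∧ vl (plc h p) w = p.2 := by
  rw [plc, dif_pos hp]
  exact (h.pts.surj _ _ hp).choose_spec

theorem plc_off (h : Hyp F m w) {p : k × k} (hp : p.2 ^ 2 ≠ F.eval p.1) : plc h p = oo h :=
  dif_neg hp

theorem plc_vl (h : Hyp F m w) {P : Plk k L} (hP : 0 ≤ ord P m) : plc h (vl P m, vl P w) = P := by
  obtain ⟨h1, h2, h3⟩ := plc_spec h (p := (vl P m, vl P w)) (h.pts.pt P hP).2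
  exact h.pts.inj _ _ h1 hP h2 h3

theorem plc_eq_iff (h : Hyp F m w) {P : Plk k L} (hP : 0 ≤ ord P m) (p : k × k) :
    plc h p = P ↔ (vl P m, vl P w) = p := by
  refine ⟨fun e => ?_, fun e => e ▸ plc_vl h hP⟩
  by_cases hp : p.2 ^ 2 = F.eval p.1
  · obtain ⟨-, h2, h3⟩ := plc_spec h hp
    rw [← e, h2, h3]
  · rw [plc_off h hp] at e
    exact absurd (e ▸ hP) (oo_not h)

/-- the divisor `P - ∞` of a point -/
def dpt (h : Hyp F m w) (p : k × k) : Plk k L →₀ ℤ :=
  Finsupp.single (plc h p) 1 - Finsupp.single (oo h) 1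

/-- the divisor `∑ P - n ∞` -/
def dvs (h : Hyp F m w) (Z : Multiset (k × k)) : Plk k L →₀ ℤ := (Z.map (dpt h)).sum

theorem dpt_off (h : Hyp F m w) {p : k × k} (hp : p.2 ^ 2 ≠ F.eval p.1) : dpt h p = 0 := by
  rw [dpt, plc_off h hp, sub_self]

@[simp] theorem dvs_zero (h : Hyp F m w) : dvs h 0 = 0 := by simp [dvs]

@[simp] theorem dvs_cons (h : Hyp F m w) (p : k × k) (Z : Multiset (k × k)) :
    dvs h (p ::ₘ Z) = dpt h p + dvs h Z := by simp [dvs]

@[simp] theorem dvs_add (h : Hyp F m w) (Z Z' : Multiset (k × k)) :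
    dvs h (Z + Z') = dvs h Z + dvs h Z' := by simp [dvs]

theorem dg_one {P : Type*} (a : P) (n : ℤ) : dg (Finsupp.single a n) = n := by simp [dg]

theorem dg_dpt (h : Hyp F m w) (p : k × k) : dg (dpt h p) = 0 := by
  rw [dpt, map_sub, dg_one, dg_one, sub_self]

theorem dg_dvs (h : Hyp F m w) (Z : Multiset (k × k)) : dg (dvs h Z) = 0 := by
  induction Z using Multiset.induction_on with
  | empty => simp
  | cons p Z ih => rw [dvs_cons, map_add, ih, dg_dpt, add_zero]

theorem dvs_aff [DecidableEq k] (h : Hyp F m w) {P : Plk k L} (hP : 0 ≤ ord P m)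
    (Z : Multiset (k × k)) : dvs h Z P = Z.count (vl P m, vl P w) := by
  classical
  have h0 : oo h ≠ P := fun e => oo_not h (e ▸ hP)
  induction Z using Multiset.induction_on with
  | empty => simp
  | cons p Z ih =>
    rw [dvs_cons, Finsupp.add_apply, ih, Multiset.count_cons, dpt, Finsupp.sub_apply,
      Finsupp.single_apply, Finsupp.single_apply, if_neg h0]
    simp only [plc_eq_iff h hP]
    split_ifs <;> push_cast <;> ring

theorem dvs_oo (h : Hyp F m w) {Z : Multiset (k × k)} (hZ : ∀ p ∈ Z, p.2 ^ 2 = F.eval p.1) :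
    dvs h Z (oo h) = -Z.card := by
  classical
  induction Z using Multiset.induction_on with
  | empty => simp
  | cons p Z ih =>
    have h0 : plc h p ≠ oo h := fun e =>
      oo_not h (e ▸ (plc_spec h (hZ p (Multiset.mem_cons_self _ _))).1)
    rw [dvs_cons, Finsupp.add_apply, ih fun q hq => hZ q (Multiset.mem_cons_of_mem hq), dpt,
      Finsupp.sub_apply, Finsupp.single_apply, if_neg h0, Finsupp.single_eq_same,
      Multiset.card_cons]
    push_cast
    ring

/-- a divisor is determined by its degree and its affine part -/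
theorem ext_aff (h : Hyp F m w) {D D' : Plk k L →₀ ℤ} (hd : dg D = dg D')
    (e : ∀ P, 0 ≤ ord P m → D P = D' P) : D = D' := by
  have h1 : D - D' = Finsupp.single (oo h) ((D - D') (oo h)) := by
    ext P
    by_cases hP : 0 ≤ ord P m
    · have h0 : P ≠ oo h := fun e => oo_not h (e ▸ hP)
      rw [Finsupp.single_eq_of_ne h0, Finsupp.sub_apply, e P hP, sub_self]
    · rw [eq_oo h hP, Finsupp.single_eq_same]
  have h2 := congrArg dg h1
  rw [map_sub, hd, sub_self, dg_one] at h2
  rw [← h2, Finsupp.single_zero] at h1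
  exact sub_eq_zero.1 h1

theorem ord_lin [DecidableEq k] (h : Hyp F m w) {P : Plk k L} (hP : 0 ≤ ord P m) :
    ord P (m - algebraMap k L (vl P m)) = if vl P w = 0 then 2 else 1 := by
  split_ifs with h1
  · exact (h.pts.bra P hP h1).1
  · exact h.pts.unif P hP h1

/-- the divisor of `m - μ` -/
theorem dv_lin (h : Hyp F m w) {μ s : k} (hs : s ^ 2 = F.eval μ) :
    dv k (aeval m (X - C μ)) = dvs h {(μ, s), (μ, -s)} := by
  classical
  refine ext_aff h (by rw [dg_dv, dg_dvs]) fun P hP => ?_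
  have hF := (h.pts.pt P hP).2
  rw [dv_apply, dvs_aff h hP, ord_aff (nc h) hP (X_sub_C_ne_zero μ), ord_lin h hP,
    rootMultiplicity_X_sub_C, Multiset.insert_eq_cons, Multiset.count_cons,
    Multiset.count_singleton]
  by_cases h1 : vl P m = μ
  · rw [h1, ← hs] at hF
    by_cases h2 : s = 0
    · subst h2
      have h3 : vl P w = 0 := by simpa using hF
      simp [h1, h3]
    · have h3 := neg_ne h h2
      rcases sq_eq_sq_iff_eq_or_eq_neg.1 hF with h4 | h4
      · simp [h1, h4, h2, h3.symm]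
      · simp [h1, h4, h2, h3]
  · simp [h1]

theorem val_ab (h : Hyp F m w) {P : Plk k L} (hP : 0 ≤ ord P m) (A B : k[X]) :
    aeval m A + aeval m B * w -
      algebraMap k L (A.eval (vl P m) + B.eval (vl P m) * vl P w) ∈ Mge P 1 :=
  add1 (val1 hP A) (mul1 (val1 hP B) (sub_vl_mem (h.pts.pt P hP).1))

theorem norm_ab (h : Hyp F m w) (A B : k[X]) :
    (aeval m A + aeval m B * w) * (aeval m A + aeval m (-B) * w) = aeval m (A ^ 2 - B ^ 2 * F) := by
  rw [map_sub, map_mul, map_pow, map_pow, map_neg, ← h.sq]; ring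

theorem ord_bra (h : Hyp F m w) {P : Plk k L} (hP : 0 ≤ ord P m) (hs : vl P w = 0) {A B : k[X]}
    (hA : A.eval (vl P m) = 0) (hB : B.eval (vl P m) ≠ 0) :
    ord P (aeval m A + aeval m B * w) = 1 := by
  obtain ⟨h1, h2⟩ := unit hB (val1 hP B)
  obtain ⟨h3, h4⟩ := h.pts.bra P hP hs
  have h5 : ord P (aeval m B * w) = 1 := by rw [ord_mul P h1 (w0 h), h2, h4, zero_add]
  have h6 := root_mem hP (dvd_iff_isRoot.2 hA)
  rw [h3] at h6
  rw [add_comm, (ord_add_of_lt (mul_ne_zero h1 (w0 h)) (by rw [h5]; exact h6)).2, h5]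

theorem cop_eval {A B : k[X]} (hAB : IsCoprime A B) {μ : k} (hA : A.eval μ = 0) : B.eval μ ≠ 0 :=
  fun hB => by
    obtain ⟨a, b, e⟩ := hAB
    simpa [hA, hB] using congrArg (eval μ) e

theorem cop_B {A B : k[X]} (hAB : IsCoprime A B) {μ s : k} (e : A.eval μ + B.eval μ * s = 0) :
    B.eval μ ≠ 0 := fun hB => cop_eval hAB (by simpa [hB] using e) hB

theorem count_fst [DecidableEq k] {Z : Multiset (k × k)} {μ s : k}
    (hZ : ∀ p ∈ Z, p.1 = μ → p.2 = s) : (Z.map Prod.fst).count μ = Z.count (μ, s) := by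
  induction Z using Multiset.induction_on with
  | empty => simp
  | cons p Z ih =>
    rw [Multiset.map_cons, Multiset.count_cons, Multiset.count_cons,
      ih fun q hq => hZ q (Multiset.mem_cons_of_mem hq)]
    congr 1
    refine if_congr ⟨fun e => ?_, fun e => by rw [← e]⟩ rfl rfl
    exact Prod.ext e (hZ p (Multiset.mem_cons_self _ _) e.symm).symm

/-- **the divisor of `A + B w`** -/
theorem dv_ab (h : Hyp F m w) {Z : Multiset (k × k)} {A B : k[X]} {c : k} (hc : c ≠ 0)
    (hAB : IsCoprime A B) (hN : A ^ 2 - B ^ 2 * F = C c * (Z.map fun p => X - C p.1).prod)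
    (hZ : ∀ p ∈ Z, A.eval p.1 + B.eval p.1 * p.2 = 0) :
    aeval m A + aeval m B * w ≠ 0 ∧ dv k (aeval m A + aeval m B * w) = dvs h Z := by
  classical
  have hr : (A ^ 2 - B ^ 2 * F).roots = Z.map Prod.fst := by
    rw [hN, roots_C_mul _ hc, ← roots_multiset_prod_X_sub_C (Z.map Prod.fst), Multiset.map_map]
    rfl
  have hN0 : A ^ 2 - B ^ 2 * F ≠ 0 := by
    rw [hN]
    exact mul_ne_zero (C_ne_zero.2 hc) (monic_multiset_prod_of_monic _ _
      fun p _ => monic_X_sub_C p.1).ne_zero
  have h0 := ne0 h hN0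
  rw [← norm_ab h] at h0
  have h1 := left_ne_zero_of_mul h0
  have h2 := right_ne_zero_of_mul h0
  refine ⟨h1, ext_aff h (by rw [dg_dv, dg_dvs]) fun P hP => ?_⟩
  rw [dv_apply, dvs_aff h hP]
  by_cases hv : A.eval (vl P m) + B.eval (vl P m) * vl P w = 0
  · have hB := cop_B hAB hv
    have h3 := ord_mul P h1 h2
    rw [norm_ab h, ord_aff (nc h) hP hN0, ord_lin h hP, ← count_roots, hr,
      count_fst (s := vl P w) fun p hp e => mul_left_cancel₀ hB (by
        have := hZ p hp
        rw [e] at this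
        linear_combination this - hv)] at h3
    by_cases hs : vl P w = 0
    · have hA : A.eval (vl P m) = 0 := by simpa [hs] using hv
      rw [if_pos hs, ord_bra h hP hs hA hB, ord_bra h hP hs hA (by simpa using hB)] at h3
      rw [ord_bra h hP hs hA hB]
      omega
    · rw [if_neg hs, (unit (fun e => ?_) (val_ab h hP A (-B))).2] at h3
      · omega
      · rw [eval_neg] at e
        exact mul_ne_zero h.two (mul_ne_zero hB hs) (by linear_combination hv - e)
  · rw [(unit hv (val_ab h hP A B)).2, Multiset.count_eq_zero_of_notMem fun e => hv (hZ _ e)]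
    rfl

end Vale.Agent.P027M.X
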