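import Vale.Agent.P027M.X.ExpDefs

/-! # P027, route M, block EXP : the local addition lemma -/

open Polynomial Filter Topology Finset

noncomputable section

namespace Vale.Agent.P027M.X

/-- a local branch with primitives -/
structure Br (F : ℂ[X]) (w : ℂ → ℂ) (L : ℂ → Fin 3 → ℂ) (z : ℂ) : Prop where
  d : DifferentiableAt ℂ w z
  ne : w z ≠ 0
  sq : w z ^ 2 = F.eval z
  L : HasDerivAt L (om z (w z)) z

namespace ExpL

theorem linv {E : Type} [NormedAddCommGroup E] [NormedSpace ℂ E] [CompleteSpace E] {f : E → E}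
    {a : E} (A : E ≃L[ℂ] E) (hC : ContDiffAt ℂ 1 f a) (hA : HasFDerivAt f (A : E →L[ℂ] E) a) :
    ∃ g : E → E, g (f a) = a ∧ (∀ᶠ y in 𝓝 (f a), DifferentiableAt ℂ g y ∧ f (g y) = y) ∧
      ∀ᶠ x in 𝓝 a, g (f x) = x := by
  have t1 := hC.to_localInverse hA one_ne_zero
  refine ⟨hC.localInverse hA one_ne_zero, hC.localInverse_apply_image hA one_ne_zero, ?_,
    (hC.hasStrictFDerivAt' hA one_ne_zero).eventually_left_inverse⟩
  filter_upwards [t1.eventually (by simp),
    (hC.hasStrictFDerivAt' hA one_ne_zero).eventually_right_inverse] with y h1 h2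
  exact ⟨h1.differentiableAt one_ne_zero, h2⟩

theorem linv1 {f : ℂ → ℂ} {a d : ℂ} (hf : ∀ᶠ z in 𝓝 a, DifferentiableAt ℂ f z)
    (hd : HasDerivAt f d a) (d0 : d ≠ 0) :
    ∃ g : ℂ → ℂ, g (f a) = a ∧ (∀ᶠ y in 𝓝 (f a), DifferentiableAt ℂ g y ∧ f (g y) = y) ∧
      ∀ᶠ x in 𝓝 a, g (f x) = x :=
  linv (ContinuousLinearEquiv.unitsEquivAut ℂ (Units.mk0 d d0))
    (Complex.analyticAt_iff_eventually_differentiableAt.2 hf).contDiffAt (hd.hasFDerivAt_equiv d0)

theorem euler {ι : Type} [Fintype ι] [DecidableEq ι] {x : ι → ℂ} (hx : Function.Injective x)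
    {j : ℕ} (hj : j + 1 < Fintype.card ι) :
    ∑ k, x k ^ j / (derivative (Lagrange.nodal univ x)).eval (x k) = 0 := by
  have h := Lagrange.coeff_eq_sum (s := univ) (v := x) hx.injOn (P := (X : ℂ[X]) ^ j) (by
    rw [degree_X_pow, card_univ]; exact_mod_cast (by omega : j < Fintype.card ι))
  rw [coeff_X_pow, if_neg (by rw [card_univ]; omega)] at h
  rw [h]
  refine sum_congr rfl fun k _ => ?_
  rw [Lagrange.eval_nodal_derivative_eval_node_eq (mem_univ k), Lagrange.eval_nodal]
  simp

theorem nodal_dvd {ι : Type} [Fintype ι] {x : ι → ℂ} (hx : Function.Injective x) {P : ℂ[X]}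
    (h : ∀ k, P.eval (x k) = 0) : Lagrange.nodal univ x ∣ P := by
  rw [Lagrange.nodal_eq]
  exact Finset.prod_dvd_of_coprime ((pairwise_coprime_X_sub_C hx).set_pairwise _)
    fun k _ => dvd_iff_isRoot.2 (h k)

theorem const_of_deriv {𝕜 : Type} [RCLike 𝕜] {V : Type} [NormedAddCommGroup V] [NormedSpace 𝕜 V]
    {J : 𝕜 → V} {z0 : 𝕜} (h : ∀ᶠ z in 𝓝 z0, HasDerivAt J 0 z) : ∀ᶠ z in 𝓝 z0, J z = J z0 := by
  obtain ⟨δ, δ0, hδ⟩ := Metric.eventually_nhds_iff_ball.1 h
  filter_upwards [Metric.ball_mem_nhds z0 δ0] with z hz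
  exact Metric.isOpen_ball.is_const_of_deriv_eq_zero (convex_ball z0 δ).isPreconnected
    (fun y hy => (hδ y hy).differentiableAt.differentiableWithinAt)
    (fun y hy => (hδ y hy).deriv) hz (Metric.mem_ball_self δ0)

theorem inj_ev {ι : Type} [Fintype ι] {P : Type} [TopologicalSpace P] {x : ι → P → ℂ} {p : P}
    (hc : ∀ k, ContinuousAt (x k) p) (hi : Function.Injective fun k => x k p) :
    ∀ᶠ q in 𝓝 p, Function.Injective fun k => x k q := by
  have h : ∀ᶠ q in 𝓝 p, ∀ k l, k ≠ l → x k q ≠ x l q := by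
    refine eventually_all.2 fun k => eventually_all.2 fun l => ?_
    by_cases e : k = l
    · exact Eventually.of_forall fun q h => absurd e h
    · have := ((hc k).sub (hc l)).eventually_ne (y := 0) (sub_ne_zero.2 fun h => e (hi h))
      exact this.mono fun q h _ => sub_ne_zero.1 h
  exact h.mono fun q h k l e => by_contra fun n => h k l n e

end ExpL

open ExpL

/-- the local addition lemma: four points can be moved in their class, with constant sum of the
abelian integrals, one of them being prescribed -/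
theorem ll {F : ℂ[X]} {G : Type} [AddCommGroup G] {pt : ℂ → ℂ → G} (H : Cls F pt)
    {ι : Type} [Fintype ι] [DecidableEq ι] (hι : Fintype.card ι = 4) (i0 : ι) {m0 : ι → ℂ}
    (hm : Function.Injective m0) {w : ι → ℂ → ℂ} {L : ι → ℂ → Fin 3 → ℂ}
    (hB : ∀ k, ∀ᶠ z in 𝓝 (m0 k), Br F (w k) (L k) z) {U : Set (ι → ℂ)} (hU : U ∈ 𝓝 m0) :
    ∀ᶠ z in 𝓝 (m0 i0), ∃ x ∈ U, x i0 = z ∧ ∑ k, L k (x k) = ∑ k, L k (m0 k) ∧
      ∑ k, pt (x k) (w k (x k)) = ∑ k, pt (m0 k) (w k (m0 k)) := by
  have B0 : ∀ k, Br F (w k) (L k) (m0 k) := fun k => (hB k).self_of_nhds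
  set U4 : ℂ[X] := Lagrange.nodal univ m0 with hU4
  set V : ℂ[X] := Lagrange.interpolate univ m0 fun k => -w k (m0 k) with hV
  have Vv : ∀ k, V.eval (m0 k) = -w k (m0 k) := fun k =>
    Lagrange.eval_interpolate_at_node _ hm.injOn (mem_univ k)
  have Vd : V.degree < 4 := by
    have := Lagrange.degree_interpolate_lt (fun k => -w k (m0 k)) (s := univ) hm.injOn
    rwa [card_univ, hι] at this
  have Vn : V.natDegree ≤ 3 := by
    by_cases h : V = 0
    · simp [h]
    · have := (natDegree_lt_iff_degree_lt h (n := 4)).2 Vd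
      omega
  have U0 : ∀ k, U4.eval (m0 k) = 0 := fun k => Lagrange.eval_nodal_at_node (mem_univ k)
  have Un : U4.natDegree = 4 := by rw [hU4, Lagrange.natDegree_nodal, card_univ, hι]
  obtain ⟨W, hW⟩ : U4 ∣ V ^ 2 - F := nodal_dvd hm fun k => by
    rw [eval_sub, eval_pow, Vv, neg_sq, (B0 k).sq, sub_self]
  have Wn : W.natDegree ≤ 3 := by
    by_cases h : W = 0
    · simp [h]
    · have h1 := natDegree_mul (Lagrange.nodal_ne_zero (s := univ) (v := m0)) h
      have h2 : (V ^ 2 - F).natDegree ≤ 7 := (natDegree_sub_le _ _).trans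
        (max_le (natDegree_pow_le.trans (by omega)) H.deg.le)
      rw [← hU4, ← hW, Un] at h1
      omega
  have hWe : ∀ z, V.eval z ^ 2 - F.eval z = U4.eval z * W.eval z := fun z => by
    have := congrArg (eval z) hW
    simpa only [eval_sub, eval_pow, eval_mul] using this
  let β : ι → ℂ → ℂ := fun k z => U4.eval z / (V.eval z - w k z)
  have den0 : ∀ k, V.eval (m0 k) - w k (m0 k) ≠ 0 := fun k => by
    rw [Vv]
    intro h
    apply (B0 k).ne
    linear_combination (-1 / 2 : ℂ) * h
  have den : ∀ k, ∀ᶠ z in 𝓝 (m0 k), V.eval z - w k z ≠ 0 := fun k =>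
    (V.continuous.continuousAt.sub (B0 k).d.continuousAt).eventually_ne (den0 k)
  have β0 : ∀ k, β k (m0 k) = 0 := fun k => by simp only [β, U0, zero_div]
  have βd : ∀ k, ∀ᶠ z in 𝓝 (m0 k), DifferentiableAt ℂ (β k) z := fun k => by
    filter_upwards [hB k, den k] with z h1 h2
    exact (U4.differentiable z).div ((V.differentiable z).sub h1.d) h2
  have hinv : ∀ k, ∃ g : ℂ → ℂ, g 0 = m0 k ∧
      (∀ᶠ y in 𝓝 (0 : ℂ), DifferentiableAt ℂ g y ∧ β k (g y) = y) ∧
      ∀ᶠ x in 𝓝 (m0 k), g (β k x) = x := fun k => by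
    have h1 := (U4.hasDerivAt (m0 k)).div
      ((V.hasDerivAt (m0 k)).sub (B0 k).d.hasDerivAt) (den0 k)
    have h2 := linv1 (βd k) h1 (by
      simp only [U0, zero_mul, sub_zero, Pi.sub_apply]
      refine div_ne_zero (mul_ne_zero ?_ (den0 k)) (pow_ne_zero _ (den0 k))
      rw [hU4, Lagrange.eval_nodal_derivative_eval_node_eq (mem_univ k)]
      exact Lagrange.eval_nodal_not_at_node fun i hi e => (mem_erase.1 hi).1 (hm e).symm)
    rwa [β0] at h2
  choose x x0 hx hl using hinv
  have xc : ∀ k, ContinuousAt (x k) 0 := fun k => (hx k).self_of_nhds.1.continuousAt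
  have xt : ∀ k, Tendsto (x k) (𝓝 0) (𝓝 (m0 k)) := fun k => by
    have := xc k
    rwa [ContinuousAt, x0] at this
  let R : ℂ → ℂ[X] := fun b => U4 - C (2 * b) * V + C (b ^ 2) * W
  have Re : ∀ b z, (R b).eval z = U4.eval z - 2 * b * V.eval z + b ^ 2 * W.eval z := fun b z => by
    simp only [R, eval_add, eval_sub, eval_mul, eval_C]
  have E1 : ∀ᶠ b in 𝓝 (0 : ℂ), ∀ k, DifferentiableAt ℂ (x k) b ∧ Br F (w k) (L k) (x k b) ∧
      V.eval (x k b) - w k (x k b) ≠ 0 ∧
      U4.eval (x k b) = b * (V.eval (x k b) - w k (x k b)) ∧ (R b).eval (x k b) = 0 ∧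
      w k (x k b) = -(V.eval (x k b) - b * W.eval (x k b)) := by
    refine eventually_all.2 fun k => ?_
    filter_upwards [hx k, (xt k).eventually (hB k), (xt k).eventually (den k)] with b h1 h2 h3
    have h4 : U4.eval (x k b) = b * (V.eval (x k b) - w k (x k b)) := by
      have := h1.2
      simp only [β] at this
      exact (div_eq_iff h3).1 this
    have h5 : w k (x k b) = -(V.eval (x k b) - b * W.eval (x k b)) := by
      have h6 := hWe (x k b)
      rw [← h2.sq, h4] at h6
      refine mul_left_cancel₀ h3 ?_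
      linear_combination h6
    refine ⟨h1.1, h2, h3, h4, ?_, h5⟩
    rw [Re, h4]
    linear_combination (-b) * h5
  have E2 : ∀ᶠ b in 𝓝 (0 : ℂ), Function.Injective fun k => x k b :=
    inj_ev xc (by simpa only [x0] using hm)
  have E3 : ∀ᶠ b in 𝓝 (0 : ℂ), R b = Lagrange.nodal univ fun k => x k b := by
    filter_upwards [E1, E2] with b h1 h2
    refine eq_of_degree_sub_lt_of_eval_index_eq univ h2.injOn ?_ fun k _ => by
      rw [(h1 k).2.2.2.2.1, Lagrange.eval_nodal_at_node (v := fun k => x k b) (mem_univ k)]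
    have e : R b - Lagrange.nodal univ (fun k => x k b) =
        (U4 - Lagrange.nodal univ fun k => x k b) + (C (b ^ 2) * W - C (2 * b) * V) := by
      simp only [R]; ring
    rw [e, card_univ, hι]
    refine (degree_add_le _ _).trans_lt (max_lt ?_ ?_)
    · have := degree_sub_lt_left (p := U4) (q := Lagrange.nodal univ fun k => x k b)
        (by rw [hU4, Lagrange.degree_nodal, Lagrange.degree_nodal]) Lagrange.nodal_ne_zero
        (by rw [hU4, Lagrange.nodal_monic.leadingCoeff, Lagrange.nodal_monic.leadingCoeff])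
      rwa [hU4, Lagrange.degree_nodal, card_univ, hι] at this
    · refine lt_of_le_of_lt (degree_le_of_natDegree_le (n := 3) ?_) (by norm_num)
      exact (natDegree_sub_le _ _).trans (max_le ((natDegree_C_mul_le _ _).trans Wn)
        ((natDegree_C_mul_le _ _).trans Vn))
  have E4 : ∀ᶠ b in 𝓝 (0 : ℂ), HasDerivAt (fun b => ∑ k, L k (x k b)) 0 b := by
    filter_upwards [E1.eventually_nhds, E2, E3] with b h1 h2 h3
    have g1 := h1.self_of_nhds
    have key : ∀ k, deriv (x k) b / w k (x k b) =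
        -2 * (1 / (derivative (R b)).eval (x k b)) := fun k => by
      have dx := (g1 k).1.hasDerivAt
      have d1 : HasDerivAt (fun b => U4.eval (x k b) - 2 * b * V.eval (x k b) +
          b ^ 2 * W.eval (x k b)) _ b :=
        (((U4.hasDerivAt _).comp b dx).sub (((hasDerivAt_id b).const_mul 2).mul
          ((V.hasDerivAt _).comp b dx))).add ((hasDerivAt_pow 2 b).mul
          ((W.hasDerivAt _).comp b dx))
      have d2 : HasDerivAt (fun b => U4.eval (x k b) - 2 * b * V.eval (x k b) +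
          b ^ 2 * W.eval (x k b)) 0 b :=
        (hasDerivAt_const b (0 : ℂ)).congr_of_eventuallyEq
          (h1.mono fun c hc => (Re c (x k c)).symm.trans (hc k).2.2.2.2.1)
      have d3 := d1.unique d2
      have e : (derivative (R b)).eval (x k b) * deriv (x k) b = -2 * w k (x k b) := by
        rw [(g1 k).2.2.2.2.2]
        simp only [R, derivative_add, derivative_sub, derivative_C_mul, eval_add, eval_sub,
          eval_mul, eval_C]
        simp only [Function.comp, id, Nat.cast_ofNat, mul_one] at d3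
        linear_combination d3
      have w0 := (g1 k).2.1.ne
      have r0 : (derivative (R b)).eval (x k b) ≠ 0 := fun h => by
        rw [h, zero_mul] at e
        exact w0 (by linear_combination (1 / 2 : ℂ) * e)
      field_simp
      linear_combination e
    have d4 : HasDerivAt (fun b => ∑ k, L k (x k b))
        (∑ k, deriv (x k) b • om (x k b) (w k (x k b))) b :=
      HasDerivAt.fun_sum fun k _ => (g1 k).2.1.L.scomp b (g1 k).1.hasDerivAt
    convert d4 using 1
    funext j
    have e := euler h2 (j := j) (by rw [hι]; omega)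
    rw [← h3] at e
    simp only [Finset.sum_apply, Pi.smul_apply, om, smul_eq_mul, Pi.zero_apply]
    have e2 : ∀ k, deriv (x k) b * (x k b ^ (j : ℕ) / w k (x k b)) =
        -2 * (x k b ^ (j : ℕ) / (derivative (R b)).eval (x k b)) := fun k => by
      have := key k
      linear_combination (x k b ^ (j : ℕ)) * this
    rw [sum_congr rfl fun k _ => e2 k, ← mul_sum, e, mul_zero]
  have E5 : ∀ᶠ b in 𝓝 (0 : ℂ), ∑ k, pt (x k b) (w k (x k b)) = ∑ k, pt (m0 k) (w k (m0 k)) := by
    filter_upwards [E1, E2, E3] with b h1 h2 h3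
    by_cases b0 : b = 0
    · simp only [b0, x0]
    have hne : ∀ k l, m0 l ≠ x k b := fun k l e => by
      have := (h1 k).2.2.2.1
      rw [← e, U0] at this
      refine mul_ne_zero b0 (h1 k).2.2.1 ?_
      rw [← e, this]
    have h4 := H.rel (ι ⊕ ι) (U4 - C b * V) (C b) 1 (Sum.elim m0 fun k => x k b)
      (Sum.elim (fun k => -w k (m0 k)) fun k => w k (x k b)) one_ne_zero
      (hm.sumElim h2 fun l k => hne k l)
      (by
        rintro (k | k)
        · exact ⟨neg_ne_zero.2 (B0 k).ne, by simpa using (B0 k).sq⟩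
        · exact ⟨(h1 k).2.1.ne, (h1 k).2.1.sq⟩)
      (by
        rw [Fintype.prod_sum_type, map_one, one_mul]
        simp only [Sum.elim_inl, Sum.elim_inr]
        rw [← Lagrange.nodal_eq, ← Lagrange.nodal_eq, ← hU4, ← h3]
        simp only [R, map_mul, map_pow]
        rw [show (C 2 : ℂ[X]) = 2 from rfl]
        linear_combination (C b) ^ 2 * hW)
      (by
        rintro (k | k)
        · simp only [Sum.elim_inl, eval_sub, eval_mul, eval_C, U0, Vv]
          ring
        · simp only [Sum.elim_inr, eval_sub, eval_mul, eval_C, (h1 k).2.2.2.1]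
          ring)
    rw [Fintype.sum_sum_type] at h4
    simp only [Sum.elim_inl, Sum.elim_inr] at h4
    rw [sum_congr rfl fun k _ => H.neg _ _ (B0 k).sq, sum_neg_distrib] at h4
    exact (neg_add_eq_zero.1 h4).symm
  have E6 : ∀ᶠ b in 𝓝 (0 : ℂ), (fun k => x k b) ∈ U :=
    (tendsto_pi_nhds.2 xt).eventually hU
  have βt : Tendsto (β i0) (𝓝 (m0 i0)) (𝓝 0) := by
    have := (βd i0).self_of_nhds.continuousAt
    rwa [ContinuousAt, β0] at this
  filter_upwards [hl i0, βt.eventually (E6.and ((const_of_deriv E4).and E5))] with z h1 h2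
  exact ⟨fun k => x k (β i0 z), h2.1, h1, by simpa only [x0] using h2.2.1, h2.2.2⟩

end Vale.Agent.P027M.X
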