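import Vale.Agent.P027M.X.Top2

/-! # P027, route M, blocks B2, B3 : the comparison of the two lattices -/

set_option linter.all false

open Polynomial UpperHalfPlane
open scoped PowerSeries MatrixGroups ComplexConjugate

noncomputable section

namespace Vale.Agent.P027M.X

namespace Latt

/-- the plane `z 2 = κ * z 0` -/
def emb (κ : ℂ) : ℂ × ℂ →+ (Fin 3 → ℂ) where
  toFun v := ![v.1, conj v.2, κ * v.1]
  map_zero' := by ext j; fin_cases j <;> simp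
  map_add' u v := by ext j; fin_cases j <;> simp [mul_add]

theorem emb_apply (κ : ℂ) (v : ℂ × ℂ) : emb κ v = ![v.1, conj v.2, κ * v.1] := rfl

theorem emb_smul (κ t : ℂ) (v : ℂ × ℂ) : emb κ (t • v) = tw t (emb κ v) := by
  ext j
  fin_cases j <;> simp [emb_apply, tw]
  ring

theorem per_add {Γ : Subgroup SL(2, ℤ)} {f : ℍ → ℂ} {p : SL(2, ℤ) → ℂ}
    (h : ∀ γ ∈ Γ, ∀ τ : ℍ, f (γ • τ) = f τ + p γ) :
    p 1 = 0 ∧ (∀ γ ∈ Γ, ∀ δ ∈ Γ, p (γ * δ) = p γ + p δ) ∧ ∀ γ ∈ Γ, p γ⁻¹ = -p γ := by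
  have h1 : p 1 = 0 := by
    have := h 1 Γ.one_mem UpperHalfPlane.I
    rw [one_smul] at this
    linear_combination -this
  have h2 : ∀ γ ∈ Γ, ∀ δ ∈ Γ, p (γ * δ) = p γ + p δ := fun γ hγ δ hδ => by
    have a := h _ (Γ.mul_mem hγ hδ) UpperHalfPlane.I
    rw [mul_smul, h γ hγ, h δ hδ] at a
    linear_combination -a
  refine ⟨h1, h2, fun γ hγ => ?_⟩
  have := h2 γ hγ _ (Γ.inv_mem hγ)
  rw [mul_inv_cancel, h1] at this
  linear_combination -this

theorem fix_gi {σ : ℂ ≃+* ℂ} (h : σ Complex.I = Complex.I) (z : GaussianInt) :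
    σ (z : ℂ) = z := by
  rw [GaussianInt.toComplex_def, map_add, map_mul, map_intCast, map_intCast, h]

theorem fix_fG {σ : ℂ ≃+* ℂ} (h : σ Complex.I = Complex.I) (g : ℚ) (T : GaussianInt) :
    (fG (g : ℂ) (T : ℂ)).map (σ : ℂ →+* ℂ) = fG (g : ℂ) (T : ℂ) := by
  rw [fG_map, map_ratCast]
  exact congrArg _ (fix_gi h T)

theorem pmap_piota {F : ℂ[X]} (hF : F.comp (-X) = -F) {σ : ℂ ≃+* ℂ}
    (h : σ Complex.I = Complex.I) (hσ : F.map (σ : ℂ →+* ℂ) = F) (y : PicP F) :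
    pmap (σ : ℂ →+* ℂ) hσ (piota Complex.I Complex.I_sq hF y) =
      piota Complex.I Complex.I_sq hF (pmap (σ : ℂ →+* ℂ) hσ y) := by
  refine DFunLike.congr_fun (f := (pmap (σ : ℂ →+* ℂ) hσ).comp (piota Complex.I Complex.I_sq hF))
    (g := (piota Complex.I Complex.I_sq hF).comp (pmap (σ : ℂ →+* ℂ) hσ))
    (PicP.hom_ext fun p _ => ?_) y
  simp only [AddMonoidHom.comp_apply, piota_cl, pmap_cl, map_neg, map_mul, RingHom.coe_coe, h]

end Latt

open Latt in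
theorem latt (monb : MONB) (finb : FINB) (mons : MONS) (hex : HEX) (eqh : EQH) (eqi : EQI) :
    LATT := by
  intro g N e c F0 T0 l0 l1 l2 ν Γ η x γ0 E K0 S cy
  obtain ⟨κ, hκ⟩ : ∃ κ : ℂ, κ = (3 - g) / (g + 1) * T0 := ⟨_, rfl⟩
  have hl2 : (l2 : ℂ) = κ * l0 := by rw [hκ]; exact S.dt.hl2
  obtain ⟨a1, a2, a3⟩ := per_add (f := fun τ => B.ev (U1 c) (B.qq τ)) (p := p1 c)
    fun γ hγ τ => (S.m1.per γ hγ τ).1
  obtain ⟨b1, b2, b3⟩ := per_add (f := fun τ => B.ev (U3 c) (B.qq τ)) (p := p3 c)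
    fun γ hγ τ => (S.m1.per γ hγ τ).2
  let v : SL(2, ℤ) → ℂ × ℂ := fun γ => (l0 * p1 c γ, conj (l1 * p3 c γ))
  let Pi : AddSubgroup (ℂ × ℂ) :=
    { carrier := v '' (Γ : Set SL(2, ℤ))
      zero_mem' := ⟨1, Γ.one_mem, by simp [v, a1, b1]⟩
      add_mem' := by
        rintro _ _ ⟨γ, hγ, rfl⟩ ⟨δ, hδ, rfl⟩
        exact ⟨γ * δ, Γ.mul_mem hγ hδ, by simp [v, a2 γ hγ δ hδ, b2 γ hγ δ hδ, mul_add]⟩
      neg_mem' := by
        rintro _ ⟨γ, hγ, rfl⟩
        exact ⟨γ⁻¹, Γ.inv_mem hγ, by simp [v, a3 γ hγ, b3 γ hγ]⟩ }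
  have hv : ∀ t γ, emb κ (t • v γ) = PP l0 l1 l2 c t γ := fun t γ => by
    rw [emb_smul, PP, emb_apply, hl2]
    simp only [v, Complex.conj_conj, mul_assoc]
  obtain ⟨M, hM, hfin⟩ := finb _ _ _ _ _ _ _ _ _ _ _ _ _ _ _ S
  obtain ⟨H, hH⟩ := hex ℂ _ _ S.rg
  have l0' : (l0 : ℂ) ≠ 0 := fun h => S.dt.hl0 (GaussianInt.toComplex_eq_zero.1 h)
  have l1' : (l1 : ℂ) ≠ 0 := fun h => S.hl1 (GaussianInt.toComplex_eq_zero.1 h)
  obtain ⟨a, b, hab, h1, h2⟩ := B2.lat (S := {σ : ℂ ≃+* ℂ // σ Complex.I = Complex.I})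
    (piota Complex.I Complex.I_sq (fG_odd (g : ℂ) (T0 : ℂ))) (E.comp (emb κ))
    (fun σ => pmap (σ.1 : ℂ →+* ℂ) (fix_fG σ.2 g T0)) Pi M K0
    (fun u => by
      simp only [AddMonoidHom.comp_apply]
      rw [emb_smul, eqi _ _ E S.exp])
    (by
      obtain ⟨r, hr, hd⟩ := S.exp.disc
      refine ⟨r / (‖κ‖ + 1), by positivity, fun u hu h0 => ?_⟩
      have hk : 0 < ‖κ‖ + 1 := by positivity
      rw [lt_div_iff₀ hk] at hu
      have n1 := norm_fst_le u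
      have n2 := norm_snd_le u
      have n0 := norm_nonneg u
      have nk := norm_nonneg κ
      have e0 := hd (emb κ u) ((pi_norm_lt_iff hr).2 fun j => by
        fin_cases j
        · show ‖u.1‖ < r
          nlinarith
        · show ‖conj u.2‖ < r
          rw [Complex.norm_conj]; nlinarith
        · show ‖κ * u.1‖ < r
          rw [norm_mul]; nlinarith) h0
      have e1 : u.1 = 0 := congrFun e0 0
      have e2 : conj u.2 = 0 := congrFun e0 1
      exact Prod.ext e1 (by simpa using e2))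
    (by
      rintro _ ⟨γ, hγ, rfl⟩
      obtain ⟨γ', hγ', e1, e2⟩ := S.m1.rot γ hγ
      refine ⟨γ', hγ', ?_⟩
      simp only [v, e1, e2, Prod.smul_mk, smul_eq_mul, map_mul, map_neg, Complex.conj_I, neg_neg]
      exact Prod.ext (by ring) (by ring))
    (by
      let L : (ℂ × ℂ) →ₗ[ℝ] (ℂ × ℂ) :=
        { toFun := fun u => (l0 * u.1, conj (l1 * u.2))
          map_add' := fun u w => by simp [mul_add]
          map_smul' := fun r u => by
            simp only [Prod.smul_fst, Prod.smul_snd, Complex.real_smul, map_mul,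
              Complex.conj_ofReal, RingHom.id_apply, Prod.smul_mk]
            exact Prod.ext (by ring) (by ring) }
      have hL : Function.Surjective L := fun u =>
        ⟨(u.1 / l0, conj u.2 / l1), by
          show (_, _) = u
          rw [mul_div_cancel₀ _ l0', mul_div_cancel₀ _ l1', Complex.conj_conj]⟩
      have e : (Pi : Set (ℂ × ℂ)) = L '' ((fun γ => (p1 c γ, p3 c γ)) '' (Γ : Set SL(2, ℤ))) := by
        rw [Set.image_image]; rfl
      rw [e, Submodule.span_image, S.m1.span, Submodule.map_top, LinearMap.range_eq_top]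
      exact hL)
    hM.ne'
    (by
      rintro _ ⟨γ, hγ, rfl⟩
      have := hfin γ hγ
      rw [← hv, one_smul, ← map_nsmul, ← Nat.cast_smul_eq_nsmul ℂ] at this
      exact this)
    (fun σ y => pmap_piota _ σ.2 _ y)
    (by
      rintro m hm σ _ ⟨γ, hγ, rfl⟩
      have hq : ((m : ℚ)⁻¹ : ℚ) ≠ 0 := inv_ne_zero (by exact_mod_cast hm)
      have hmon := monb _ _ _ _ _ _ _ _ _ _ _ _ _ _ _ S (m : ℚ)⁻¹ 0 (Or.inl hq)
      have et : (((m : ℚ)⁻¹ : ℚ) : ℂ) + ((0 : ℚ) : ℂ) * Complex.I = (m : ℂ)⁻¹ := by simp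
      rw [et] at hmon
      obtain ⟨γ', hγ', e⟩ := mons _ _ _ _ _ _ hmon σ.1 (fix_fG σ.2 g T0) (by ext n; simp)
        (fun j => by
          ext n
          have e1 : σ.1 (tw (m : ℂ)⁻¹ 1 j) = tw (m : ℂ)⁻¹ 1 j := by
            fin_cases j <;> simp [tw]
          rw [PowerSeries.coeff_map]
          simp only [uu, PowerSeries.coeff_C_mul, PowerSeries.coeff_mk,
            RingHom.coe_coe, map_mul, map_div₀, map_natCast, e1, fix_gi σ.2])
        (fun y hy s hs => ⟨S.m3.autc _ y hy s hs, S.m3.autc _ y hy s hs⟩) γ hγ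
      refine ⟨v γ', ⟨γ', hγ', rfl⟩, ?_⟩
      simp only [AddMonoidHom.comp_apply, hv]
      exact e)
    (fun u hu hs => cy H hH _ hu (eqh _ _ E H S.rg S.exp hH _ (by rw [← hκ]; rfl))
      fun σ hσ _ => hs ⟨σ, hσ⟩)
  refine ⟨a, b, hab, fun γ hγ => ?_, fun lam h0 hl => ?_⟩
  · rw [← hv]; exact h1 _ ⟨γ, hγ, rfl⟩
  · have e : emb κ (lam 0, conj (lam 1)) = lam := by
      ext j
      fin_cases j
      · rfl
      · exact Complex.conj_conj _
      · rw [← hκ] at hl; exact hl.symm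
    obtain ⟨_, ⟨γ, hγ, rfl⟩, e2⟩ := h2 (lam 0, conj (lam 1)) (by
      rw [AddMonoidHom.comp_apply, e, h0])
    refine ⟨γ, hγ, ?_⟩
    rw [← hv, ← e2, Nat.cast_smul_eq_nsmul, Nat.cast_smul_eq_nsmul, map_nsmul, e]

end Vale.Agent.P027M.X
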