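import Vale.Agent.P027M.X.Top
import Vale.Agent.P027M.M.Bc1
import Vale.Agent.P022.H29.L3.Wr

/-! # P027, route M, row X.MD2 : the modular function `x` -/

set_option linter.all false

open UpperHalfPlane
open scoped PowerSeries MatrixGroups IntermediateField ComplexConjugate Derivative ModularForm

noncomputable section

namespace Vale.Agent.P027M.X

open Vale.Agent.P022 Vale.Agent.P022.H218.L3 Vale.Agent.P022.H236.L3 Vale.Agent.P022.H542.L3

namespace Md2p

theorem exL {a : ℕ → ℂ} {f : ℍ → ℂ} (h : Fo.Ex a f) :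
    ExL 1 ((PowerSeries.mk a : ℂ⟦X⟧) : LS) f :=
  exL_of_hasSum (N := 1) fun τ => by simpa using h τ

theorem th_mk (a : ℕ → ℂ) : B.th (PowerSeries.mk a) = PowerSeries.mk fun n => n * a n := by
  ext n
  rcases n with _ | n
  · simp [B.th]
  · simp [B.th, PowerSeries.coeff_succ_X_mul, PowerSeries.coeff_derivative, mul_comm]

theorem isMF {N : ℕ} {e : ℤ → ℂ} {f : ℍ → ℂ} (h : Fo.Cusp N e f) {H : Subgroup (ZMod N)ˣ}
    (he : ∀ γ ∈ M.GH N H, e (γ 1 1) = 1) : IsMF (M.GH N H) 2 f :=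
  ⟨h.hol, fun γ hγ => by rw [h.law γ hγ.1, he γ hγ, one_smul], fun γ => (h.zer γ).isBoundedAtImInfty⟩

/-- a form of weight two divided by the derivative of a modular function -/
theorem quot {Γ : Subgroup SL(2, ℤ)} {f y : ℍ → ℂ} (hf : IsMF Γ 2 f) (hy : y ∈ Hol)
    (hm : inc y hy ∈ MF Γ) (h0 : D y ≠ 0) :
    inc f hf.hol / inc (D y) (H29.L3.D_mem hy) ∈ MF Γ := by
  obtain ⟨k, g, h, hg, hh, hh0, e⟩ := hm
  have n1 := inc_ne_zero hh.hol hh0
  have n2 := inc_ne_zero (H29.L3.D_mem hy) h0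
  have e1 : y * h = g := by
    rw [eq_div_iff n1, ← inc_mul] at e
    exact inc_injective _ _ e
  have e2 : H29.L3.wr h g = h * h * D y := by
    rw [H29.L3.wr, ← e1, Derivative.normalizedDerivOfComplex_mul y h hy hh.hol]
    ring
  have a1 : IsMF Γ (2 * k + 2) (h * h * f) := by
    have := (hh.mul hh).mul hf
    rwa [← two_mul] at this
  have a2 := H29.L3.IsMF.wr hh hg
  have e3 : inc _ a2.hol = inc h hh.hol * inc h hh.hol * inc (D y) (H29.L3.D_mem hy) := by
    rw [← inc_mul, ← inc_mul]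
    exact inc_congr _ e2
  refine ⟨2 * k + 2, _, _, a1, a2, fun z => ?_, ?_⟩
  · rw [(inc_eq_zero _).2 z] at e3
    exact mul_ne_zero (mul_ne_zero n1 n1) n2 e3.symm
  · rw [e3, inc_mul (Hol.mul_mem hh.hol hh.hol) hf.hol, inc_mul hh.hol hh.hol,
      mul_div_mul_left _ _ (mul_ne_zero n1 n1)]

end Md2p

open Md2p

theorem md2 (hX : Fo.XF) (hA : Fo.ANF) (hS : Fo.STA) : MD2 := by
  intro N e c H hN he hc hH h1
  obtain ⟨x, y, hy, -, x1, ex, my, iy, hol⟩ := hX
  have m := M.mid_GH hN hH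
  have ex' : x.map (Int.castRingHom ℂ) =
      PowerSeries.mk fun n => ((PowerSeries.coeff n x : ℤ) : ℂ) := by
    ext n
    simp
  have ev : ∀ τ : ℍ, B.ev (x.map (Int.castRingHom ℂ)) (B.qq τ) = y τ := by
    intro τ
    have := (ex τ).tsum_eq
    rw [← this, B.ev, ex']
    simp [B.qq, Function.Periodic.qParam]
  have hL := exL ex
  have hD : Fo.Ex (fun n => n * ((PowerSeries.coeff n x : ℤ) : ℂ)) (D y) := H29.L3.Ex.D ex
  have hD0 : D y ≠ 0 := by
    intro z
    have a := exL hD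
    rw [z] at a
    have b := congrArg (fun s : LS => s.coeff ((1 : ℕ) : ℤ)) (a.unique one_ne_zero (ExL.zero 1))
    simp only [HahnSeries.ofPowerSeries_apply_coeff, PowerSeries.coeff_mk, x1] at b
    simp at b
  have key : ∀ (e' : ℤ → ℂ) (a : ℕ → ℂ), Fo.Sq N e' a → (∀ γ ∈ M.GH N H, e' (γ 1 1) = 1) →
      ∃ z ∈ MF (M.GH N H), ExM 1 (((PowerSeries.mk a : ℂ⟦X⟧) : LS) /
        ((B.th (x.map (Int.castRingHom ℂ)) : ℂ⟦X⟧) : LS)) z := by
    rintro e' a ⟨f, hf, ha⟩ h2
    refine ⟨_, quot (isMF hf h2) hy (MF_mono m.hi my) hD0, ?_⟩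
    rw [ex', th_mk]
    exact (exL ha).exM _ _ hD0 (exL hD)
  refine ⟨x, Fo.gam N hN.pos, x1, fun γ hγ τ => ?_, ⟨⟨inc y hy, MF_mono m.hi my⟩, ?_, ?_⟩, ?_,
    hA N hN e c he hc x hol⟩
  · rw [ev, ev]
    refine iy γ (Dvd.dvd.trans ?_ hγ.1) τ
    exact_mod_cast (show 2 ∣ 4 by norm_num).trans hN.four
  · rw [ex']
    exact hL.exM_inc hy
  · refine M.alg_nc m _ fun z hz => ?_
    have a := hL.exM_inc hy
    rw [show inc y hy = algebraMap ℂ Mer z from hz] at a
    have b := congrArg (fun s : LS => s.coeff ((1 : ℕ) : ℤ)) (a.unique one_ne_zero (ExM.const 1 z))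
    simp only [HahnSeries.ofPowerSeries_apply_coeff, PowerSeries.coeff_mk, x1] at b
    simp [HahnSeries.C_apply, HahnSeries.coeff_single_of_ne] at b
  · have d : ∀ (n r : ℕ) (z : ℂ), r ≠ 0 → (n : ℂ) * (if n % 4 = r then z / n else 0) =
        if n % 4 = r then z else 0 := by
      intro n r z hr
      split_ifs with h
      · have : (n : ℂ) ≠ 0 := by
          rintro h0
          rw [Nat.cast_eq_zero.1 h0] at h
          exact hr h.symm
        field_simp
      · exact mul_zero _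
    rintro u (rfl | rfl)
    · have := key _ _ hc.g1 fun γ hγ => by rw [h1 γ hγ, map_one]
      rw [U1, th_mk]
      simpa only [B3.cf, if_true, d _ 1 _ one_ne_zero] using this
    · have := key _ _ (hS _ _ _ hc.g3) fun γ hγ => by rw [h1 γ hγ, map_one, map_one]
      rw [U3, th_mk]
      simpa only [B3.cf, Bool.false_eq_true, if_false, d _ 3 _ three_ne_zero, apply_ite conj,
        map_zero] using this

end Vale.Agent.P027M.X
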