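import Vale.Agent.P027M.X.MerDefs
import Vale.Agent.P027M.B.Top
import Vale.Agent.P027M.B.An
import Vale.Agent.P027M.B.Cont
import Vale.Agent.P027M.B.Abel
import Vale.Agent.P027M.B.Abel2

/-! # P027, route M, row X.MER, first part : small solutions and algebra -/

set_option linter.all false

open Polynomial Metric Filter Topology
open scoped PowerSeries

noncomputable section

namespace Vale.Agent.P027M.X.Mer

open Vale.Agent.P027M.B Vale.Agent.P027M.B.An

/-- small solutions converge -/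
theorem ana2 (F : ℂ[X]) (m0 s : Fin 3 → ℂ) (u : Fin 3 → ℂ⟦X⟧) (hm : Function.Injective m0)
    (hs : ∀ k, s k ≠ 0) (hF : ∀ k, s k ^ 2 = F.eval (m0 k))
    (u0 : ∀ j, PowerSeries.constantCoeff (u j) = 0) :
    ∃ ε > 0, ∀ (r : ℝ) (c : ℂ), 0 < r → (∀ j, Conv r (u j)) →
      (∀ q : ℂ, ‖q‖ < r → ∀ j, ‖c * ev (u j) q‖ < ε) →
      ∃ ν ω : Fin 3 → ℂ⟦X⟧, Sol F m0 s (fun j => PowerSeries.C c * th (u j)) ν ω ∧
        ∀ k, Conv r (ν k) ∧ Conv r (ω k) ∧ ∀ q : ℂ, ‖q‖ < r → ev (ω k) q ≠ 0 := by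
  have H := Hol.hol
  choose δ δ0 w L w0 L0 hw using fun k => prim F (hs k) (hF k)
  obtain ⟨ε, ε0, T, T0, hT⟩ := linv hm hs δ0 L0
    (fun k j z hz => ((hw k z hz).2.2.2 j).differentiableAt.differentiableWithinAt)
    fun k j => by simpa only [w0] using (hw k _ (mem_ball_self (δ0 k))).2.2.2 j
  refine ⟨ε, ε0, fun r c r0 hu hc => ?_⟩
  have ru : ∀ j, Rep r (u j) (ev (u j)) := fun j => ⟨hu j, fun _ _ => rfl⟩
  let z : ℂ → Fin 3 → ℂ := fun q j => c * ev (u j) q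
  have zb : ∀ q : ℂ, ‖q‖ < r → z q ∈ ball (0 : Fin 3 → ℂ) ε := fun q hq => by
    rw [mem_ball_zero_iff, pi_norm_lt_iff ε0]
    exact hc q hq
  have zd : ∀ q : ℂ, ‖q‖ < r → DifferentiableAt ℂ z q := fun q hq =>
    differentiableAt_pi.2 fun j => (rder H (ru j) hq).differentiableAt.const_mul _
  have z0 : z 0 = 0 := funext fun j => by
    simp only [z, H.zero, u0, mul_zero, Pi.zero_apply]
  let φ : Fin 3 → ℂ → ℂ := fun k q => T (z q) k
  have φd : ∀ k, ∀ q : ℂ, ‖q‖ < r → DifferentiableAt ℂ (φ k) q := fun k q hq =>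
    differentiableAt_pi.1 ((hT _ (zb q hq)).1.comp q (zd q hq)) k
  have φb : ∀ k, ∀ q : ℂ, ‖q‖ < r → φ k q ∈ ball (m0 k) (δ k) := fun k q hq =>
    (hT _ (zb q hq)).2.1 k
  have φ0 : ∀ k, φ k 0 = m0 k := fun k => by simp only [φ, z0, T0]
  have ψd : ∀ k, ∀ q : ℂ, ‖q‖ < r → DifferentiableAt ℂ (fun q => w k (φ k q)) q := fun k q hq =>
    (hw k _ (φb k q hq)).1.comp q (φd k q hq)
  choose ν hν using fun k => H.ofFun r (φ k) fun q hq =>
    (φd k q (mem_ball_zero_iff.1 hq)).differentiableWithinAt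
  choose ω hω using fun k => H.ofFun r (fun q => w k (φ k q)) fun q hq =>
    (ψd k q (mem_ball_zero_iff.1 hq)).differentiableWithinAt
  choose ι hι using fun k => H.ofFun r (fun q => (w k (φ k q))⁻¹) fun q hq =>
    ((ψd k q (mem_ball_zero_iff.1 hq)).inv
      (hw k _ (φb k q (mem_ball_zero_iff.1 hq))).2.1).differentiableWithinAt
  have ω0 : ∀ k, PowerSeries.constantCoeff (ω k) = s k := fun k => by
    rw [rzero H r0 (hω k)]
    simp only [φ0, w0]
  have ωi : ∀ k, (ω k)⁻¹ = ι k := fun k => by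
    rw [PowerSeries.inv_eq_iff_mul_eq_one (by rw [ω0]; exact hs k), ← map_one PowerSeries.C]
    exact rext H r0 (rmul H (hι k) (hω k)) (rC H r 1) fun q hq =>
      inv_mul_cancel₀ (hw k _ (φb k q hq)).2.1
  refine ⟨ν, ω, ⟨fun k => ?_, ω0, fun k => ?_, fun j => ?_⟩, fun k =>
    ⟨(hν k).1, (hω k).1, fun q hq => ?_⟩⟩
  · rw [rzero H r0 (hν k), φ0]
  · exact rext H r0 (rpow H (hω k) 2) (raeval H (hν k) F) fun q hq => (hw k _ (φb k q hq)).2.2.1
  · have t : ∀ k, Rep r (ν k ^ (j : ℕ) * th (ν k) * ι k) fun q =>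
        φ k q ^ (j : ℕ) * (q * ev (PowerSeries.derivative ℂ (ν k)) q) * (w k (φ k q))⁻¹ :=
      fun k => rmul H (rmul H (rpow H (hν k) j) (rth H (hν k).1)) (hι k)
    simp only [ωi, Fin.sum_univ_three]
    refine rext H r0 (radd H (radd H (t 0) (t 1)) (t 2)) (rmul H (rC H r _) (rth H (ru j).1))
      fun q hq => ?_
    have d1 : HasDerivAt (fun q => ∑ k, L k j (φ k q)) (∑ k, φ k q ^ (j : ℕ) / w k (φ k q) *
        ev (PowerSeries.derivative ℂ (ν k)) q) q := HasDerivAt.fun_sum fun k _ =>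
      ((hw k _ (φb k q hq)).2.2.2 j).comp q (rder H (hν k) hq)
    have d2 : HasDerivAt (fun q => ∑ k, L k j (φ k q))
        (c * ev (PowerSeries.derivative ℂ (u j)) q) q := by
      refine ((rder H (ru j) hq).const_mul c).congr_of_eventuallyEq ?_
      filter_upwards [isOpen_ball.mem_nhds (mem_ball_zero_iff.2 hq)] with y hy
      exact (hT _ (zb y (mem_ball_zero_iff.1 hy))).2.2 j
    have e := d1.unique d2
    simp only [Fin.sum_univ_three, div_eq_mul_inv] at e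
    linear_combination q * e
  · rw [(hω k).2 _ hq]
    exact (hw k _ (φb k q hq)).2.1

theorem sol_on {F : ℂ[X]} {m0 s : Fin 3 → ℂ} {h m w : Fin 3 → ℂ⟦X⟧} (H : Sol F m0 s h m w) (k) :
    s k ^ 2 = F.eval (m0 k) := by
  have e : PowerSeries.constantCoeff (aeval (m k) F) =
      F.eval (PowerSeries.constantCoeff (m k)) := by
    rw [map_aeval_eq_aeval_map (φ := RingHom.id ℂ) (ψ := PowerSeries.constantCoeff) ?_ F (m k)]
    · simp
    · ext a
      simp [PowerSeries.algebraMap_apply]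
  rw [← H.m_zero, ← e, ← H.sq, map_pow, H.w_zero]

/-- generic base points: no point of the solution is constant -/
theorem nonconst {F : ℂ[X]} {m0 s : Fin 3 → ℂ} {h m w : Fin 3 → ℂ⟦X⟧} {c : ℂ} (hc : c ≠ 0)
    (hg : Gen m0 h) (H : Sol F m0 s (fun j => PowerSeries.C c * h j) m w) (k) :
    m k ≠ PowerSeries.C (m0 k) := by
  intro hk
  obtain ⟨N, h0, h1⟩ := hg
  obtain ⟨a, b, hab, e⟩ := Top.rel H hk (n := N) fun j => by
    rw [PowerSeries.X_pow_dvd_iff]
    intro l hl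
    rw [PowerSeries.coeff_C_mul, h0 j l hl, mul_zero]
  simp only [PowerSeries.coeff_C_mul] at e
  apply h1 a b hab
  apply mul_left_cancel₀ hc
  linear_combination e

/-- the local ring of quotients on the disc of radius `r` -/
def SR (r : ℝ) : Subring ℂ⟦X⟧ where
  carrier := {y | ∃ α β, Conv r α ∧ Conv r β ∧ PowerSeries.constantCoeff β ≠ 0 ∧ β * y = α}
  mul_mem' := by
    rintro x y ⟨a, b, h1, h2, h3, h4⟩ ⟨a', b', h1', h2', h3', h4'⟩
    exact ⟨a * a', b * b', (Hol.mul h1 h1').1, (Hol.mul h2 h2').1, by simp [h3, h3'],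
      by rw [← h4, ← h4']; ring⟩
  one_mem' := ⟨PowerSeries.C 1, PowerSeries.C 1, (Hol.const r 1).1, (Hol.const r 1).1, by simp,
    by simp⟩
  add_mem' := by
    rintro x y ⟨a, b, h1, h2, h3, h4⟩ ⟨a', b', h1', h2', h3', h4'⟩
    exact ⟨a * b' + a' * b, b * b', (Hol.add (Hol.mul h1 h2').1 (Hol.mul h1' h2).1).1,
      (Hol.mul h2 h2').1, by simp [h3, h3'], by rw [← h4, ← h4']; ring⟩
  zero_mem' := ⟨PowerSeries.C 0, PowerSeries.C 1, (Hol.const r 0).1, (Hol.const r 1).1, by simp,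
    by simp⟩
  neg_mem' := by
    rintro x ⟨a, b, h1, h2, h3, h4⟩
    exact ⟨PowerSeries.C (-1) * a, b, (Hol.mul (Hol.const r _).1 h1).1, h2, h3,
      by rw [← h4]; simp⟩

theorem sr_of {r : ℝ} {f : ℂ⟦X⟧} (h : Conv r f) : f ∈ SR r :=
  ⟨f, PowerSeries.C 1, h, (Hol.const r 1).1, by simp, by simp⟩

/-- the coefficients of the Mumford polynomial are meromorphic -/
theorem mr_coeff {F : ℂ[X]} {m0 s : Fin 3 → ℂ} {u m w : Fin 3 → ℂ⟦X⟧} (hF : F.natDegree = 7)
    (hm : Function.Injective m0) (hs : ∀ k, s k ≠ 0) (hu : ∀ j, Conv 1 (u j))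
    (u0 : ∀ j, PowerSeries.constantCoeff (u j) = 0) (hg : Gen m0 fun j => th (u j))
    (H : Sol F m0 s (fun j => th (u j)) m w) (i : ℕ) : Mr ((∏ k, (X - C (m k))).coeff i) := by
  intro r' hr'
  obtain ⟨r, r0, r1, hr⟩ : ∃ r : ℝ, 0 < r ∧ r < 1 ∧ r' ≤ r :=
    ⟨max r' (1 / 2), by positivity, max_lt hr' (by norm_num), le_max_left _ _⟩
  obtain ⟨ε, ε0, hε⟩ := ana2 F m0 s u hm hs (sol_on H) u0
  choose C hC using fun j => ev_le (hu j) r0 r1
  obtain ⟨n, hn⟩ := exists_nat_gt ((∑ j, |C j|) / ε)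
  have S0 : 0 ≤ ∑ j, |C j| := Finset.sum_nonneg fun j _ => abs_nonneg _
  have n0 : (0 : ℝ) < n := (div_nonneg S0 ε0.le).trans_lt hn
  have n1 : 0 < n := by exact_mod_cast n0
  obtain ⟨ν, ω, hν, hc⟩ := hε r (n : ℂ)⁻¹ r0 (fun j => conv_mono (hu j) r1.le) fun q hq j => by
    have a1 : C j ≤ ∑ j, |C j| := (le_abs_self _).trans
      (Finset.single_le_sum (f := fun j => |C j|) (fun j _ => abs_nonneg _) (Finset.mem_univ j))
    rw [div_lt_iff₀ ε0] at hn
    simp only [norm_mul, norm_inv, Complex.norm_natCast]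
    rw [inv_mul_lt_iff₀ n0]
    linarith [hC j q hq]
  obtain ⟨a, b, h1, h2, h3, h4⟩ := B.cont (abel2 abel) B.uniq (SR r) F m0 s n _ ν ω m w
    (fun c => sr_of (Hol.const r c).1)
    (by
      rintro y ⟨a, b, h1, h2, h3, h4⟩ hy
      refine ⟨b, a, h2, h1, by rw [← h4]; simp [h3, hy], ?_⟩
      rw [← h4, mul_assoc, PowerSeries.mul_inv_cancel _ hy, mul_one])
    hF n1 hm hs (fun k => ⟨sr_of (hc k).1, sr_of (hc k).2.1⟩)
    (nonconst (inv_ne_zero (by exact_mod_cast n1.ne')) hg hν) hν H i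
  exact ⟨a, b, conv_mono h1 hr, conv_mono h2 hr, Cont.ne_of_cc h3, h4⟩

/-- the solution converges near `0` -/
theorem small {F : ℂ[X]} {m0 s : Fin 3 → ℂ} {u m w : Fin 3 → ℂ⟦X⟧}
    (hm : Function.Injective m0) (hs : ∀ k, s k ≠ 0) (hu : ∀ j, Conv 1 (u j))
    (u0 : ∀ j, PowerSeries.constantCoeff (u j) = 0) (H : Sol F m0 s (fun j => th (u j)) m w) :
    ∃ r > 0, r ≤ 1 ∧ ∀ k, Conv r (m k) ∧ Conv r (w k) ∧ ∀ q : ℂ, ‖q‖ < r → ev (w k) q ≠ 0 := by
  obtain ⟨ε, ε0, hε⟩ := ana2 F m0 s u hm hs (sol_on H) u0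
  have e : ∀ᶠ q in 𝓝 (0 : ℂ), ∀ j, ‖1 * ev (u j) q‖ < ε := eventually_all.2 fun j => by
    have c : ContinuousAt (ev (u j)) 0 :=
      ((Hol.diff (hu j)).2 0 (by simp)).continuousAt
    have c2 : ContinuousAt (fun q => ‖1 * ev (u j) q‖) 0 := (continuousAt_const.mul c).norm
    exact c2.eventually (gt_mem_nhds (by simpa [Hol.zero, u0] using ε0))
  obtain ⟨r, r0, hr⟩ := Metric.eventually_nhds_iff_ball.1 e
  obtain ⟨ν, ω, hν, hc⟩ := hε (min r 1) 1 (by positivity)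
    (fun j => conv_mono (hu j) (min_le_right _ _))
    fun q hq => hr q (mem_ball_zero_iff.2 (hq.trans_le (min_le_left _ _)))
  simp only [map_one, one_mul] at hν
  obtain ⟨rfl, rfl⟩ := B.uniq ℂ F m0 s _ m w ν ω hm hs H hν
  exact ⟨min r 1, by positivity, min_le_right _ _, hc⟩

section alg

variable {A B : Type*} [CommRing A] [CommRing B]

/-- a polynomial of degree at most two -/
def q2 (v : Fin 3 → A) : A[X] := C (v 0) + C (v 1) * X + C (v 2) * X ^ 2

/-- a monic cubic -/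
def cub (a : Fin 3 → A) : A[X] := X ^ 3 + q2 a

/-- the coefficients of the cubic with roots `μ` -/
def es (μ : Fin 3 → A) : Fin 3 → A :=
  ![-(μ 0 * μ 1 * μ 2), μ 0 * μ 1 + μ 0 * μ 2 + μ 1 * μ 2, -(μ 0 + μ 1 + μ 2)]

/-- the numerator of the inverse Vandermonde matrix -/
def pp (a u : Fin 3 → A) : A[X] :=
  C (u 2) + (C (a 2) + X) * C (u 1) + (C (a 1) + C (a 2) * X + X ^ 2) * C (u 0)

theorem prod_eq (μ : Fin 3 → A) : ∏ k, (X - C (μ k)) = cub (es μ) := by
  simp only [Fin.prod_univ_three, cub, q2, es, Matrix.cons_val_zero, Matrix.cons_val_one,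
    Matrix.cons_val, map_neg, map_mul, map_add]
  ring

theorem q2_map (φ : A →+* B) (v : Fin 3 → A) : (q2 v).map φ = q2 fun i => φ (v i) := by
  simp [q2]

theorem cub_map (φ : A →+* B) (v : Fin 3 → A) : (cub v).map φ = cub fun i => φ (v i) := by
  simp [cub, q2_map]

theorem pp_map (φ : A →+* B) (a u : Fin 3 → A) :
    (pp a u).map φ = pp (fun i => φ (a i)) fun i => φ (u i) := by
  simp [pp]

theorem q2_eval (v : Fin 3 → A) (x : A) : (q2 v).eval x = ∑ i, v i * x ^ (i : ℕ) := by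
  simp [q2, Fin.sum_univ_three]

theorem q2_coeff (v : Fin 3 → A) (i : Fin 3) : (q2 v).coeff i = v i := by
  fin_cases i <;> simp [q2, coeff_X, coeff_C, coeff_X_pow]

theorem q2_deg (v : Fin 3 → A) : (q2 v).degree < 3 := by
  have : (q2 v).degree ≤ 2 := by
    unfold q2
    compute_degree
  exact this.trans_lt (by norm_num)

theorem cub_monic (v : Fin 3 → A) : (cub v).Monic := monic_X_pow_add (q2_deg v)

theorem cub_coeff (v : Fin 3 → A) (i : Fin 3) : (cub v).coeff i = v i := by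
  rw [cub, coeff_add, q2_coeff, coeff_X_pow, if_neg (by omega), zero_add]

theorem cub_deg (v : Fin 3 → A) : (cub v).natDegree ≤ 3 := by
  unfold cub q2
  compute_degree

theorem eq_q2 {W : A[X]} (h : W.degree < 3) : W = q2 fun i => W.coeff i := by
  ext n
  by_cases hn : n < 3
  · exact (q2_coeff (fun i : Fin 3 => W.coeff i) ⟨n, hn⟩).symm
  · have h3 : (3 : WithBot ℕ) ≤ n := by exact_mod_cast not_lt.1 hn
    rw [coeff_eq_zero_of_degree_lt (h.trans_le h3),
      coeff_eq_zero_of_degree_lt ((q2_deg _).trans_le h3)]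

/-- the resultant is the product of the values -/
theorem res_eq [Nontrivial B] (φ : A →+* B) (a : Fin 3 → A) (G : A[X]) (μ : Fin 3 → B)
    (h : (fun i => φ (a i)) = es μ) :
    φ (resultant (cub a) G 3 G.natDegree) = ∏ k, (G.map φ).eval (μ k) := by
  rw [← resultant_map_map, cub_map, h, ← prod_eq]
  have e := resultant_prod_left Finset.univ (fun k => X - C (μ k)) (G.map φ) G.natDegree
    (by simp) natDegree_map_le
  have e3 : (∏ k, (X - C (μ k))).natDegree = 3 := by simp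
  rw [e3] at e
  rw [e]
  refine Finset.prod_congr rfl fun k _ => ?_
  rw [natDegree_X_sub_C, resultant_X_sub_C_left _ _ _ natDegree_map_le]

/-- relations pass from the formal roots to all roots -/
theorem transfer {D : Type*} [CommRing D] (ι : A →+* B) (hι : Function.Injective ι) (φ : A →+* D)
    (a : Fin 3 → A) (m : Fin 3 → B) (μ : Fin 3 → D) (h : (fun i => ι (a i)) = es m)
    (h' : (fun i => φ (a i)) = es μ) (hm : ∀ k l, k ≠ l → IsUnit (m k - m l)) (G : A[X])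
    (hG : ∀ k, (G.map ι).eval (m k) = 0) (k : Fin 3) : (G.map φ).eval (μ k) = 0 := by
  have d := Cont.prod_dvd_of_eval m hm hG
  rw [prod_eq, ← h, ← cub_map, map_dvd_map ι hι (cub_monic a)] at d
  obtain ⟨c, rfl⟩ := d
  rw [Polynomial.map_mul, cub_map, h', ← prod_eq, eval_mul, eval_prod,
    Finset.prod_eq_zero (Finset.mem_univ k) (by simp), zero_mul]

theorem cub_degree [Nontrivial A] (v : Fin 3 → A) : (cub v).degree = 3 := by
  rw [cub, degree_add_eq_left_of_degree_lt (by rw [degree_X_pow]; exact q2_deg v), degree_X_pow]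
  rfl

/-- the derivative of the cubic at its roots -/
def dd (μ : Fin 3 → A) : Fin 3 → A :=
  ![(μ 0 - μ 1) * (μ 0 - μ 2), (μ 1 - μ 0) * (μ 1 - μ 2), (μ 2 - μ 0) * (μ 2 - μ 1)]

/-- the variation of the coefficients -/
def es' (μ ν : Fin 3 → A) : Fin 3 → A :=
  ![-(ν 0 * μ 1 * μ 2 + μ 0 * ν 1 * μ 2 + μ 0 * μ 1 * ν 2),
    ν 0 * μ 1 + μ 0 * ν 1 + (ν 0 * μ 2 + μ 0 * ν 2) + (ν 1 * μ 2 + μ 1 * ν 2), -(ν 0 + ν 1 + ν 2)]

theorem der_cub (μ : Fin 3 → A) (k : Fin 3) : (derivative (cub (es μ))).eval (μ k) = dd μ k := by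
  fin_cases k <;> simp [cub, q2, es, dd] <;> ring

theorem q2_es' (μ ν : Fin 3 → A) (k : Fin 3) : (q2 (es' μ ν)).eval (μ k) = -(ν k * dd μ k) := by
  fin_cases k <;> simp [q2, es', dd] <;> ring

theorem pp_eval (μ c u : Fin 3 → A) (h : ∀ j : Fin 3, ∑ k, μ k ^ (j : ℕ) * c k = u j) (k : Fin 3) :
    (pp (es μ) u).eval (μ k) = c k * dd μ k := by
  have h0 := h 0
  have h1 := h 1
  have h2 := h 2
  simp only [Fin.sum_univ_three, Fin.val_zero, Fin.val_one, Fin.val_two] at h0 h1 h2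
  fin_cases k <;> simp [pp, es, dd, ← h0, ← h1, ← h2] <;> ring

theorem lag [IsDomain A] (μ t u : Fin 3 → A) (h0 : ∀ k, dd μ k ≠ 0)
    (h : ∀ k, t k * dd μ k = (pp (es μ) u).eval (μ k)) (j : Fin 3) :
    ∑ k, μ k ^ (j : ℕ) * t k = u j := by
  have a0 := h 0
  have a1 := h 1
  have a2 := h 2
  have b0 := h0 0
  have b1 := h0 1
  simp [pp, es, dd] at a0 a1 a2 b0 b1
  apply mul_left_cancel₀ (mul_ne_zero (mul_ne_zero b0.1 b0.2) b1.2)
  rw [Fin.sum_univ_three]
  fin_cases j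
  · simp only [Fin.zero_eta]
    linear_combination (μ 1 - μ 2) * a0 - (μ 0 - μ 2) * a1 + (μ 0 - μ 1) * a2
  · simp only [Fin.mk_one]
    linear_combination (μ 1 - μ 2) * μ 0 * a0 - (μ 0 - μ 2) * μ 1 * a1 + (μ 0 - μ 1) * μ 2 * a2
  · simp only [Fin.reduceFinMk]
    linear_combination (μ 1 - μ 2) * μ 0 ^ 2 * a0 - (μ 0 - μ 2) * μ 1 ^ 2 * a1 +
      (μ 0 - μ 1) * μ 2 ^ 2 * a2

theorem inj_of_dd {μ : Fin 3 → A} (h : ∀ k, dd μ k ≠ 0) : Function.Injective μ := by
  intro a b e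
  by_contra hab
  apply h a
  fin_cases a <;> fin_cases b <;> simp_all [dd]

theorem dd_ne [IsDomain A] {μ : Fin 3 → A} (h : Function.Injective μ) (k : Fin 3) : dd μ k ≠ 0 := by
  fin_cases k <;> simp [dd, sub_eq_zero, h.eq_iff]

end alg

theorem exists_roots (a : Fin 3 → ℂ) : ∃ μ : Fin 3 → ℂ, a = es μ := by
  have h := IsAlgClosed.splits (cub a)
  have h3 : (cub a).natDegree = 3 := natDegree_eq_of_degree_eq_some (cub_degree a)
  obtain ⟨x, y, z, e⟩ := Multiset.card_eq_three.1 (h.natDegree_eq_card_roots.symm.trans h3)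
  have e2 := h.eq_prod_roots_of_monic (cub_monic a)
  rw [e] at e2
  refine ⟨![x, y, z], funext fun i => ?_⟩
  rw [← cub_coeff a, ← cub_coeff (es _), ← prod_eq, e2]
  simp [Fin.prod_univ_three, mul_assoc]

theorem roots_cub (μ : Fin 3 → ℂ) : (cub (es μ)).roots = Finset.univ.val.map μ := by
  rw [← prod_eq, ← roots_multiset_prod_X_sub_C (Finset.univ.val.map μ), Multiset.map_map]
  rfl

/-- local branches of the roots -/
theorem branches (A : Fin 3 → ℂ → ℂ) (z0 : ℂ) (μ0 : Fin 3 → ℂ) (h : Function.Injective μ0)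
    (h0 : (fun i => A i z0) = es μ0) (hA : ∀ᶠ z in 𝓝 z0, ∀ i, DifferentiableAt ℂ (A i) z) :
    ∃ μ : Fin 3 → ℂ → ℂ, ∀ᶠ z in 𝓝 z0, (∀ k, DifferentiableAt ℂ (μ k) z) ∧
      (fun i => A i z) = es fun k => μ k z := by
  obtain ⟨ε, ε0, T, T0, hT⟩ := linv (s := fun _ => 1) (δ := fun _ => 1)
    (L := fun k j y => (y ^ (j + 1) - μ0 k ^ (j + 1)) / (j + 1)) h (fun _ => one_ne_zero)
    (fun _ => one_pos) (fun k j => by simp) (fun k j => by fun_prop) (fun k j => by
      have hj : (j : ℂ) + 1 ≠ 0 := by exact_mod_cast Nat.succ_ne_zero j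
      refine (((hasDerivAt_pow (j + 1) (μ0 k)).sub_const (μ0 k ^ (j + 1))).div_const
        ((j : ℂ) + 1)).congr_deriv ?_
      simp only [Nat.add_sub_cancel]
      push_cast
      field_simp)
  let ps : ℂ → Fin 3 → ℂ := fun z => ![-A 2 z, (A 2 z ^ 2 - 2 * A 1 z) / 2,
    (-A 2 z ^ 3 + 3 * A 1 z * A 2 z - 3 * A 0 z) / 3]
  have pd : ∀ z, (∀ i, DifferentiableAt ℂ (A i) z) → DifferentiableAt ℂ (fun z => ps z - ps z0) z :=
    fun z hz => by
      have a0 := hz 0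
      have a1 := hz 1
      have a2 := hz 2
      refine DifferentiableAt.sub_const (differentiableAt_pi.2 fun j => ?_) _
      fin_cases j <;> simp [ps] <;> fun_prop
  have hb : ∀ᶠ z in 𝓝 z0, ps z - ps z0 ∈ ball (0 : Fin 3 → ℂ) ε :=
    (pd z0 hA.self_of_nhds).continuousAt.eventually (isOpen_ball.mem_nhds (by simpa using ε0))
  refine ⟨fun k z => T (ps z - ps z0) k, ?_⟩
  filter_upwards [hA, hb] with z h1 h2
  refine ⟨fun k => differentiableAt_pi.1 ((hT _ h2).1.comp z (pd z h1)) k, ?_⟩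
  have e0 := (hT _ h2).2.2 0
  have e1 := (hT _ h2).2.2 1
  have e2 := (hT _ h2).2.2 2
  have f0 := congrFun h0 0
  have f1 := congrFun h0 1
  have f2 := congrFun h0 2
  generalize T (ps z - ps z0) = t at e0 e1 e2
  simp [ps, es, Fin.sum_univ_three] at e0 e1 e2 f0 f1 f2
  rw [f2] at e0
  rw [f1, f2] at e1
  rw [f0, f1, f2] at e2
  have g2 : A 2 z = -(t 0 + t 1 + t 2) := by linear_combination e0
  have g1 : A 1 z = t 0 * t 1 + t 0 * t 2 + t 1 * t 2 := by
    rw [g2] at e1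
    linear_combination e1
  have g0 : A 0 z = -(t 0 * t 1 * t 2) := by
    rw [g2, g1] at e2
    linear_combination e2
  funext i
  fin_cases i
  exacts [g0, g1, g2]

end Vale.Agent.P027M.X.Mer
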