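import Vale.Agent.P027M.X.Mona

/-! # P027, route M, block MON : the cocycle of a class with rational differential -/

open Polynomial Filter
open scoped PowerSeries

noncomputable section

namespace Vale.Agent.P027M.X.Mo

open Vale.Agent.P027M.B SpAux

variable {Om : Type} [Field Om] [Algebra ℂ Om]

theorem map_g {F : ℂ[X]} {σ : ℂ →+* ℂ} (hF : F.map σ = F) {g : Om →+* Om}
    (hg : ∀ c, g (algebraMap ℂ Om c) = algebraMap ℂ Om (σ c)) :
    (F.map (algebraMap ℂ Om)).map g = F.map (algebraMap ℂ Om) := by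
  conv_rhs => rw [← hF]
  rw [Polynomial.map_map, Polynomial.map_map]
  congr 1
  exact RingHom.ext hg

/-- **the cocycle** -/
theorem coc [IsAlgClosed Om] {F : ℂ[X]} (hdeg : F.natDegree = 7) (hsep : F.Separable) {X0 : Om}
    (ha : ∀ y : Om, IsAlgebraic (Algebra.adjoin ℂ {X0}) y) {D : Derivation ℂ Om Om}
    (h1 : D X0 = 1) {μ s H : Fin 3 → Om}
    (on : ∀ k, s k ^ 2 = (F.map (algebraMap ℂ Om)).eval (μ k))
    (hH : ∀ i : Fin 3, ∑ k, μ k ^ (i : ℕ) * D (μ k) / s k = H i) {σ : ℂ →+* ℂ}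
    {g : Om →+* Om} (hg : ∀ c, g (algebraMap ℂ Om c) = algebraMap ℂ Om (σ c))
    (hF : (F.map (algebraMap ℂ Om)).map g = F.map (algebraMap ℂ Om)) (hx : g X0 = X0)
    (hη : ∀ i, g (H i) = H i) :
    ∃ c, pmap (algebraMap ℂ Om) rfl c =
      pmap g hF (∑ k, cl _ (μ k, s k)) - ∑ k, cl _ (μ k, s k) := by
  have : CharZero Om := charZero_of_injective_algebraMap (algebraMap ℂ Om).injective
  have dg : (F.map (algebraMap ℂ Om)).natDegree = 7 := by rw [natDegree_map, hdeg]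
  obtain ⟨A, hA⟩ := exists_aj (D.restrictScalars ℤ) dg hsep.map fun i => by
    rw [coeff_map]; exact D.map_algebraMap _
  have cm : ∀ y, D (g y) = g (D y) := fun y => by
    obtain ⟨z, h2, h3⟩ := Corr.gd_alg (j := g) (ψ := RingHom.id Om) (t := D) (D := D) (u := 1)
      g.injective Subtype.val_injective (fun c => by
        obtain ⟨c, hc⟩ := c
        show c ∈ _
        induction hc using Algebra.adjoin_induction with
        | mem y hy => exact ⟨X0, by simp [Set.mem_singleton_iff.1 hy, hx],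
            by simp [Set.mem_singleton_iff.1 hy, h1]⟩
        | algebraMap c => exact ⟨_, (hg c).symm, by simp⟩
        | add y z _ _ hy hz => exact add_mem hy hz
        | mul y z _ _ hy hz => exact mul_mem hy hz) (ha y)
    rw [RingHom.id_apply] at h2 h3
    rw [h2, mul_one] at h3
    exact h3
  refine const (algebraMap ℂ Om) rfl dg hsep.map (d := D.restrictScalars ℤ)
    (fun c => D.map_algebraMap c) (fun y hy => mem_range (P297.H927.isAlgebraic_of_der_eq_zero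
      (D := D) (by rw [h1]; exact one_ne_zero)
      (IntermediateField.isAlgebraic_adjoin_iff.2 (ha y)) hy)) hA fun i => ?_
  have e : A i (∑ k, cl _ (μ k, s k)) = H i := by
    rw [map_sum, ← hH]
    exact Finset.sum_congr rfl fun k _ => hA i _ _ (on k)
  rw [map_sub, aj_nat g hF hA hA cm, e, hη, sub_self]

/-- the points of an algebraic leaf -/
theorem pts [IsAlgClosed Om] {L : Type} [Field L] {ψ : Om →+* L} {j : ℂ⟦X⟧ →+* L}
    (hj : Function.Injective j) (hC : ∀ c, ψ (algebraMap ℂ Om c) = j (PowerSeries.C c)) {X0 : Om}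
    {x : ℂ⟦X⟧} (hx : ψ X0 = j x) {D : Derivation ℂ Om Om} (h1 : D X0 = 1) (x1 : th x ≠ 0)
    {H : Fin 3 → Om} {h m w : Fin 3 → ℂ⟦X⟧} (hH : ∀ i, ψ (H i) * j (th x) = j (h i)) {F : ℂ[X]}
    {m0 s0 : Fin 3 → ℂ} (hs : ∀ k, s0 k ≠ 0) (sol : Sol F m0 s0 h m w)
    (alg : ∀ k, IsAlgebraic (Algebra.adjoin ℂ {x}) (m k)) :
    ∃ μ s : Fin 3 → Om, (∀ k, ψ (μ k) = j (m k)) ∧ (∀ k, ψ (s k) = j (w k)) ∧
      (∀ k, s k ^ 2 = (F.map (algebraMap ℂ Om)).eval (μ k)) ∧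
      ∀ i : Fin 3, ∑ k, μ k ^ (i : ℕ) * D (μ k) / s k = H i := by
  have : CharZero ℂ⟦X⟧ := charZero_of_injective_algebraMap (PowerSeries.C_injective (R := ℂ))
  obtain ⟨u, hu⟩ : ∃ u, u = j (th x) := ⟨_, rfl⟩
  have u0 : u ≠ 0 := by
    rw [hu]
    exact fun h => x1 (hj (h.trans (map_zero j).symm))
  have g2 : ∀ c : ℂ, algebraMap ℂ ℂ⟦X⟧ c ∈ Corr.gd j ψ (Corr.thD ℂ) D u := fun c =>
    ⟨_, hC c, by simp [Corr.thD]⟩
  have g3 : x ∈ Corr.gd j ψ (Corr.thD ℂ) D u :=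
    ⟨X0, hx, by rw [h1, map_one, one_mul, hu, Corr.thD_apply]⟩
  have g4 : ∀ a ∈ Corr.gd j ψ (Corr.thD ℂ) D u, ∀ P : ℂ[X],
      aeval a P ∈ Corr.gd j ψ (Corr.thD ℂ) D u := fun a ha P => by
    rw [aeval_eq_sum_range]
    exact sum_mem fun n _ => by rw [Algebra.smul_def]; exact mul_mem (g2 _) (pow_mem ha n)
  have g5 : ∀ k, m k ∈ Corr.gd j ψ (Corr.thD ℂ) D u := fun k =>
    Corr.gd_alg hj Subtype.val_injective (fun c => by
      obtain ⟨c, hc⟩ := c
      rw [Algebra.adjoin_singleton_eq_range_aeval] at hc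
      obtain ⟨P, rfl⟩ := hc
      exact g4 _ g3 P) (alg k)
  have g6 : ∀ k, w k ∈ Corr.gd j ψ (Corr.thD ℂ) D u := fun k =>
    Corr.gd_root hj (X ^ 2 - C (aeval (m k) F)) (X_pow_sub_C_ne_zero two_pos _) (fun n => by
        rw [coeff_sub, coeff_X_pow, coeff_C]
        refine sub_mem ?_ ?_ <;> split_ifs
        exacts [one_mem _, zero_mem _, g4 _ (g5 k) _, zero_mem _]) (by simp [sol.sq k])
  choose μ a1 a2 using g5
  choose ω b1 _ using g6
  have w0 : ∀ k, j (w k) * j (w k)⁻¹ = 1 := fun k => by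
    rw [← map_mul, PowerSeries.mul_inv_cancel _ (by rw [sol.w_zero]; exact hs k), map_one]
  refine ⟨μ, ω, a1, b1, fun k => ψ.injective ?_, fun i => ψ.injective ?_⟩
  · rw [map_pow, b1, ← map_pow, sol.sq, eval_map_algebraMap, aeval_def, aeval_def, hom_eval₂,
      hom_eval₂, a1]
    congr 1
    exact RingHom.ext fun c => (hC c).symm
  · refine mul_right_cancel₀ u0 ?_
    have h3 := congrArg j (sol.ode i)
    simp only [map_sum, map_mul, map_pow, ← hH i, ← hu] at h3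
    simp only [map_sum, map_mul, map_div₀, map_pow, Finset.sum_mul, ← h3]
    refine Finset.sum_congr rfl fun k _ => ?_
    rw [a1, b1, ← Corr.thD_apply, ← a2, eq_inv_of_mul_eq_one_right (w0 k)]
    ring

/-- two embeddings of an algebraic closure differ by an automorphism -/
theorem two_emb {Y N W : Type} [Field Y] [Field N] [Field W] [Algebra Y N] [IsAlgClosure Y N]
    (Ψ Ψ' : N →+* W) (h : ∀ y, Ψ' (algebraMap Y N y) = Ψ (algebraMap Y N y)) :
    ∃ g : N ≃ₐ[Y] N, ∀ z, Ψ (g z) = Ψ' z := by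
  let : Algebra N W := Ψ.toAlgebra
  let : Algebra Y W := (Ψ.comp (algebraMap Y N)).toAlgebra
  have : IsScalarTower Y N W := IsScalarTower.of_algebraMap_eq fun _ => rfl
  let ϕ : N →ₐ[Y] W := ⟨Ψ', h⟩
  exact ⟨ϕ.restrictNormal' N, fun z => ϕ.restrictNormal_commutes N z⟩

section
variable {T : Type} {𝒰 : Ultrafilter T} (Ψ : Om →+* Germ (𝒰 : Filter T) ℂ)
  (hc : ∀ c : ℂ, Ψ (algebraMap ℂ Om c) = (↑(fun _ : T => c) : Germ (𝒰 : Filter T) ℂ)) (F : ℂ[X])

theorem spec_const (c : PicP F) :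
    spec Ψ hc F (pmap (algebraMap ℂ Om) rfl c) = ↑(fun _ : T => c) := by
  let k : PicP F →+ Germ (𝒰 : Filter T) (PicP F) :=
    (Germ.coeAddHom (𝒰 : Filter T)).comp (Pi.constAddMonoidHom T (PicP F))
  refine DFunLike.congr_fun (f := (spec Ψ hc F).comp (pmap (algebraMap ℂ Om) rfl)) (g := k)
    (PicP.hom_ext fun p _ => ?_) c
  show spec Ψ hc F (pmap (algebraMap ℂ Om) rfl (cl F p)) = ↑(fun _ : T => cl F p)
  rw [pmap_cl, spec_cl]
  refine Germ.coe_eq.2 ?_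
  filter_upwards [ra_eq Ψ (hc p.1), ra_eq Ψ (hc p.2)] with y e1 e2
  rw [SpAux.pt, e1, e2]

theorem spec_pmap (g : Om →+* Om) (hF : (F.map (algebraMap ℂ Om)).map g = F.map (algebraMap ℂ Om))
    (hc' : ∀ c : ℂ, Ψ.comp g (algebraMap ℂ Om c) = (↑(fun _ : T => c) : Germ (𝒰 : Filter T) ℂ))
    (ξ : PicP (F.map (algebraMap ℂ Om))) :
    spec Ψ hc F (pmap g hF ξ) = spec (Ψ.comp g) hc' F ξ := by
  refine DFunLike.congr_fun (f := (spec Ψ hc F).comp (pmap g hF)) (g := spec (Ψ.comp g) hc' F)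
    (PicP.hom_ext fun p _ => ?_) ξ
  show spec Ψ hc F (pmap g hF (cl _ p)) = _
  rw [pmap_cl, spec_cl, spec_cl]
  rfl

/-- the value of the class at a generic point -/
theorem spec_val {μ s : Fin 3 → Om} (hμ : Function.Injective μ) {yU : Fin 4 → Om}
    {yV : Fin 3 → Om} (hU : ∀ k, ∑ i, yU i * μ k ^ (i : ℕ) = 0)
    (hV : ∀ k, ∑ i, yV i * μ k ^ (i : ℕ) = s k) {fU : Fin 4 → T → ℂ} {fV : Fin 3 → T → ℂ}
    (eU : ∀ i, Ψ (yU i) = ↑(fU i)) (eV : ∀ i, Ψ (yV i) = ↑(fV i)) {f : T → PicP F}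
    (h : ∀ᶠ τ in (𝒰 : Filter T), ∃ μ' σ' : Fin 3 → ℂ,
      (∀ i : Fin 4, fU i τ = (∏ k, (X - C (μ' k))).coeff i) ∧
      (∀ k, ∑ i, fV i τ * μ' k ^ (i : ℕ) = σ' k) ∧ ∑ k, cl F (μ' k, σ' k) = f τ) :
    spec Ψ hc F (∑ k, cl _ (μ k, s k)) = ↑f := by
  have ev : ∀ {n : ℕ} {y : Fin n → Om} {f : Fin n → T → ℂ}, (∀ i, Ψ (y i) = ↑(f i)) → ∀ z : Om,
      ∀ᶠ τ in (𝒰 : Filter T), ra Ψ (∑ i, y i * z ^ (i : ℕ)) τ =
        ∑ i, f i τ * ra Ψ z τ ^ (i : ℕ) := by
    intro n y f e z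
    have e1 : Ψ (∑ i, y i * z ^ (i : ℕ)) =
        Germ.coeRingHom (𝒰 : Filter T) (∑ i, f i * ra Ψ z ^ (i : ℕ)) := by
      rw [map_sum, map_sum]
      refine Finset.sum_congr rfl fun i _ => ?_
      rw [map_mul, map_mul, map_pow, map_pow, e, ra_spec Ψ z]
      rfl
    filter_upwards [ra_eq Ψ e1] with τ hτ
    rw [hτ]
    simp
  have z0 : ∀ᶠ τ in (𝒰 : Filter T), ra Ψ 0 τ = 0 := ra_eq Ψ (a := 0) (map_zero Ψ)
  have e1 := eventually_all.2 fun k => ev eU (μ k)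
  have e2 := eventually_all.2 fun k => ev eV (μ k)
  have e3 : ∀ᶠ τ in (𝒰 : Filter T), ∀ k l, k ≠ l → ra Ψ (μ k) τ ≠ ra Ψ (μ l) τ :=
    eventually_all.2 fun k => eventually_all.2 fun l => by
      by_cases hkl : k = l
      · exact Eventually.of_forall fun _ h => absurd hkl h
      · filter_upwards [ra_ne Ψ (hμ.ne hkl)] with τ h _ using h
  rw [← sm_fin, spec_sm]
  refine Germ.coe_eq.2 ?_
  filter_upwards [z0, e1, e2, e3, h] with τ z0 e1 e2 e3 h
  obtain ⟨μ', σ', h1, h2, h3⟩ := h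
  simp only [hU, hV, z0] at e1 e2
  have r : ∀ k, ∃ l, ra Ψ (μ k) τ = μ' l := fun k => by
    have d : (∏ k, (X - C (μ' k))).natDegree < 4 := by
      rw [natDegree_prod_of_monic _ _ fun i _ => monic_X_sub_C _]
      simp
    have e := eval_eq_sum_range' d (ra Ψ (μ k) τ)
    rw [Finset.sum_range, ← Finset.sum_congr rfl fun i _ => congrArg (· * _) (h1 i), ← e1 k,
      eval_prod, Finset.prod_eq_zero_iff] at e
    obtain ⟨l, -, hl⟩ := e
    exact ⟨l, by simpa [sub_eq_zero] using hl⟩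
  choose π hπ using r
  have hi : Function.Injective π := fun a b e => by
    by_contra hne
    exact e3 a b hne (by rw [hπ, hπ, e])
  rw [Multiset.map_map, sm_fin, ← h3, ← (Equiv.ofBijective π
    (Finite.injective_iff_bijective.1 hi)).sum_comp fun l => cl F (μ' l, σ' l)]
  refine Finset.sum_congr rfl fun k _ => ?_
  show cl F (ra Ψ (μ k) τ, ra Ψ (s k) τ) = cl F (μ' (π k), σ' (π k))
  rw [e2 k, hπ, h2]

end

end Vale.Agent.P027M.X.Mo
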