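import Vale.Agent.P027M.X.Mon2

/-! # P027, route M, block MON : Galois stability, abstract form -/

open Polynomial Filter
open scoped PowerSeries

noncomputable section

namespace Vale.Agent.P027M.X.Mo

open Vale.Agent.P027M.B SpAux

theorem lift_ex {E Om W : Type} [Field E] [Field Om] [Field W] [Algebra E Om]
    [Algebra.IsAlgebraic E Om] [IsAlgClosed W] (ρ : E →+* W) :
    ∃ Ψ : Om →+* W, ∀ z, Ψ (algebraMap E Om z) = ρ z := by
  let : Algebra E W := ρ.toAlgebra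
  let ψ : Om →ₐ[E] W := IsAlgClosed.lift
  exact ⟨ψ, ψ.commutes⟩

theorem stab {Y E Om T G : Type} [Field Y] [Field E] [Field Om] [Algebra ℂ Y] [Algebra Y E]
    [Algebra E Om] [Algebra Y Om] [Algebra ℂ Om] [IsScalarTower Y E Om] [IsScalarTower ℂ Y Om]
    [IsAlgClosure Y Om] {𝒰 : Ultrafilter T} [IsAlgClosed (Germ (𝒰 : Filter T) ℂ)]
    (ρ : G → E →+* Germ (𝒰 : Filter T) ℂ) (o : G)
    (hρ : ∀ γ y, ρ γ (algebraMap Y E y) = ρ o (algebraMap Y E y))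
    (hc : ∀ c, ρ o (algebraMap Y E (algebraMap ℂ Y c)) = ↑(fun _ : T => c))
    (orb : ∀ τ : E →+* Germ (𝒰 : Filter T) ℂ,
      (∀ y, τ (algebraMap Y E y) = ρ o (algebraMap Y E y)) → ∃ γ, ∀ z, τ z = ρ γ z)
    {F : ℂ[X]} (hdeg : F.natDegree = 7) (hsep : F.Separable) {x0 : Y}
    (ha : ∀ y : Om, IsAlgebraic (Algebra.adjoin ℂ {algebraMap Y Om x0}) y)
    {D : Derivation ℂ Om Om} (h1 : D (algebraMap Y Om x0) = 1) {μ s : Fin 3 → Om} {η : Fin 3 → Y}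
    (on : ∀ k, s k ^ 2 = (F.map (algebraMap ℂ Om)).eval (μ k))
    (hH : ∀ i : Fin 3, ∑ k, μ k ^ (i : ℕ) * D (μ k) / s k = algebraMap Y Om (η i))
    (hμ : Function.Injective μ) {yU : Fin 4 → E} {yV : Fin 3 → E}
    (hU : ∀ k, ∑ i, algebraMap E Om (yU i) * μ k ^ (i : ℕ) = 0)
    (hV : ∀ k, ∑ i, algebraMap E Om (yV i) * μ k ^ (i : ℕ) = s k)
    {fU : G → Fin 4 → T → ℂ} {fV : G → Fin 3 → T → ℂ} (eU : ∀ γ i, ρ γ (yU i) = ↑(fU γ i))
    (eV : ∀ γ i, ρ γ (yV i) = ↑(fV γ i)) {f : T → PicP F} {P : G → PicP F} (P0 : P o = 0)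
    (h : ∀ γ, ∀ᶠ τ in (𝒰 : Filter T), ∃ μ' σ' : Fin 3 → ℂ,
      (∀ i : Fin 4, fU γ i τ = (∏ k, (X - C (μ' k))).coeff i) ∧
      (∀ k, ∑ i, fV γ i τ * μ' k ^ (i : ℕ) = σ' k) ∧ ∑ k, cl F (μ' k, σ' k) = f τ + P γ)
    {σ : ℂ →+* ℂ} (hF : F.map σ = F) (σY : Y ≃+* Y)
    (hσ : ∀ c, σY (algebraMap ℂ Y c) = algebraMap ℂ Y (σ c)) (hx : σY x0 = x0)
    (hη : ∀ i, σY (η i) = η i) (γ : G) : ∃ γ', pmap σ hF (P γ) = P γ' := by
  have := IsAlgClosure.isAlgClosed Y (K := Om)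
  have : CharZero Om := charZero_of_injective_algebraMap (algebraMap ℂ Om).injective
  have : Algebra.IsAlgebraic E Om := Algebra.IsAlgebraic.tower_top (K := Y) E
  have aE : ∀ y, algebraMap Y Om y = algebraMap E Om (algebraMap Y E y) :=
    IsScalarTower.algebraMap_apply Y E Om
  have aC : ∀ c, algebraMap ℂ Om c = algebraMap Y Om (algebraMap ℂ Y c) :=
    IsScalarTower.algebraMap_apply ℂ Y Om
  obtain ⟨Ψ, hΨ⟩ := lift_ex (Om := Om) (ρ o)
  have hc1 : ∀ c, Ψ (algebraMap ℂ Om c) = ↑(fun _ : T => c) := fun c => by rw [aC, aE, hΨ, hc]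
  have fix : ∀ g : Om →+* Om, (∀ y, g (algebraMap Y Om y) = algebraMap Y Om y) →
      (F.map (algebraMap ℂ Om)).map g = F.map (algebraMap ℂ Om) := fun g hg =>
    map_g (σ := RingHom.id ℂ) Polynomial.map_id fun c => by rw [RingHom.id_apply, aC, hg]
  obtain ⟨ξ, hξ⟩ : ∃ ξ, ξ = ∑ k, cl (F.map (algebraMap ℂ Om)) (μ k, s k) := ⟨_, rfl⟩
  have key : ∀ (g : Om →+* Om) (hg : ∀ y, g (algebraMap Y Om y) = algebraMap Y Om y) (γ : G),
      (∀ z, Ψ (g (algebraMap E Om z)) = ρ γ z) →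
      pmap g (fix g hg) ξ = ξ + pmap (algebraMap ℂ Om) rfl (P γ) := by
    intro g hg γ hγ
    obtain ⟨c, e⟩ := coc hdeg hsep ha h1 on hH (σ := RingHom.id ℂ) (g := g)
      (fun c => by rw [RingHom.id_apply, aC, hg]) (fix g hg) (hg _) fun i => hg _
    have hc2 : ∀ c, Ψ.comp g (algebraMap ℂ Om c) = ↑(fun _ : T => c) := fun c => by
      rw [RingHom.comp_apply, aC, hg, ← aC, hc1]
    have e1 := congrArg (spec Ψ hc1 F) e
    rw [spec_const, map_sub, spec_pmap Ψ hc1 F g _ hc2,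
      spec_val (Ψ.comp g) hc2 F hμ hU hV (fun i => (hγ _).trans (eU γ i))
        (fun i => (hγ _).trans (eV γ i)) (h γ),
      spec_val Ψ hc1 F hμ hU hV (fun i => (hΨ _).trans (eU o i))
        (fun i => (hΨ _).trans (eV o i)) (h o), ← Germ.coe_sub, Germ.coe_eq] at e1
    obtain ⟨τ, e2⟩ := e1.exists
    have e3 : c = P γ := by simpa [P0] using e2
    rw [hξ, ← e3, e, add_sub_cancel]
  obtain ⟨Ψ', hΨ'⟩ := lift_ex (Om := Om) (ρ γ)
  obtain ⟨g, hg⟩ := two_emb (Y := Y) Ψ Ψ' fun y => by rw [aE, hΨ, hΨ', hρ]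
  have k1 := key g g.commutes γ fun z => (hg _).trans (hΨ' z)
  let S : Om ≃+* Om := IsAlgClosure.equivOfEquiv Om Om σY
  have hS : ∀ y, S (algebraMap Y Om y) = algebraMap Y Om (σY y) :=
    IsAlgClosure.equivOfEquiv_algebraMap Om Om σY
  have hS1 : ∀ c, (S : Om →+* Om) (algebraMap ℂ Om c) = algebraMap ℂ Om (σ c) := fun c => by
    rw [aC, aC, ← hσ]
    exact hS _
  obtain ⟨c, e⟩ := coc hdeg hsep ha h1 on hH hS1 (map_g hF hS1) ((hS _).trans (by rw [hx]))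
    fun i => (hS _).trans (by rw [hη])
  let g' : Om →+* Om := (S : Om →+* Om).comp ((g : Om →+* Om).comp (S.symm : Om →+* Om))
  have hg' : ∀ y, g' (algebraMap Y Om y) = algebraMap Y Om y := fun y => by
    obtain ⟨y, rfl⟩ := σY.surjective y
    show S (g (S.symm _)) = _
    rw [← hS, S.symm_apply_apply, g.commutes]
  obtain ⟨γ', hγ'⟩ := orb ((Ψ.comp g').comp (algebraMap E Om)) fun y => by
    show Ψ (g' (algebraMap E Om _)) = _
    rw [← aE, hg', aE, hΨ]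
  have k2 := key g' hg' γ' hγ'
  refine ⟨γ', pmap_inj (algebraMap ℂ Om) rfl hdeg hsep ?_⟩
  rw [← hξ, eq_sub_iff_add_eq] at e
  have e1 : pmap g' (fix g' hg') (pmap (S : Om →+* Om) (map_g hF hS1) ξ) =
      pmap (S : Om →+* Om) (map_g hF hS1) (pmap (g : Om →+* Om) (fix g g.commutes) ξ) := by
    have hh : (F.map (algebraMap ℂ Om)).map ((S : Om →+* Om).comp (g : Om →+* Om)) =
        F.map (algebraMap ℂ Om) := by
      rw [← Polynomial.map_map, fix g g.commutes, map_g hF hS1]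
    rw [pmap_pmap _ g' _ _ _ hh fun y => ?_, pmap_pmap _ _ _ _ _ hh fun y => rfl]
    show S (g (S.symm (S y))) = S (g y)
    rw [S.symm_apply_apply]
  have hh : F.map ((algebraMap ℂ Om).comp σ) = F.map (algebraMap ℂ Om) := by
    rw [← Polynomial.map_map, hF]
  rw [k1, map_add, ← e, map_add, k2, pmap_pmap _ g' _ _ _ rfl fun c => by rw [aC, hg'],
    pmap_pmap _ _ _ _ _ hh hS1] at e1
  rw [pmap_pmap _ _ _ _ _ hh fun _ => rfl]
  rw [← add_assoc] at e1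
  exact (add_left_cancel e1).symm

end Vale.Agent.P027M.X.Mo
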