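import Vale.Agent.P027M.X.MerDefs

/-! # P027, route M, block MON : two lattices with multiplication by `i` (row X.SMITH) -/

open Module

noncomputable section

namespace Vale.Agent.P027M.X

namespace Smith

theorem alg {R M : Type*} [CommRing R] [IsDomain R] [IsPrincipalIdealRing R] [AddCommGroup M]
    [Module R M] (M1 M2 : Submodule R M) (h : M2 ≤ M1) [Module.Finite R M1] [Module.Free R M1]
    (h1 : finrank R M1 = 2) (h2 : finrank R M2 = 2) :
    ∃ (x y : M) (a δ : R), a ≠ 0 ∧ δ ≠ 0 ∧ (∀ p q : R, p • x + q • y = 0 → p = 0 ∧ q = 0) ∧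
      (∀ z, z ∈ M1 ↔ ∃ p q : R, z = p • x + q • y) ∧
      ∀ z, z ∈ M2 ↔ ∃ p q : R, z = (a * p) • x + (a * δ * q) • y := by
  obtain ⟨b, a, b', hb⟩ := (M2.comap M1.subtype).exists_smith_normal_form_of_rank_eq
    (Module.finBasisOfFinrankEq R M1 h1)
    (by rw [(Submodule.comapSubtypeEquivOfLe h).finrank_eq, h1, h2])
  have ha : ∀ i, a i ≠ 0 := fun i h0 => b'.ne_zero i (Subtype.ext (by rw [hb, h0, zero_smul]; rfl))
  have hb' : ∀ i, ((b' i : M1) : M) = a i • (b i : M) := fun i => by rw [hb]; rfl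
  have li : ∀ p q : R, p • (b 0 : M) + q • (b 1 : M) = 0 → p = 0 ∧ q = 0 := by
    intro p q e
    have := Fintype.linearIndependent_iff.1 b.linearIndependent ![p, q]
      (Subtype.ext (by simpa [Fin.sum_univ_two] using e))
    exact ⟨this 0, this 1⟩
  have m1 : ∀ z, z ∈ M1 ↔ ∃ p q : R, z = p • (b 0 : M) + q • (b 1 : M) := by
    intro z
    refine ⟨fun hz => ⟨b.repr ⟨z, hz⟩ 0, b.repr ⟨z, hz⟩ 1, ?_⟩, ?_⟩
    · have := congrArg Subtype.val (b.sum_repr ⟨z, hz⟩)
      simp only [Fin.sum_univ_two, Submodule.coe_add, Submodule.coe_smul] at this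
      exact this.symm
    · rintro ⟨p, q, rfl⟩
      exact M1.add_mem (M1.smul_mem _ (b 0).2) (M1.smul_mem _ (b 1).2)
  have m2 : ∀ z, z ∈ M2 ↔ ∃ p q : R, z = (a 0 * p) • (b 0 : M) + (a 1 * q) • (b 1 : M) := by
    intro z
    refine ⟨fun hz => ⟨b'.repr ⟨⟨z, h hz⟩, hz⟩ 0, b'.repr ⟨⟨z, h hz⟩, hz⟩ 1, ?_⟩, ?_⟩
    · have := congrArg (fun t => (t.1.1 : M)) (b'.sum_repr ⟨⟨z, h hz⟩, hz⟩)
      simp only [Fin.sum_univ_two, Submodule.coe_add, Submodule.coe_smul, hb'] at this
      rw [mul_comm (a 0), mul_comm (a 1), mul_smul, mul_smul]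
      exact this.symm
    · rintro ⟨p, q, rfl⟩
      rw [mul_comm (a 0), mul_comm (a 1), mul_smul, mul_smul, ← hb', ← hb']
      exact M2.add_mem (M2.smul_mem _ (b' 0).2) (M2.smul_mem _ (b' 1).2)
  obtain ⟨c, hc⟩ := IsBezout.gcd_dvd_left (a 0) (a 1)
  obtain ⟨e, he⟩ := IsBezout.gcd_dvd_right (a 0) (a 1)
  obtain ⟨u, v, huv⟩ := IsBezout.gcd_eq_sum (a 0) (a 1)
  generalize IsBezout.gcd (a 0) (a 1) = d at hc he huv
  have hd : d ≠ 0 := fun h0 => ha 0 (by rw [hc, h0, zero_mul])
  have hc0 : c ≠ 0 := fun h0 => ha 0 (by rw [hc, h0, mul_zero])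
  have he0 : e ≠ 0 := fun h0 => ha 1 (by rw [he, h0, mul_zero])
  have h3 : u * c + v * e = 1 := mul_left_cancel₀ hd (by rw [hc, he] at huv; linear_combination huv)
  refine ⟨c • b 0 + e • b 1, (-v) • b 0 + u • b 1, d, c * e, hd, mul_ne_zero hc0 he0, ?_, ?_, ?_⟩
  · intro p q h0
    obtain ⟨h4, h5⟩ := li (p * c - q * v) (p * e + q * u) (by rw [← h0]; module)
    exact ⟨by linear_combination u * h4 + v * h5 - p * h3,
      by linear_combination c * h5 - e * h4 - q * h3⟩
  · intro z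
    rw [m1]
    constructor
    · rintro ⟨p, q, rfl⟩
      refine ⟨p * u + q * v, q * c - p * e, ?_⟩
      match_scalars
      · linear_combination (-p) * h3
      · linear_combination (-q) * h3
    · rintro ⟨p, q, rfl⟩
      exact ⟨p * c - q * v, p * e + q * u, by module⟩
  · intro z
    rw [m2, hc, he]
    constructor
    · rintro ⟨p, q, rfl⟩
      refine ⟨p * c * u + q * e * v, q - p, ?_⟩
      match_scalars
      · linear_combination (-d * c * p) * h3
      · linear_combination (-d * e * q) * h3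
    · rintro ⟨p, q, rfl⟩
      exact ⟨p - q * v * e, p + q * u * c, by module⟩

theorem rk_gauss : Module.Free ℤ GaussianInt ∧ finrank ℤ GaussianInt = 2 := by
  let e : GaussianInt ≃+ ℤ × ℤ :=
    { toFun := fun z => (z.re, z.im)
      invFun := fun p => ⟨p.1, p.2⟩
      left_inv := fun _ => rfl
      right_inv := fun _ => rfl
      map_add' := fun _ _ => rfl }
  refine ⟨Module.Free.of_equiv e.toIntLinearEquiv.symm, ?_⟩
  rw [e.toIntLinearEquiv.finrank_eq]
  simp

theorem rk {M : Type*} [AddCommGroup M] [Module GaussianInt M] [Module.Finite ℤ M]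
    [Module.IsTorsionFree GaussianInt M] (h : finrank ℤ M = 4) :
    Module.Finite GaussianInt M ∧ Module.Free GaussianInt M ∧ finrank GaussianInt M = 2 := by
  have h1 : Module.Finite GaussianInt M := Module.Finite.of_restrictScalars_finite ℤ _ M
  have h2 : Module.Free GaussianInt M := inferInstance
  have h3 := rk_gauss.1
  have h4 := Module.finrank_mul_finrank ℤ GaussianInt M
  rw [rk_gauss.2, h] at h4
  exact ⟨h1, h2, by omega⟩

/-- `ℂ ^ 3` with the twisted action of the Gaussian integers -/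
def V : Type := Fin 3 → ℂ

instance : AddCommGroup V := inferInstanceAs (AddCommGroup (Fin 3 → ℂ))

theorem tw_add (s t : ℂ) (z : Fin 3 → ℂ) : tw (s + t) z = tw s z + tw t z := by
  funext i
  fin_cases i <;> simp [tw, add_mul]

theorem tw_add' (t : ℂ) (z w : Fin 3 → ℂ) : tw t (z + w) = tw t z + tw t w := by
  funext i
  fin_cases i <;> simp [tw, mul_add]

theorem tw_mul (s t : ℂ) (z : Fin 3 → ℂ) : tw (s * t) z = tw s (tw t z) := by
  funext i
  fin_cases i <;> simp [tw, mul_assoc]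

theorem tw_int (n : ℤ) (z : Fin 3 → ℂ) : tw n z = n • z := by
  funext i
  fin_cases i <;> simp [tw]

theorem tw_gauss (p : GaussianInt) (z : Fin 3 → ℂ) :
    tw p z = p.re • z + p.im • tw Complex.I z := by
  rw [GaussianInt.toComplex_def, tw_add, tw_mul, tw_int, tw_int]

theorem tw_one (z : Fin 3 → ℂ) : tw (1 : GaussianInt) z = z := by rw [tw_gauss]; simp

theorem tw_zero (z : Fin 3 → ℂ) : tw (0 : GaussianInt) z = 0 := by rw [tw_gauss]; simp

instance : Module GaussianInt V where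
  smul p z := tw p z
  one_smul z := tw_one z
  mul_smul p q z := (congrArg (tw · z) (GaussianInt.toComplex_mul p q)).trans (tw_mul _ _ z)
  smul_zero p := by
    funext i
    change tw p 0 i = 0
    fin_cases i <;> simp [tw]
  smul_add p z w := tw_add' _ z w
  add_smul p q z := (congrArg (tw · z) (GaussianInt.toComplex_add p q)).trans (tw_add _ _ z)
  zero_smul z := tw_zero z

instance : Module.IsTorsionFree GaussianInt V := by
  refine Module.IsTorsionFree.of_smul_eq_zero fun p z h => ?_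
  by_cases hp : p = 0
  · exact Or.inl hp
  have h0 : (p : ℂ) ≠ 0 := fun q => hp (GaussianInt.toComplex_eq_zero.1 q)
  have h1 : tw p z = 0 := h
  have h2 := tw_mul (p : ℂ)⁻¹ p z
  rw [inv_mul_cancel₀ h0, h1] at h2
  right
  funext i
  have h3 := congrFun h2 i
  change (z : Fin 3 → ℂ) i = 0
  fin_cases i <;> simpa [tw] using h3

/-- a subgroup which is stable under `i` -/
def sub (L : AddSubgroup (Fin 3 → ℂ)) (h : ∀ z ∈ L, tw Complex.I z ∈ L) :
    Submodule GaussianInt V where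
  carrier := (L : Set (Fin 3 → ℂ))
  zero_mem' := L.zero_mem
  add_mem' := L.add_mem
  smul_mem' p z hz :=
    (congrArg (· ∈ L) (tw_gauss p z)).mpr (L.add_mem (L.zsmul_mem hz _) (L.zsmul_mem (h z hz) _))

theorem plane (κ : ℂ) : ∃ W : Submodule ℝ (Fin 3 → ℂ), finrank ℝ W = 4 ∧
    ∀ z, z ∈ W ↔ z 2 = κ * z 0 := by
  let f : (ℂ × ℂ) →ₗ[ℝ] (Fin 3 → ℂ) :=
    { toFun := fun p => ![p.1, p.2, κ * p.1]
      map_add' := fun p q => by
        funext i
        fin_cases i <;> simp [mul_add]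
      map_smul' := fun c p => by
        funext i
        fin_cases i <;> simp [mul_left_comm] }
  have hf : Function.Injective f := fun p q h => Prod.ext (congrFun h 0) (congrFun h 1)
  refine ⟨LinearMap.range f, by rw [LinearMap.finrank_range_of_inj hf]; simp, fun z => ⟨?_, ?_⟩⟩
  · rintro ⟨p, rfl⟩
    rfl
  · intro h
    refine ⟨(z 0, z 1), ?_⟩
    funext i
    fin_cases i
    · rfl
    · rfl
    · exact h.symm

theorem lat (L : AddSubgroup (Fin 3 → ℂ)) (h : ∀ z ∈ L, tw Complex.I z ∈ L)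
    (hd : ∃ r > 0, ∀ z ∈ L, ‖z‖ < r → z = 0)
    (hW : finrank ℝ (Submodule.span ℝ (L : Set (Fin 3 → ℂ))) = 4) :
    Module.Finite GaussianInt (sub L h) ∧ Module.Free GaussianInt (sub L h) ∧
      finrank GaussianInt (sub L h) = 2 := by
  obtain ⟨r, hr, hd⟩ := hd
  have hm : ∀ z, z ∈ Submodule.span ℤ (L : Set (Fin 3 → ℂ)) ↔ z ∈ L := fun z => by
    rw [← Submodule.mem_toAddSubgroup, Submodule.span_int_eq]
  have h1 : DiscreteTopology (Submodule.span ℤ (L : Set (Fin 3 → ℂ))) := by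
    refine discreteTopology_iff_isOpen_singleton_zero.mpr ⟨Metric.ball 0 r, Metric.isOpen_ball, ?_⟩
    ext x
    rw [Set.mem_preimage, mem_ball_zero_iff, Set.mem_singleton_iff]
    exact ⟨fun q => Subtype.ext (hd _ ((hm _).1 x.2) q), fun q => by simpa [q] using hr⟩
  have h2 := Real.finrank_eq_int_finrank_of_discrete h1
  rw [Set.finrank, Set.finrank, hW] at h2
  let e : Submodule.span ℤ (L : Set (Fin 3 → ℂ)) ≃+ sub L h :=
    { toFun := fun z => ⟨z.1, (hm _).1 z.2⟩
      invFun := fun z => ⟨z.1, (hm _).2 z.2⟩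
      left_inv := fun _ => rfl
      right_inv := fun _ => rfl
      map_add' := fun _ _ => rfl }
  have h3 : Module.Finite ℤ (sub L h) := Module.Finite.equiv e.toIntLinearEquiv
  exact rk (by rw [← e.toIntLinearEquiv.finrank_eq, ← h2])

end Smith

theorem smith : SMITH := by
  intro κ L1 L2 hle hp hd h1 h2 hs
  obtain ⟨W, hW, hm⟩ := Smith.plane κ
  have e2 : W ≤ Submodule.span ℝ (L2 : Set (Fin 3 → ℂ)) := fun z hz => hs z ((hm z).1 hz)
  have e3 : Submodule.span ℝ (L2 : Set (Fin 3 → ℂ)) ≤ Submodule.span ℝ (L1 : Set (Fin 3 → ℂ)) :=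
    Submodule.span_mono hle
  have e1 : Submodule.span ℝ (L1 : Set (Fin 3 → ℂ)) ≤ W :=
    Submodule.span_le.2 fun z hz => (hm z).2 (hp z hz)
  obtain ⟨a1, a2, a3⟩ := Smith.lat L1 h1 hd (by rw [le_antisymm e1 (e2.trans e3), hW])
  obtain ⟨-, -, a4⟩ := Smith.lat L2 h2 (hd.imp fun r q => ⟨q.1, fun z hz => q.2 z (hle hz)⟩)
    (by rw [le_antisymm (e3.trans e1) e2, hW])
  exact Smith.alg (Smith.sub L1 h1) (Smith.sub L2 h2) hle a3 a4

end Vale.Agent.P027M.X
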