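import Vale.Agent.P027M.X.Top

/-! # P027, route M, blocks B2, B3 : the parts of the final glue (owner helper43) -/

set_option linter.all false

open Polynomial UpperHalfPlane
open scoped PowerSeries MatrixGroups ComplexConjugate

noncomputable section

namespace Vale.Agent.P027M.X

/-- the three primitives, multiplied by `t` -/
def uu (l0 l1 l2 : GaussianInt) (c : ℕ → GaussianInt) (t : ℂ) (j : Fin 3) : ℂ⟦X⟧ :=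
  PowerSeries.C (tw t 1 j) * PowerSeries.mk fun n => (B.hb l0 l1 l2 c j n : ℂ) / n

/-- their periods -/
def PP (l0 l1 l2 : GaussianInt) (c : ℕ → GaussianInt) (t : ℂ) (γ : SL(2, ℤ)) : Fin 3 → ℂ :=
  tw t ![l0 * p1 c γ, l1 * p3 c γ, l2 * p1 c γ]

/-- all the data -/
structure St (g : ℚ) (N : ℕ) (e : ℤ → GaussianInt) (c : ℕ → GaussianInt) (F0 : GaussianInt[X])
    (T0 l0 l1 l2 : GaussianInt) (ν : ℚ) (Γ : Subgroup SL(2, ℤ)) (η : ℝ) (x : ℤ⟦X⟧) (γ0 : B.Gam)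
    (E : (Fin 3 → ℂ) →+ PicP (fG (g : ℂ) (T0 : ℂ))) : Prop where
  rg : Rg (g : ℂ) (T0 : ℂ)
  hl1 : l1 ≠ 0
  dt : Dt g N e c F0 T0 l0 l1 l2 ν
  m1 : Md1 Γ c η
  m2 : Md2 Γ c x γ0
  m3 : Md3 Γ
  exp : IsExp (fG (g : ℂ) (T0 : ℂ)) (fun m w => cl _ (m, w)) E

/-- [X.MONB] the hypotheses of the monodromy theorems; from `sep`, `leafC` (with `K = ℚ(i)`,
`B.ccmap`, `Md2.an`), `mona` -/
def MONB : Prop := ∀ g N e c F0 T0 l0 l1 l2 ν Γ η x γ0 E,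
  St g N e c F0 T0 l0 l1 l2 ν Γ η x γ0 E → ∀ a b : ℚ, (a ≠ 0 ∨ b ≠ 0) →
  Mon Γ (fG (g : ℂ) (T0 : ℂ)) E (x.map (Int.castRingHom ℂ))
    (uu l0 l1 l2 c (a + b * Complex.I)) (PP l0 l1 l2 c (a + b * Complex.I))

/-- [X.FINB] from `finc` (with `K = ℚ(i)`, `B.ccmap`, `Md2.an`) -/
def FINB : Prop := ∀ g N e c F0 T0 l0 l1 l2 ν Γ η x γ0 E,
  St g N e c F0 T0 l0 l1 l2 ν Γ η x γ0 E →
  ∃ M : ℕ, 0 < M ∧ ∀ γ ∈ Γ, E (M • PP l0 l1 l2 c 1 γ) = 0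

/-- [X.LATT] from `B2.lat`, `MONB FINB MONS HEX`, `eqh`, `eqi` -/
def LATT : Prop := ∀ g N e c F0 T0 l0 l1 l2 ν Γ η x γ0 E (K0 : ℕ),
  St g N e c F0 T0 l0 l1 l2 ν Γ η x γ0 E → CycC g T0 K0 →
  ∃ a b : ℚ, (a ≠ 0 ∨ b ≠ 0) ∧ (∀ γ ∈ Γ, E (PP l0 l1 l2 c (a + b * Complex.I) γ) = 0) ∧
    ∀ lam : Fin 3 → ℂ, E lam = 0 → lam 2 = (3 - g) / (g + 1) * T0 * lam 0 →
      ∃ γ ∈ Γ, (K0 : ℂ) • lam = PP l0 l1 l2 c (a + b * Complex.I) γ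

/-- [X.PRIMO] from `MONO`, `sol`, `solm`, `Md3.frb` : take `i : Qb` with `M.io i = I`,
`T = gi i T0`, three large distinct natural numbers which are not roots as base points,
`h j = mk fun n => ![a + b i, a - b i, a + b i] j * gi i (hb l0 l1 l2 c j n)`, `n0 = 1`, `n1 = 11` -/
def PRIMO : Prop := ∀ g N e c F0 T0 l0 l1 l2 ν Γ η x γ0 E,
  St g N e c F0 T0 l0 l1 l2 ν Γ η x γ0 E → ∀ (a b : ℚ) (t : ℂ), t = a + b * Complex.I → t ≠ 0 →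
  Mon Γ (fG (g : ℂ) (T0 : ℂ)) E (x.map (Int.castRingHom ℂ)) (uu l0 l1 l2 c t) (PP l0 l1 l2 c t) →
  (∀ γ ∈ Γ, E (PP l0 l1 l2 c t γ) = 0) → ∀ A : ℝ,
  (‖t * l0‖ * ‖t * l1‖ * ‖(c 11 : ℂ)‖ * ‖(T0 : ℂ)‖ ^ 2) ^ 2 ≤ A → P027M.N.Prim g A

end Vale.Agent.P027M.X
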